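import Vale.Agent.P199.MathlibUsed

set_option linter.all false

section

section

/-!
# P199, blueprint H: passing to the centre (Artin-Tate)

Exports: `not_finite_center`, `not_finite_center'`.
-/

namespace P199H

/-- Artin-Tate: an algebraic division algebra which is generated by a finite set and
infinite-dimensional over `F` is infinite-dimensional over its centre. -/
theorem not_finite_center {F A : Type} [Field F] [DivisionRing A] [Algebra F A]
    (halg : ∀ a : A, IsAlgebraic F a) (S : Set A) (hS : S.Finite)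
    (hgen : Algebra.adjoin F S = ⊤) (hinf : ¬ Module.Finite F A) :
    ¬ Module.Finite (Subring.center A) A := by
  intro hfin
  apply hinf
  -- the centre as an algebra over `F`
  let f : F →+* Subring.center A :=
    (algebraMap F A).codRestrict (Subring.center A) fun r =>
      Subring.mem_center_iff.2 fun g => (Algebra.commutes r g).symm
  let _ : Algebra F (Subring.center A) := f.toAlgebra
  have hf : ∀ r : F, ((algebraMap F (Subring.center A) r : Subring.center A) : A) =
      algebraMap F A r := fun _ => rfl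
  have : IsScalarTower F (Subring.center A) A := IsScalarTower.of_algebraMap_eq fun r => rfl
  -- the centre is algebraic over `F`
  have hint : ∀ z : Subring.center A, IsIntegral F z := by
    intro z
    have h1 : IsIntegral F (z : A) := (halg (z : A)).isIntegral
    obtain ⟨p, hp, hpz⟩ := h1
    refine ⟨p, hp, ?_⟩
    apply Subtype.ext
    rw [ZeroMemClass.coe_zero]
    have h2 : ((Polynomial.eval₂ (algebraMap F (Subring.center A)) z p : Subring.center A) : A) =
        Polynomial.eval₂ (algebraMap F A) (z : A) p := by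
      have h3 := Polynomial.hom_eval₂ p (algebraMap F (Subring.center A))
        (Subring.center A).subtype z
      exact h3
    rw [h2, hpz]
  have hfg : (⊤ : Subalgebra F A).FG := by
    refine ⟨hS.toFinset, ?_⟩
    rw [Set.Finite.coe_toFinset]
    exact hgen
  obtain ⟨B₀, hB₀, hB₀A⟩ := exists_subalgebra_of_fg F (Subring.center A) A hfg hfin.fg_top
  have h1 : Module.Finite F B₀ := by
    obtain ⟨t, rfl⟩ := hB₀
    exact Module.Finite.iff_fg.2 (fg_adjoin_of_finite t.finite_toSet fun x _ => hint x)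
  have h2 : Module.Finite B₀ A := ⟨hB₀A⟩
  exact Module.Finite.trans B₀ A

/-- The centre form: an algebraic division algebra generated by a finite set and
infinite-dimensional over `F` is algebraic over its centre, generated over it by the same finite
set, and infinite-dimensional over it. -/
theorem not_finite_center' {F A : Type} [Field F] [DivisionRing A] [Algebra F A]
    (halg : ∀ a : A, IsAlgebraic F a) (S : Set A) (hS : S.Finite)
    (hgen : Algebra.adjoin F S = ⊤) (hinf : ¬ Module.Finite F A) :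
    (∀ a : A, IsAlgebraic (Subring.center A) a) ∧ Algebra.adjoin (Subring.center A) S = ⊤ ∧
      ¬ Module.Finite (Subring.center A) A := by
  refine ⟨fun a => ?_, ?_, not_finite_center halg S hS hgen hinf⟩
  · let f : F →+* Subring.center A :=
      (algebraMap F A).codRestrict (Subring.center A) fun r =>
        Subring.mem_center_iff.2 fun g => (Algebra.commutes r g).symm
    have h1 : IsIntegral F a := (halg a).isIntegral
    obtain ⟨p, hp, hpz⟩ := h1
    have h2 : IsIntegral (Subring.center A) a := by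
      refine ⟨p.map f, hp.map f, ?_⟩
      rw [Polynomial.eval₂_map]
      exact hpz
    exact h2.isAlgebraic
  · rw [eq_top_iff]
    intro a _
    have ha : a ∈ Algebra.adjoin F S := by rw [hgen]; trivial
    induction ha using Algebra.adjoin_induction with
    | mem x hx => exact Algebra.subset_adjoin hx
    | algebraMap r =>
      have hr : algebraMap F A r ∈ Subring.center A :=
        Subring.mem_center_iff.2 fun g => (Algebra.commutes r g).symm
      exact Subalgebra.algebraMap_mem (Algebra.adjoin (Subring.center A) S)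
        (⟨algebraMap F A r, hr⟩ : Subring.center A)
    | add x y _ _ hx hy => exact add_mem (hx trivial) (hy trivial)
    | mul x y _ _ hx hy => exact mul_mem (hx trivial) (hy trivial)

end P199H
end
end

section

section

set_option linter.all false

/-!
# P199, blueprint H: multigraded Hilbert series

`Gr k ι M` is a grading of the `k`-space `M` by `ι →₀ ℕ` with finite-dimensional pieces, given
by its projections.  For a homogeneous subspace `V` the series `G.hs V` has the dimensions of the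
pieces of `V` as coefficients; the Hilbert series of a quotient `V / U` is `G.hs V - G.hs U`.
-/

open Finset

namespace P199H

/-- Degrees. -/
abbrev Dg (ι : Type) := ι →₀ ℕ

/-- A grading of the `k`-space `M` by `ι →₀ ℕ` with finite-dimensional pieces. -/
structure Gr (k : Type*) [Field k] (ι : Type) (M : Type*) [AddCommGroup M] [Module k M] where
  π : Dg ι → M →ₗ[k] M
  π_same : ∀ m x, π m (π m x) = π m x
  π_ne : ∀ m m' x, m ≠ m' → π m (π m' x) = 0
  fin : ∀ x, {m | π m x ≠ 0}.Finite
  sep : ∀ x, (∀ m, π m x = 0) → x = 0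
  fd : ∀ m, Module.Finite k (LinearMap.range (π m))

section Basics

variable {k : Type*} [Field k] {ι : Type} {M : Type*} [AddCommGroup M] [Module k M]
variable {M' : Type*} [AddCommGroup M'] [Module k M']

/-- Homogeneous subspaces. -/
def Gr.IsHom (G : Gr k ι M) (V : Submodule k M) : Prop := ∀ m, ∀ x ∈ V, G.π m x ∈ V

/-- The Hilbert series of a homogeneous subspace. -/
noncomputable def Gr.hs (G : Gr k ι M) (V : Submodule k M) : MvPowerSeries ι ℤ :=
  fun m => (Module.finrank k (V.map (G.π m)) : ℤ)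

/-- `f` is homogeneous of degree `d`. -/
def IsDeg (G : Gr k ι M) (G' : Gr k ι M') (d : Dg ι) (f : M →ₗ[k] M') : Prop :=
  ∀ m x, f (G.π m x) = G'.π (m + d) (f x)

/-- the monomial `t^d` as a power series -/
noncomputable abbrev tp (d : Dg ι) : MvPowerSeries ι ℤ := MvPowerSeries.monomial d (1 : ℤ)

theorem Gr.coeff_hs (G : Gr k ι M) (V : Submodule k M) (m : Dg ι) :
    MvPowerSeries.coeff m (G.hs V) = (Module.finrank k (V.map (G.π m)) : ℤ) := rfl

theorem Gr.sum_eq (G : Gr k ι M) (x : M) : ∑ m ∈ (G.fin x).toFinset, G.π m x = x := by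
  classical
  rw [← sub_eq_zero, ← neg_eq_zero, neg_sub]
  apply G.sep
  intro m
  rw [map_sub, map_sum]
  by_cases hm : m ∈ (G.fin x).toFinset
  · rw [Finset.sum_eq_single m]
    · rw [G.π_same, sub_self]
    · intro b _ hb
      exact G.π_ne _ _ _ hb.symm
    · intro h; exact absurd hm h
  · rw [Finset.sum_eq_zero, sub_zero]
    · by_contra h
      exact hm (by simpa using h)
    · intro b hb
      apply G.π_ne
      rintro rfl
      exact hm hb

theorem Gr.isHom_top (G : Gr k ι M) : G.IsHom ⊤ := fun _ _ _ => Submodule.mem_top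
theorem Gr.IsHom.sup {G : Gr k ι M} {U V : Submodule k M} (hU : G.IsHom U) (hV : G.IsHom V) :
    G.IsHom (U ⊔ V) := by
  intro m x hx
  obtain ⟨u, hu, v, hv, rfl⟩ := Submodule.mem_sup.1 hx
  rw [map_add]
  exact Submodule.add_mem_sup (hU m u hu) (hV m v hv)

theorem Gr.IsHom.inf {G : Gr k ι M} {U V : Submodule k M} (hU : G.IsHom U) (hV : G.IsHom V) :
    G.IsHom (U ⊓ V) := fun m x hx => ⟨hU m x hx.1, hV m x hx.2⟩

theorem Gr.IsHom.map {G : Gr k ι M} {G' : Gr k ι M'} {d : Dg ι} {f : M →ₗ[k] M'}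
    (hf : IsDeg G G' d f) {V : Submodule k M} (hV : G.IsHom V) : G'.IsHom (V.map f) := by
  classical
  rintro m _ ⟨x, hx, rfl⟩
  rw [← G.sum_eq x, map_sum, map_sum]
  refine Submodule.sum_mem _ fun b _ => ?_
  by_cases hb : m = b + d
  · rw [hf, hb, G'.π_same, ← hf]
    exact ⟨_, hV b x hx, rfl⟩
  · rw [hf, G'.π_ne _ _ _ hb]
    exact Submodule.zero_mem _

theorem Gr.IsHom.comap {G : Gr k ι M} {G' : Gr k ι M'} {d : Dg ι} {f : M →ₗ[k] M'}
    (hf : IsDeg G G' d f) {U : Submodule k M'} (hU : G'.IsHom U) : G.IsHom (U.comap f) := by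
  intro m x hx
  rw [Submodule.mem_comap] at hx ⊢
  rw [hf]
  exact hU _ _ hx

theorem Gr.IsHom.mem_map {G : Gr k ι M} {V : Submodule k M} (hV : G.IsHom V) (m : Dg ι) (x : M) :
    x ∈ V.map (G.π m) ↔ x ∈ V ∧ G.π m x = x := by
  constructor
  · rintro ⟨y, hy, rfl⟩
    exact ⟨hV m y hy, G.π_same _ _⟩
  · rintro ⟨h1, h2⟩
    exact ⟨x, h1, h2⟩

instance Gr.finite_map (G : Gr k ι M) (V : Submodule k M) (m : Dg ι) :
    Module.Finite k (V.map (G.π m)) := by
  have := G.fd m
  exact Submodule.finiteDimensional_of_le (LinearMap.map_le_range (f := G.π m) (p := V))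

/-- `f x` has no components in degrees which are not `≥ d`. -/
theorem IsDeg.pi_eq_zero {G : Gr k ι M} {G' : Gr k ι M'} {d : Dg ι} {f : M →ₗ[k] M'}
    (hf : IsDeg G G' d f) (x : M) {m : Dg ι} (hm : ∀ m', m ≠ m' + d) : G'.π m (f x) = 0 := by
  rw [← G.sum_eq x, map_sum, map_sum]
  exact Finset.sum_eq_zero fun b _ => by rw [hf, G'.π_ne _ _ _ (hm b)]

theorem finrank_map_add {V : Submodule k M} [Module.Finite k V] (f : M →ₗ[k] M') :
    Module.finrank k (V.map f) + Module.finrank k (V ⊓ LinearMap.ker f : Submodule k M) =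
      Module.finrank k V := by
  have h := LinearMap.finrank_range_add_finrank_ker (f.domRestrict V)
  rw [LinearMap.range_domRestrict] at h
  rw [← h, LinearMap.ker_domRestrict]
  congr 1
  have e : Submodule.comap V.subtype (LinearMap.ker f) =
    Submodule.comap V.subtype (V ⊓ LinearMap.ker f) := by
    ext x; simp
  rw [e]
  exact (LinearEquiv.finrank_eq (Submodule.comapSubtypeEquivOfLe inf_le_left)).symm

/-- **The shift lemma**: for a homogeneous map `f : M → M'` of degree `d` and homogeneous subspaces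
`V ≤ M`, `U ≤ M'` the Hilbert series of `(f V + U) / U` is `t^d` times that of
`V / (V ∩ f⁻¹ U)`. -/
theorem hs_shift {G : Gr k ι M} {G' : Gr k ι M'} {d : Dg ι} {f : M →ₗ[k] M'}
    (hf : IsDeg G G' d f) {V : Submodule k M} (hV : G.IsHom V) {U : Submodule k M'}
    (hU : G'.IsHom U) :
    G'.hs (V.map f ⊔ U) - G'.hs U = tp d * (G.hs V - G.hs (V ⊓ U.comap f)) := by
  classical
  ext m
  rw [MvPowerSeries.coeff_monomial_mul]
  simp only [map_sub, Gr.coeff_hs, one_mul]
  split_ifs with hd
  · obtain ⟨m', rfl⟩ : ∃ m', m = m' + d := ⟨m - d, (tsub_add_cancel_of_le hd).symm⟩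
    rw [add_tsub_cancel_right]
    -- identify the pieces
    have e1 : (V.map f ⊔ U).map (G'.π (m' + d)) =
        (V.map (G.π m')).map f ⊔ U.map (G'.π (m' + d)) := by
      rw [Submodule.map_sup]
      congr 1
      rw [← Submodule.map_comp, ← Submodule.map_comp]
      congr 1
      ext x
      exact (hf m' x).symm
    have e2 : (V ⊓ U.comap f).map (G.π m') =
        V.map (G.π m') ⊓ (U.map (G'.π (m' + d))).comap f := by
      ext x
      rw [(hV.inf (hU.comap hf)).mem_map, Submodule.mem_inf, Submodule.mem_inf, hV.mem_map,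
        Submodule.mem_comap, Submodule.mem_comap, hU.mem_map]
      constructor
      · rintro ⟨⟨h1, h2⟩, h3⟩
        exact ⟨⟨h1, h3⟩, h2, by rw [← hf, h3]⟩
      · rintro ⟨⟨h1, h3⟩, h2, h4⟩
        exact ⟨⟨h1, h2⟩, h3⟩
    rw [e1, e2]
    set A := V.map (G.π m') with hA
    set B := U.map (G'.π (m' + d)) with hB
    have h1 := Submodule.finrank_sup_add_finrank_inf_eq (A.map f) B
    have h2 := finrank_map_add (V := A) f
    have : Module.Finite k (A ⊓ B.comap f : Submodule k M) :=
      Submodule.finiteDimensional_of_le (inf_le_left : A ⊓ B.comap f ≤ A)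
    have h3 := finrank_map_add (V := (A ⊓ B.comap f : Submodule k M)) f
    have e3 : (A ⊓ B.comap f).map f = A.map f ⊓ B := by
      ext y
      constructor
      · rintro ⟨x, ⟨hx1, hx2⟩, rfl⟩
        exact ⟨⟨x, hx1, rfl⟩, hx2⟩
      · rintro ⟨⟨x, hx1, rfl⟩, hx2⟩
        exact ⟨x, ⟨hx1, hx2⟩, rfl⟩
    have e4 : A ⊓ B.comap f ⊓ LinearMap.ker f = A ⊓ LinearMap.ker f := by
      ext y
      constructor
      · rintro ⟨⟨hx1, hx2⟩, hx3⟩
        exact ⟨hx1, hx3⟩
      · rintro ⟨hx1, hx3⟩
        refine ⟨⟨hx1, ?_⟩, hx3⟩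
        have : f y = 0 := hx3
        change f y ∈ B
        rw [this]
        exact Submodule.zero_mem _
    rw [e3, e4] at h3
    omega
  · have hm : ∀ m', m ≠ m' + d := by
      rintro m' rfl
      exact hd (le_add_self)
    have e1 : (V.map f ⊔ U).map (G'.π m) = U.map (G'.π m) := by
      rw [Submodule.map_sup]
      have : (V.map f).map (G'.π m) = ⊥ := by
        rw [eq_bot_iff]
        rintro _ ⟨_, ⟨x, _, rfl⟩, rfl⟩
        rw [hf.pi_eq_zero x hm]
        exact Submodule.zero_mem _
      rw [this, bot_sup_eq]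
    rw [e1, sub_self]

theorem tp_zero : tp (0 : Dg ι) = 1 := rfl

theorem tp_add (a b : Dg ι) : tp (a + b) = tp a * tp b := by
  rw [MvPowerSeries.monomial_mul_monomial, one_mul]

end Basics

section Poly

variable {k : Type*} [Field k] {ι : Type} {J : Type*}

theorem finite_weight_eq [Finite J] (w : J → Dg ι) (hw : ∀ j, w j ≠ 0) (m : Dg ι) :
    {e : J →₀ ℕ | Finsupp.weight w e = m}.Finite := by
  classical
  have := Fintype.ofFinite J
  have hd : ∀ e : J →₀ ℕ, Finsupp.weight w e = m → ∀ j, e j ≤ m.degree := by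
    intro e he j
    have h1 : (Finsupp.weight w e).degree = m.degree := by rw [he]
    rw [Finsupp.weight_apply, Finsupp.sum, map_sum] at h1
    by_cases hj : j ∈ e.support
    · have h2 : (e j • w j).degree ≤ m.degree := by
        rw [← h1]
        exact Finset.single_le_sum (f := fun i => (e i • w i).degree) (fun _ _ => Nat.zero_le _) hj
      have h3 : (e j • w j).degree = e j * (w j).degree := by
        rw [map_nsmul, smul_eq_mul]
      have h4 : 1 ≤ (w j).degree := by
        rw [Nat.one_le_iff_ne_zero]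
        intro h
        exact hw j ((Finsupp.degree_eq_zero_iff _).1 h)
      rw [h3] at h2
      exact le_trans (Nat.le_mul_of_pos_right _ h4) h2
    · rw [Finsupp.notMem_support_iff.1 hj]
      exact Nat.zero_le _
  refine Set.Finite.subset (Set.finite_Iic (Finsupp.equivFunOnFinite.symm fun _ => m.degree)) ?_
  intro e he
  rw [Set.mem_Iic, Finsupp.le_def]
  intro j
  exact hd e he j

/-- The grading of the polynomial ring by the weights `w`. -/
noncomputable def grPoly (k : Type*) [Field k] [Finite J] (w : J → Dg ι) (hw : ∀ j, w j ≠ 0) :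
    Gr k ι (MvPolynomial J k) where
  π m := MvPolynomial.weightedHomogeneousComponent w m
  π_same m x := (MvPolynomial.weightedHomogeneousComponent_isWeightedHomogeneous
    m x).weightedHomogeneousComponent_same
  π_ne m m' x h := (MvPolynomial.weightedHomogeneousComponent_isWeightedHomogeneous
    m' x).weightedHomogeneousComponent_ne m h
  fin x := MvPolynomial.weightedHomogeneousComponent_finsupp x
  sep x hx := by
    rw [← MvPolynomial.sum_weightedHomogeneousComponent w x]
    simp [hx]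
  fd m := by
    have h1 := (finite_weight_eq w hw m).to_subtype
    have h2 : LinearMap.range (MvPolynomial.weightedHomogeneousComponent (R := k) w m) ≤
        Submodule.span k ((fun e => MvPolynomial.monomial e (1 : k)) ''
          {e : J →₀ ℕ | Finsupp.weight w e = m}) := by
      classical
      rintro _ ⟨x, rfl⟩
      rw [MvPolynomial.weightedHomogeneousComponent_apply]
      refine Submodule.sum_mem _ fun e he => ?_
      have : MvPolynomial.monomial e (MvPolynomial.coeff e x) =
          MvPolynomial.coeff e x • MvPolynomial.monomial e (1 : k) := by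
        rw [MvPolynomial.smul_monomial, smul_eq_mul, mul_one]
      rw [this]
      exact Submodule.smul_mem _ _ (Submodule.subset_span ⟨e, (Finset.mem_filter.1 he).2, rfl⟩)
    have h3 : Module.Finite k (Submodule.span k ((fun e => MvPolynomial.monomial e (1 : k)) ''
          {e : J →₀ ℕ | Finsupp.weight w e = m})) :=
      Module.Finite.span_of_finite k ((finite_weight_eq w hw m).image _)
    exact Submodule.finiteDimensional_of_le h2

/-- Homogeneous ideals. -/
def HomI (w : J → Dg ι) (I : Ideal (MvPolynomial J k)) : Prop :=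
  ∀ p ∈ I, ∀ m, MvPolynomial.weightedHomogeneousComponent w m p ∈ I

end Poly

section Pi

variable {k : Type*} [Field k] {ι : Type} {M : Type*} [AddCommGroup M] [Module k M]
variable {κ : Type*} [Finite κ]

open Classical in
/-- The grading of `κ → M` for which the `i`-th unit vector has degree `σ i`. -/
noncomputable def grPi (σ : κ → Dg ι) (G : Gr k ι M) : Gr k ι (κ → M) where
  π m := LinearMap.pi fun i => if σ i ≤ m then (G.π (m - σ i)) ∘ₗ LinearMap.proj i else 0
  π_same m x := by
    funext i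
    by_cases h : σ i ≤ m
    · simp [h, G.π_same]
    · simp [h]
  π_ne m m' x hm := by
    funext i
    by_cases h : σ i ≤ m
    · by_cases h' : σ i ≤ m'
      · simp only [LinearMap.pi_apply, h, h', if_true, LinearMap.comp_apply,
          LinearMap.proj_apply, Pi.zero_apply]
        apply G.π_ne
        intro e
        apply hm
        rw [← tsub_add_cancel_of_le h, e, tsub_add_cancel_of_le h']
      · simp [h, h']
    · simp [h]
  fin x := by
    have : ∀ i, {m | (if σ i ≤ m then (G.π (m - σ i)) (x i) else 0) ≠ 0}.Finite := by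
      intro i
      refine ((G.fin (x i)).image (fun m => m + σ i)).subset ?_
      intro m hm
      simp only [Set.mem_ofPred_eq, ne_eq] at hm
      by_cases h : σ i ≤ m
      · rw [if_pos h] at hm
        exact ⟨m - σ i, hm, tsub_add_cancel_of_le h⟩
      · rw [if_neg h] at hm
        exact absurd rfl hm
    refine (Set.finite_iUnion this).subset ?_
    intro m hm
    simp only [Set.mem_ofPred_eq, ne_eq] at hm
    by_contra hc
    apply hm
    funext i
    simp only [Set.mem_iUnion, Set.mem_ofPred_eq, not_exists, not_not] at hc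
    have := hc i
    by_cases h : σ i ≤ m
    · simpa [h] using this
    · simp [h]
  sep x hx := by
    funext i
    apply G.sep
    intro m
    have := congrFun (hx (m + σ i)) i
    simpa using this
  fd m := by
    have h : ∀ i, Module.Finite k (LinearMap.range (G.π (m - σ i))) := fun i => G.fd _
    let F : (∀ i, LinearMap.range (G.π (m - σ i))) →ₗ[k] (κ → M) :=
      LinearMap.pi fun i => (Submodule.subtype _) ∘ₗ LinearMap.proj i
    have h2 : LinearMap.range (LinearMap.pi fun i => if σ i ≤ m then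
        (G.π (m - σ i)) ∘ₗ LinearMap.proj i else 0 : (κ → M) →ₗ[k] (κ → M)) ≤
        LinearMap.range F := by
      rintro _ ⟨x, rfl⟩
      refine ⟨fun i => ⟨if σ i ≤ m then G.π (m - σ i) (x i) else 0, ?_⟩, ?_⟩
      · split_ifs
        · exact ⟨_, rfl⟩
        · exact Submodule.zero_mem _
      · funext i
        by_cases h : σ i ≤ m
        · simp [F, h]
        · simp [F, h]
    have h3 : Module.Finite k (LinearMap.range F) := Module.Finite.range F
    exact Submodule.finiteDimensional_of_le h2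

end Pi

end P199H
end
end

section

section

set_option linter.all false

/-!
# P199, blueprint H, L1: the Hilbert-Serre theorem
-/

open Finset

namespace P199H

variable {k : Type*} [Field k] {ι : Type} {J : Type*}
variable {M : Type*} [AddCommGroup M] [Module k M] [Module (MvPolynomial J k) M]
  [IsScalarTower k (MvPolynomial J k) M]

theorem coe_monomial_tp (d : Dg ι) :
    ((MvPolynomial.monomial d (1 : ℤ) : MvPolynomial ι ℤ) : MvPowerSeries ι ℤ) =
      tp d := MvPolynomial.coe_monomial d 1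

/-- A series is a polynomial if almost all coefficients vanish. -/
theorem exists_poly_of_finite (f : MvPowerSeries ι ℤ)
    (h : {m | MvPowerSeries.coeff m f ≠ 0}.Finite) :
    ∃ q : MvPolynomial ι ℤ, (q : MvPowerSeries ι ℤ) = f := by
  classical
  refine ⟨∑ m ∈ h.toFinset, MvPolynomial.monomial m (MvPowerSeries.coeff m f), ?_⟩
  ext m
  rw [MvPolynomial.coeff_coe, MvPolynomial.coeff_sum]
  simp only [MvPolynomial.coeff_monomial]
  rw [Finset.sum_ite_eq']
  split_ifs with hm
  · rfl
  · by_contra hc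
    apply hm
    simpa using Ne.symm hc

/-- If a homogeneous subspace `V` is spanned by `U` and finitely many vectors then the series of
`V / U` is a polynomial. -/
theorem hs_sub_poly_of_span (G : Gr k ι M) {U V : Submodule k M}
    (hUV : U ≤ V) (s : Finset M) (hs : V ≤ U ⊔ Submodule.span k (s : Set M)) :
    ∃ q : MvPolynomial ι ℤ, (q : MvPowerSeries ι ℤ) = G.hs V - G.hs U := by
  classical
  apply exists_poly_of_finite
  have hfin : (⋃ x ∈ s, {m | G.π m x ≠ 0}).Finite :=
    Set.Finite.biUnion s.finite_toSet fun x _ => G.fin x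
  refine hfin.subset ?_
  intro m hm
  by_contra hc
  apply hm
  rw [map_sub, G.coeff_hs, G.coeff_hs]
  have h0 : ∀ x ∈ s, G.π m x = 0 := by
    intro x hx
    by_contra h
    exact hc (Set.mem_biUnion hx h)
  have e : V.map (G.π m) = U.map (G.π m) := by
    apply le_antisymm
    · refine (Submodule.map_mono hs).trans ?_
      rw [Submodule.map_sup, sup_le_iff]
      refine ⟨le_rfl, ?_⟩
      rw [Submodule.map_span, Submodule.span_le]
      rintro _ ⟨x, hx, rfl⟩
      rw [h0 x hx]
      exact Submodule.zero_mem _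
    · exact Submodule.map_mono hUV
  rw [e, sub_self]

/-- The base case: if all variables map `V` into `U` then `V / U` is finite-dimensional. -/
theorem base_poly [IsNoetherian (MvPolynomial J k) M] (G : Gr k ι M)
    {U V : Submodule (MvPolynomial J k) M} (hUV : U ≤ V)
    (h : ∀ j : J, ∀ x ∈ V, (MvPolynomial.X j : MvPolynomial J k) • x ∈ U) :
    ∃ q : MvPolynomial ι ℤ, (q : MvPowerSeries ι ℤ) =
      G.hs (V.restrictScalars k) - G.hs (U.restrictScalars k) := by
  classical
  obtain ⟨s, hs⟩ := IsNoetherian.noetherian V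
  apply hs_sub_poly_of_span G (s := s)
  · exact hUV
  have hsV : ∀ x ∈ s, x ∈ V := fun x hx => by
    rw [← hs]; exact Submodule.subset_span hx
  have key : ∀ p : MvPolynomial J k, ∀ x ∈ V,
      p • x - MvPolynomial.constantCoeff p • x ∈ U := by
    intro p
    induction p using MvPolynomial.induction_on with
    | C a =>
      intro x _
      rw [MvPolynomial.constantCoeff_C]
      have : (MvPolynomial.C a : MvPolynomial J k) • x = a • x := by
        rw [← MvPolynomial.algebraMap_eq, algebraMap_smul]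
      rw [this, sub_self]
      exact U.zero_mem
    | add p q hp hq =>
      intro x hx
      have := U.add_mem (hp x hx) (hq x hx)
      rw [map_add, add_smul, add_smul]
      convert this using 1
      abel
    | mul_X p j hp =>
      intro x hx
      rw [map_mul, MvPolynomial.constantCoeff_X, mul_zero, zero_smul, sub_zero, mul_smul]
      exact U.smul_mem _ (h j x hx)
  intro x hx
  have hx' : x ∈ Submodule.span (MvPolynomial J k) (s : Set M) := by rw [hs]; exact hx
  rw [Submodule.mem_sup]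
  have : ∃ z ∈ Submodule.span k (s : Set M), x - z ∈ U := by
    refine Submodule.span_induction (p := fun x _ => ∃ z ∈ Submodule.span k (s : Set M),
      x - z ∈ U) ?_ ?_ ?_ ?_ hx'
    · intro y hy
      exact ⟨y, Submodule.subset_span hy, by rw [sub_self]; exact U.zero_mem⟩
    · exact ⟨0, Submodule.zero_mem _, by rw [sub_self]; exact U.zero_mem⟩
    · rintro y z _ _ ⟨y', hy', hy''⟩ ⟨z', hz', hz''⟩
      refine ⟨y' + z', Submodule.add_mem _ hy' hz', ?_⟩
      have := U.add_mem hy'' hz''
      convert this using 1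
      abel
    · rintro p y hy ⟨y', hy', hy''⟩
      have hyV : y ∈ V := by rw [← hs]; exact hy
      have hy'V : y' ∈ V := by
        have h3 := V.sub_mem hyV (hUV hy'')
        rwa [sub_sub_cancel] at h3
      refine ⟨MvPolynomial.constantCoeff p • y', Submodule.smul_mem _ _ hy', ?_⟩
      have h1 := U.smul_mem p hy''
      have h2 := key p y' hy'V
      have := U.add_mem h1 h2
      convert this using 1
      rw [smul_sub]
      abel
  obtain ⟨z, hz, hz'⟩ := this
  exact ⟨x - z, hz', z, hz, by abel⟩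

/-- **L1 (Hilbert-Serre)**, inductive form. -/
theorem hilbert_serre_aux [IsNoetherian (MvPolynomial J k) M] (G : Gr k ι M)
    {κ : Type*} [DecidableEq κ] (Y : κ → (M →ₗ[MvPolynomial J k] M)) (d : κ → Dg ι)
    (hY : ∀ i, IsDeg G G (d i) ((Y i).restrictScalars k))
    (hcomm : ∀ i j, ∃ c : k, ∀ x, Y i (Y j x) = c • Y j (Y i x))
    (hX : ∀ j : J, ∃ i, ∃ e : ℕ, ∀ x, (MvPolynomial.X j : MvPolynomial J k) • x =
      ((Y i) ^ (e + 1)) x) (T : Finset κ) :
    ∀ U V : Submodule (MvPolynomial J k) M, U ≤ V → G.IsHom (U.restrictScalars k) →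
      G.IsHom (V.restrictScalars k) → (∀ i, ∀ x ∈ U, Y i x ∈ U) → (∀ i, ∀ x ∈ V, Y i x ∈ V) →
      (∀ i, i ∉ T → ∀ x ∈ V, Y i x ∈ U) →
      ∃ q : MvPolynomial ι ℤ, (q : MvPowerSeries ι ℤ) =
        (G.hs (V.restrictScalars k) - G.hs (U.restrictScalars k)) * ∏ i ∈ T, (1 - tp (d i)) := by
  classical
  induction T using Finset.induction_on with
  | empty =>
    intro U V hUV hU hV hYU hYV hT
    obtain ⟨q, hq⟩ := base_poly G hUV (fun j x hx => by
      obtain ⟨i, e, he⟩ := hX j
      rw [he, pow_succ, Module.End.mul_apply]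
      have h1 : Y i x ∈ U := hT i (Finset.notMem_empty i) x hx
      have h2 : ∀ e : ℕ, ∀ y ∈ U, ((Y i) ^ e) y ∈ U := by
        intro e
        induction e with
        | zero => intro y hy; simpa using hy
        | succ e ih =>
          intro y hy
          rw [pow_succ, Module.End.mul_apply]
          exact ih _ (hYU i y hy)
      exact h2 e _ h1)
    exact ⟨q, by rw [hq, Finset.prod_empty, mul_one]⟩
  | insert i T hi ih =>
    intro U V hUV hU hV hYU hYV hT
    -- the submodules `W = Y_i V + U` and `U₁ = {v ∈ V | Y_i v ∈ U}`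
    set W : Submodule (MvPolynomial J k) M := V.map (Y i) ⊔ U with hW
    set U₁ : Submodule (MvPolynomial J k) M := V ⊓ U.comap (Y i) with hU₁
    have hWr : W.restrictScalars k =
        (V.restrictScalars k).map ((Y i).restrictScalars k) ⊔ U.restrictScalars k := by
      ext x
      rw [Submodule.restrictScalars_mem, hW, Submodule.mem_sup, Submodule.mem_sup]
      constructor
      · rintro ⟨_, ⟨y, hy, rfl⟩, z, hz, rfl⟩
        exact ⟨_, ⟨y, hy, rfl⟩, z, hz, rfl⟩
      · rintro ⟨_, ⟨y, hy, rfl⟩, z, hz, rfl⟩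
        exact ⟨_, ⟨y, hy, rfl⟩, z, hz, rfl⟩
    have hU₁r : U₁.restrictScalars k =
        V.restrictScalars k ⊓ (U.restrictScalars k).comap ((Y i).restrictScalars k) := rfl
    have hshift := hs_shift (hY i) hV hU
    rw [← hWr, ← hU₁r] at hshift
    have hWV : W ≤ V := by
      rw [hW, sup_le_iff]
      refine ⟨?_, hUV⟩
      rintro _ ⟨x, hx, rfl⟩
      exact hYV i x hx
    have hUW : U ≤ W := le_sup_right
    have hU₁V : U₁ ≤ V := inf_le_left
    have hUU₁ : U ≤ U₁ := fun x hx => ⟨hUV hx, hYU i x hx⟩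
    have hWhom : G.IsHom (W.restrictScalars k) := by
      rw [hWr]
      exact (Gr.IsHom.map (hY i) hV).sup hU
    have hU₁hom : G.IsHom (U₁.restrictScalars k) := by
      rw [hU₁r]
      exact hV.inf (Gr.IsHom.comap (hY i) hU)
    have hYW : ∀ j, ∀ x ∈ W, Y j x ∈ W := by
      intro j x hx
      obtain ⟨_, ⟨y, hy, rfl⟩, z, hz, rfl⟩ := Submodule.mem_sup.1 hx
      rw [map_add]
      refine W.add_mem ?_ (hUW (hYU j z hz))
      obtain ⟨c, hc⟩ := hcomm j i
      rw [hc]
      have h1 : Y i (Y j y) ∈ W := Submodule.mem_sup_left ⟨_, hYV j y hy, rfl⟩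
      have : c • Y i (Y j y) = (MvPolynomial.C c : MvPolynomial J k) • Y i (Y j y) := by
        rw [← MvPolynomial.algebraMap_eq, algebraMap_smul]
      rw [this]
      exact W.smul_mem _ h1
    have hYU₁ : ∀ j, ∀ x ∈ U₁, Y j x ∈ U₁ := by
      intro j x hx
      refine ⟨hYV j x hx.1, ?_⟩
      change Y i (Y j x) ∈ U
      obtain ⟨c, hc⟩ := hcomm i j
      rw [hc]
      have h1 : Y j (Y i x) ∈ U := hYU j _ hx.2
      have : c • Y j (Y i x) = (MvPolynomial.C c : MvPolynomial J k) • Y j (Y i x) := by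
        rw [← MvPolynomial.algebraMap_eq, algebraMap_smul]
      rw [this]
      exact U.smul_mem _ h1
    obtain ⟨q₁, hq₁⟩ := ih W V hWV hWhom hV hYW hYV (by
      intro j hj x hx
      by_cases hji : j = i
      · rw [hji]
        exact Submodule.mem_sup_left ⟨x, hx, rfl⟩
      · exact hUW (hT j (by simp [hji, hj]) x hx))
    obtain ⟨q₂, hq₂⟩ := ih U U₁ hUU₁ hU hU₁hom hYU hYU₁ (by
      intro j hj x hx
      by_cases hji : j = i
      · rw [hji]
        exact hx.2
      · exact hT j (by simp [hji, hj]) x (hU₁V hx))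
    refine ⟨q₁ - MvPolynomial.monomial (d i) 1 * q₂, ?_⟩
    have e1 : ((q₁ - MvPolynomial.monomial (d i) 1 * q₂ : MvPolynomial ι ℤ) :
        MvPowerSeries ι ℤ) = (q₁ : MvPowerSeries ι ℤ) - tp (d i) * q₂ := by
      rw [← MvPolynomial.coeToMvPowerSeries.ringHom_apply, map_sub, map_mul]
      simp only [MvPolynomial.coeToMvPowerSeries.ringHom_apply]
      rw [coe_monomial_tp]
    rw [e1, hq₁, hq₂, Finset.prod_insert hi]
    linear_combination -(∏ j ∈ T, (1 - tp (d j))) * hshift

/-- **L1 (Hilbert-Serre).** -/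
theorem hilbert_serre [IsNoetherian (MvPolynomial J k) M] (G : Gr k ι M)
    {κ : Type*} [Fintype κ] (Y : κ → (M →ₗ[MvPolynomial J k] M)) (d : κ → Dg ι)
    (hY : ∀ i, IsDeg G G (d i) ((Y i).restrictScalars k))
    (hcomm : ∀ i j, ∃ c : k, ∀ x, Y i (Y j x) = c • Y j (Y i x))
    (hX : ∀ j : J, ∃ i, ∃ e : ℕ, ∀ x, (MvPolynomial.X j : MvPolynomial J k) • x =
      ((Y i) ^ (e + 1)) x)
    (U V : Submodule (MvPolynomial J k) M) (hUV : U ≤ V) (hU : G.IsHom (U.restrictScalars k))
    (hV : G.IsHom (V.restrictScalars k)) (hYU : ∀ i, ∀ x ∈ U, Y i x ∈ U)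
    (hYV : ∀ i, ∀ x ∈ V, Y i x ∈ V) :
    ∃ q : MvPolynomial ι ℤ, (q : MvPowerSeries ι ℤ) =
      (G.hs (V.restrictScalars k) - G.hs (U.restrictScalars k)) * ∏ i, (1 - tp (d i)) := by
  classical
  exact hilbert_serre_aux G Y d hY hcomm hX Finset.univ U V hUV hU hV hYU hYV
    (fun i hi => absurd (Finset.mem_univ i) hi)

end P199H
end
end

section

section

set_option linter.all false

/-!
# P199, blueprint H: the `K`-polynomial of a homogeneous ideal, 
-/

open Finset

namespace P199H

variable {k : Type*} [Field k] {ι : Type} {J : Type*}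

section Ideal

variable [Fintype J] (w : J → Dg ι) (hw : ∀ j, w j ≠ 0)

theorem HomI.isHom {I : Ideal (MvPolynomial J k)} (hI : HomI w I) :
    (grPoly k w hw).IsHom (I.restrictScalars k) := fun m x hx => hI x hx m

theorem homI_iff {I : Ideal (MvPolynomial J k)} :
    HomI w I ↔ (grPoly k w hw).IsHom (I.restrictScalars k) :=
  ⟨fun h m x hx => h x hx m, fun h x hx m => h m x hx⟩

theorem isDeg_mul {f : MvPolynomial J k} {d : Dg ι} (hf : f.IsWeightedHomogeneous w d) :
    IsDeg (grPoly k w hw) (grPoly k w hw) d (LinearMap.mulLeft k f) := by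
  classical
  intro m x
  have h1 : ∀ b, (grPoly k w hw).π (m + d) (f * (grPoly k w hw).π b x) =
      if b = m then f * (grPoly k w hw).π b x else 0 := by
    intro b
    have h2 : (f * (grPoly k w hw).π b x).IsWeightedHomogeneous w (d + b) :=
      hf.mul (MvPolynomial.weightedHomogeneousComponent_isWeightedHomogeneous b x)
    change MvPolynomial.weightedHomogeneousComponent w (m + d) _ = _
    split_ifs with hb
    · subst hb
      rw [add_comm]
      exact h2.weightedHomogeneousComponent_same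
    · apply h2.weightedHomogeneousComponent_ne
      intro h
      apply hb
      rw [add_comm d b] at h
      exact (add_right_cancel h).symm
  rw [LinearMap.mulLeft_apply, LinearMap.mulLeft_apply]
  conv_rhs => rw [← (grPoly k w hw).sum_eq x, Finset.mul_sum, map_sum]
  simp only [h1]
  rw [Finset.sum_ite_eq']
  split_ifs with hm
  · rfl
  · have : (grPoly k w hw).π m x = 0 := by
      by_contra hc
      exact hm (by simpa using hc)
    rw [this, mul_zero]

theorem exists_kp (I : Ideal (MvPolynomial J k)) (hI : HomI w I) :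
    ∃ q : MvPolynomial ι ℤ, (q : MvPowerSeries ι ℤ) =
      ((grPoly k w hw).hs ⊤ - (grPoly k w hw).hs (I.restrictScalars k)) *
        ∏ j, (1 - tp (w j)) := by
  obtain ⟨q, hq⟩ := hilbert_serre (grPoly k w hw)
    (Y := fun j => (MvPolynomial.X j : MvPolynomial J k) •
      (LinearMap.id : MvPolynomial J k →ₗ[MvPolynomial J k] MvPolynomial J k)) w
    (by
      intro j m x
      have := isDeg_mul w hw (MvPolynomial.isWeightedHomogeneous_X k w j) m x
      simpa using this)
    (by
      intro i j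
      refine ⟨1, fun x => ?_⟩
      simp only [LinearMap.smul_apply, LinearMap.id_apply, smul_eq_mul, one_smul]
      ring)
    (by
      intro j
      exact ⟨j, 0, fun x => by simp⟩)
    I ⊤ le_top (hI.isHom w hw) (Gr.isHom_top _)
    (by
      intro j x hx
      simpa using I.mul_mem_left _ hx)
    (by
      intro j x hx
      exact Submodule.mem_top)
  exact ⟨q, hq⟩

open Classical in
/-- The `K`-polynomial of a homogeneous ideal: `H(S/I) ∏ (1 - t^{w_j})`. -/
noncomputable def kp (I : Ideal (MvPolynomial J k)) : MvPolynomial ι ℤ :=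
  if h : HomI w I then (exists_kp w hw I h).choose else 0

theorem coe_kp {I : Ideal (MvPolynomial J k)} (hI : HomI w I) :
    (kp w hw I : MvPowerSeries ι ℤ) =
      ((grPoly k w hw).hs ⊤ - (grPoly k w hw).hs (I.restrictScalars k)) *
        ∏ j, (1 - tp (w j)) := by
  rw [kp, dif_pos hI]
  exact (exists_kp w hw I hI).choose_spec

theorem kp_unique {I : Ideal (MvPolynomial J k)} (hI : HomI w I) {q : MvPolynomial ι ℤ}
    (hq : (q : MvPowerSeries ι ℤ) =
      ((grPoly k w hw).hs ⊤ - (grPoly k w hw).hs (I.restrictScalars k)) *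
        ∏ j, (1 - tp (w j))) : kp w hw I = q := by
  apply MvPolynomial.coe_injective ι ℤ
  rw [coe_kp w hw hI, hq]

omit [Fintype J] in
theorem homI_top : HomI w (⊤ : Ideal (MvPolynomial J k)) := fun _ _ _ => Submodule.mem_top

omit [Fintype J] in
theorem homI_bot : HomI w (⊥ : Ideal (MvPolynomial J k)) := by
  intro p hp m
  rw [Ideal.mem_bot] at hp ⊢
  rw [hp, map_zero]

theorem kp_top : kp w hw (⊤ : Ideal (MvPolynomial J k)) = 0 := by
  apply kp_unique w hw (homI_top w)
  rw [show (⊤ : Ideal (MvPolynomial J k)).restrictScalars k = ⊤ from rfl, sub_self, zero_mul,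
    MvPolynomial.coe_zero]

omit [Fintype J] in
theorem HomI.sup {I I' : Ideal (MvPolynomial J k)} (h : HomI w I) (h' : HomI w I') :
    HomI w (I ⊔ I') := by
  intro p hp m
  obtain ⟨a, ha, b, hb, rfl⟩ := Submodule.mem_sup.1 hp
  rw [map_add]
  exact Submodule.add_mem_sup (h a ha m) (h' b hb m)

/-- principal ideals generated by homogeneous elements are homogeneous -/
theorem homI_span_singleton (hw : ∀ j, w j ≠ 0) {f : MvPolynomial J k} {d : Dg ι}
    (hf : f.IsWeightedHomogeneous w d) : HomI w (Ideal.span {f}) := by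
  have h := Gr.IsHom.map (isDeg_mul w hw hf) (Gr.isHom_top (grPoly k w hw))
  intro p hp m
  obtain ⟨a, rfl⟩ := Ideal.mem_span_singleton'.1 hp
  obtain ⟨y, _, hy⟩ := h m (a * f) ⟨a, Submodule.mem_top, by simp [mul_comm]⟩
  rw [Ideal.mem_span_singleton']
  refine ⟨y, ?_⟩
  rw [mul_comm]
  exact hy

/-- colon ideals by homogeneous elements are homogeneous -/
theorem homI_colon (hw : ∀ j, w j ≠ 0) {f : MvPolynomial J k} {d : Dg ι}
    (hf : f.IsWeightedHomogeneous w d) {I I' : Ideal (MvPolynomial J k)} (hI : HomI w I)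
    (hI' : ∀ p, p ∈ I' ↔ f * p ∈ I) : HomI w I' := by
  intro p hp m
  rw [hI'] at hp ⊢
  have h := Gr.IsHom.comap (isDeg_mul w hw hf) (hI.isHom w hw)
  exact h m p hp

/-- `kp I = kp (I + (f)) + t^{deg f} kp (I : f)` -/
theorem kp_add {f : MvPolynomial J k} {d : Dg ι}
    (hf : f.IsWeightedHomogeneous w d) {I I' : Ideal (MvPolynomial J k)} (hI : HomI w I)
    (hI' : ∀ p, p ∈ I' ↔ f * p ∈ I) :
    kp w hw I = kp w hw (I ⊔ Ideal.span {f}) + MvPolynomial.monomial d 1 * kp w hw I' := by
  have h1 := homI_span_singleton w hw hf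
  have h2 := homI_colon w hw hf hI hI'
  apply kp_unique w hw hI
  rw [MvPolynomial.coe_add, MvPolynomial.coe_mul, coe_kp w hw (hI.sup w h1), coe_kp w hw h2,
    coe_monomial_tp]
  have hshift := hs_shift (isDeg_mul w hw hf) (Gr.isHom_top (grPoly k w hw)) (hI.isHom w hw)
  have e1 : (⊤ : Submodule k (MvPolynomial J k)).map (LinearMap.mulLeft k f) ⊔
      I.restrictScalars k = (I ⊔ Ideal.span {f}).restrictScalars k := by
    ext x
    rw [Submodule.restrictScalars_mem, sup_comm, Submodule.mem_sup, Submodule.mem_sup]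
    constructor
    · rintro ⟨z, hz, _, ⟨y, hy, rfl⟩, rfl⟩
      exact ⟨z, hz, _, Ideal.mem_span_singleton'.2 ⟨y, mul_comm _ _⟩, rfl⟩
    · rintro ⟨z, hz, y, hy, rfl⟩
      obtain ⟨a, rfl⟩ := Ideal.mem_span_singleton'.1 hy
      exact ⟨z, hz, _, ⟨a, Submodule.mem_top, rfl⟩, by simp [mul_comm]⟩
  have e2 : (⊤ : Submodule k (MvPolynomial J k)) ⊓
      (I.restrictScalars k).comap (LinearMap.mulLeft k f) = I'.restrictScalars k := by
    ext x
    simp [hI']
  rw [e1, e2] at hshift
  linear_combination -(∏ j, (1 - tp (w j))) * hshift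

/-- for a prime ideal `I` and `f ∉ I`: `kp (I + (f)) = (1 - t^{deg f}) kp I` -/
theorem kp_prime {f : MvPolynomial J k} {d : Dg ι}
    (hf : f.IsWeightedHomogeneous w d) {I : Ideal (MvPolynomial J k)} (hI : HomI w I)
    (hp : I.IsPrime) (hfI : f ∉ I) :
    kp w hw (I ⊔ Ideal.span {f}) = (1 - MvPolynomial.monomial d 1) * kp w hw I := by
  have h := kp_add w hw hf hI (I' := I) (fun p => ⟨fun hp' => I.mul_mem_left _ hp', fun h =>
    (hp.mem_or_mem h).resolve_left hfI⟩)
  linear_combination -h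

theorem finrank_pi_zero_top :
    Module.finrank k ((⊤ : Submodule k (MvPolynomial J k)).map ((grPoly k w hw).π 0)) = 1 := by
  have e : (⊤ : Submodule k (MvPolynomial J k)).map ((grPoly k w hw).π 0) =
      Submodule.span k {(1 : MvPolynomial J k)} := by
    ext x
    rw [Submodule.mem_span_singleton]
    constructor
    · rintro ⟨y, _, rfl⟩
      refine ⟨MvPolynomial.coeff 0 y, ?_⟩
      change _ = MvPolynomial.weightedHomogeneousComponent w 0 y
      rw [MvPolynomial.weightedHomogeneousComponent_zero y hw, MvPolynomial.smul_eq_C_mul,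
        mul_one]
    · rintro ⟨a, rfl⟩
      refine ⟨a • 1, Submodule.mem_top, ?_⟩
      change MvPolynomial.weightedHomogeneousComponent w 0 _ = _
      rw [MvPolynomial.weightedHomogeneousComponent_zero _ hw, MvPolynomial.smul_eq_C_mul,
        mul_one, MvPolynomial.coeff_zero_C]
  rw [e]
  exact finrank_span_singleton one_ne_zero

/-- The `K`-polynomial of the irrelevant ideal. -/
theorem kp_max {I : Ideal (MvPolynomial J k)} (hI : HomI w I) (h1 : I ≠ ⊤)
    (hX : ∀ j, (MvPolynomial.X j : MvPolynomial J k) ∈ I) :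
    kp w hw I = ∏ j, (1 - MvPolynomial.monomial (w j) 1) := by
  classical
  apply kp_unique w hw hI
  have e1 : ((∏ j, (1 - MvPolynomial.monomial (w j) 1) : MvPolynomial ι ℤ) :
      MvPowerSeries ι ℤ) = ∏ j, (1 - tp (w j)) := by
    rw [← MvPolynomial.coeToMvPowerSeries.ringHom_apply, map_prod]
    refine Finset.prod_congr rfl fun j _ => ?_
    rw [map_sub, map_one, MvPolynomial.coeToMvPowerSeries.ringHom_apply, coe_monomial_tp]
  rw [e1]
  have e2 : (grPoly k w hw).hs ⊤ - (grPoly k w hw).hs (I.restrictScalars k) = 1 := by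
    ext m
    rw [map_sub, Gr.coeff_hs, Gr.coeff_hs, MvPowerSeries.coeff_one]
    split_ifs with hm
    · rw [hm, finrank_pi_zero_top]
      have : (I.restrictScalars k).map ((grPoly k w hw).π 0) = ⊥ := by
        rw [eq_bot_iff]
        intro x hx
        rw [(hI.isHom w hw).mem_map] at hx
        obtain ⟨h2, h3⟩ := hx
        change MvPolynomial.weightedHomogeneousComponent w 0 x = x at h3
        rw [MvPolynomial.weightedHomogeneousComponent_zero x hw] at h3
        rw [Submodule.mem_bot]
        by_contra hx0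
        have h4 : MvPolynomial.coeff 0 x ≠ 0 := by
          intro h
          rw [h, map_zero] at h3
          exact hx0 h3.symm
        apply h1
        rw [Ideal.eq_top_iff_one]
        have h5 : MvPolynomial.C (MvPolynomial.coeff 0 x)⁻¹ * x ∈ I := I.mul_mem_left _ h2
        rw [← h3, MvPolynomial.coeff_zero_C, ← MvPolynomial.C_mul, inv_mul_cancel₀ h4,
          MvPolynomial.C_1] at h5
        exact h5
      rw [this]
      simp
    · have e3 : (⊤ : Submodule k (MvPolynomial J k)).map ((grPoly k w hw).π m) =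
          (I.restrictScalars k).map ((grPoly k w hw).π m) := by
        apply le_antisymm
        · rintro _ ⟨x, hx, rfl⟩
          clear hx
          refine ⟨x - MvPolynomial.C (MvPolynomial.coeff 0 x), ?_, ?_⟩
          · -- `x - C (coeff 0 x) ∈ I`
            change x - MvPolynomial.C (MvPolynomial.constantCoeff x) ∈ I
            induction x using MvPolynomial.induction_on with
            | C a => simp
            | add p q hp hq =>
              have := I.add_mem hp hq
              rw [map_add, map_add]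
              convert this using 1
              ring
            | mul_X p j hp =>
              rw [map_mul, MvPolynomial.constantCoeff_X, mul_zero, map_zero, sub_zero]
              exact I.mul_mem_left _ (hX j)
          · rw [map_sub]
            have : (grPoly k w hw).π m (MvPolynomial.C (MvPolynomial.coeff 0 x)) = 0 := by
              change MvPolynomial.weightedHomogeneousComponent w m _ = _
              exact (MvPolynomial.isWeightedHomogeneous_C w _).weightedHomogeneousComponent_ne m hm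
            rw [this, sub_zero]
        · exact Submodule.map_mono le_top
      rw [e3, sub_self]
  rw [e2, one_mul]

end Ideal

end P199H
end
end

section

section

/-!
P199, Blueprint H, lemmas L2, L3, L4: Noetherian inductions on homogeneous ideals for an
abstract system `HSys` of homogeneous ideals with a K-polynomial.
-/

namespace P199H

open MvPolynomial

/-- The linear form `sum_i chi_i Theta_i`. -/
noncomputable def dotTh {ι : Type} (χ : ι →₀ ℕ) : MvPolynomial ι ℤ :=
  χ.sum fun i a => (a : MvPolynomial ι ℤ) * X i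

/-- The ring hom `t_i ↦ 1 - Theta_i eps`. -/
noncomputable def phi {ι : Type} : MvPolynomial ι ℤ →+* Polynomial (MvPolynomial ι ℤ) :=
  eval₂Hom (Int.castRingHom _) fun i => 1 - Polynomial.C (X i) * Polynomial.X

lemma phi_monomial_coeff {ι : Type} (χ : ι →₀ ℕ) :
    (phi (monomial χ (1 : ℤ))).coeff 0 = 1 ∧
      (phi (monomial χ (1 : ℤ))).coeff 1 = - dotTh χ := by
  classical
  induction χ using Finsupp.induction_linear with
  | zero =>
    constructor
    · have : (monomial (0 : ι →₀ ℕ) (1 : ℤ)) = 1 := rfl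
      rw [this, map_one]; simp
    · have : (monomial (0 : ι →₀ ℕ) (1 : ℤ)) = 1 := rfl
      rw [this, map_one]; simp [dotTh, Polynomial.coeff_one]
  | add f g hf hg =>
    have h1 : (monomial (f + g) (1 : ℤ)) = monomial f 1 * monomial g 1 := by
      simp [monomial_mul]
    have h2 : dotTh (f + g) = dotTh f + dotTh g := by
      unfold dotTh
      rw [Finsupp.sum_add_index']
      · intro a; simp
      · intro a b c; push_cast; ring
    rw [h1, map_mul, h2]
    refine ⟨?_, ?_⟩
    · rw [Polynomial.mul_coeff_zero, hf.1, hg.1, one_mul]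
    · rw [Polynomial.mul_coeff_one, hf.1, hg.1, hf.2, hg.2]; ring
  | single i a =>
    induction a with
    | zero =>
      have : (monomial (Finsupp.single i 0 : ι →₀ ℕ) (1 : ℤ)) = 1 := by simp
      rw [this, map_one]; simp [dotTh, Polynomial.coeff_one]
    | succ n ih =>
      have h1 : (monomial (Finsupp.single i (n + 1)) (1 : ℤ)) =
          monomial (Finsupp.single i n) 1 * X i := by
        rw [X, monomial_mul, ← Finsupp.single_add, one_mul]
      have h2 : dotTh (Finsupp.single i (n + 1)) =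
          dotTh (Finsupp.single i n) + X i := by
        unfold dotTh
        rw [Finsupp.sum_single_index (by simp), Finsupp.sum_single_index (by simp), Nat.cast_succ,
          add_mul, one_mul]
      have h3 : phi (X i : MvPolynomial ι ℤ) = 1 - Polynomial.C (X i) * Polynomial.X := by
        simp [phi]
      rw [h1, map_mul, h2, h3]
      refine ⟨?_, ?_⟩
      · rw [Polynomial.mul_coeff_zero, ih.1]; simp
      · rw [Polynomial.mul_coeff_one, ih.1, ih.2]; simp [Polynomial.coeff_one]

lemma dotTh_ne_zero {ι : Type} {χ : ι →₀ ℕ} (h : χ ≠ 0) : dotTh χ ≠ 0 := by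
  classical
  obtain ⟨i, hi⟩ := Finsupp.ne_iff.mp h
  intro h0
  have h1 : coeff (Finsupp.single i 1) (dotTh χ) = (χ i : ℤ) := by
    unfold dotTh
    rw [Finsupp.sum, coeff_sum]
    have : ∀ j ∈ χ.support, coeff (Finsupp.single i 1)
        (((χ j : ℕ) : MvPolynomial ι ℤ) * X j) = if j = i then (χ i : ℤ) else 0 := by
      intro j _
      have h2 : ((χ j : ℕ) : MvPolynomial ι ℤ) = C ((χ j : ℕ) : ℤ) := by simp
      rw [h2, coeff_C_mul, coeff_X]
      by_cases hj : j = i
      · subst hj; simp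
      · have : ¬ (Finsupp.single j 1 = (Finsupp.single i 1 : ι →₀ ℕ)) := by
          intro h; exact hj (Finsupp.single_left_injective one_ne_zero h)
        simp [hj, this]
    rw [Finset.sum_congr rfl this, Finset.sum_ite_eq']
    split_ifs with h
    · rfl
    · simp [Finsupp.notMem_support_iff.mp h]
  rw [h0, coeff_zero] at h1
  simp only [Finsupp.coe_zero, Pi.zero_apply] at hi
  exact hi (by exact_mod_cast h1.symm)

/-- An abstract system of homogeneous ideals with a K-polynomial and a codimension function. -/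
structure HSys (R : Type) [CommRing R] (ι : Type) where
  Hom : R → (ι →₀ ℕ) → Prop
  HI : Ideal R → Prop
  sup_HI : ∀ {I : Ideal R} {f : R} {χ : ι →₀ ℕ}, HI I → Hom f χ → HI (I ⊔ Ideal.span {f})
  colon_HI : ∀ {I : Ideal R} {f : R} {χ : ι →₀ ℕ}, HI I → Hom f χ →
    HI (Submodule.colon I {f})
  prime_crit : ∀ {I : Ideal R}, HI I → I ≠ ⊤ → ¬ I.IsPrime →
    ∃ f g a b, Hom f a ∧ Hom g b ∧ f ∉ I ∧ g ∉ I ∧ f * g ∈ I
  K : Ideal R → MvPolynomial ι ℤ
  K_exact : ∀ {I : Ideal R} {f : R} {χ : ι →₀ ℕ}, HI I → Hom f χ →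
    K I = K (I ⊔ Ideal.span {f}) + monomial χ 1 * K (Submodule.colon I {f})
  K_top : K ⊤ = 0
  c : Ideal R → ℕ
  c_lt : ∀ {P Q : Ideal R}, HI P → HI Q → P.IsPrime → Q.IsPrime → P < Q → c P < c Q
  base : ∀ {P : Ideal R}, HI P → P.IsPrime →
    (∃ f χ, Hom f χ ∧ χ ≠ 0 ∧ f ∉ P) ∨ Polynomial.X ^ c P ∣ phi (K P)

namespace HSys

variable {R : Type} [CommRing R] {ι : Type} (H : HSys R ι)

lemma phi_one_sub_coeff_zero (χ : ι →₀ ℕ) :
    (phi (1 - monomial χ (1 : ℤ))).coeff 0 = 0 := by
  rw [map_sub, map_one, Polynomial.coeff_sub, (phi_monomial_coeff χ).1]; simp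

lemma phi_one_sub_coeff_one (χ : ι →₀ ℕ) :
    (phi (1 - monomial χ (1 : ℤ))).coeff 1 = dotTh χ := by
  rw [map_sub, map_one, Polynomial.coeff_sub, (phi_monomial_coeff χ).2]
  simp [Polynomial.coeff_one]

/-- Leading coefficient. -/
noncomputable def LC (P : Ideal R) : MvPolynomial ι ℤ := (phi (H.K P)).coeff (H.c P)

lemma colon_eq_self {P : Ideal R} [hP : P.IsPrime] {f : R} (hf : f ∉ P) :
    Submodule.colon P {f} = P := by
  ext x
  rw [Submodule.mem_colon_singleton, smul_eq_mul]
  exact ⟨fun h => (hP.mem_or_mem h).resolve_right hf, fun h => P.mul_mem_right _ h⟩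

lemma K_sup_prime {P : Ideal R} (hP : P.IsPrime) (hH : H.HI P) {f : R} {χ : ι →₀ ℕ}
    (hf : H.Hom f χ) (hfP : f ∉ P) :
    H.K (P ⊔ Ideal.span {f}) = (1 - monomial χ 1) * H.K P := by
  have h := H.K_exact hH hf
  rw [colon_eq_self hfP] at h
  linear_combination -h

lemma lt_sup {P : Ideal R} {f : R} (hfP : f ∉ P) : P < P ⊔ Ideal.span {f} := by
  refine lt_of_le_of_ne le_sup_left fun h => hfP ?_
  rw [h]
  exact (le_sup_right : Ideal.span {f} ≤ P ⊔ Ideal.span {f})
    (Ideal.mem_span_singleton_self f)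

lemma lt_colon {P : Ideal R} {f g : R} (hg : g ∉ P) (h : f * g ∈ P) :
    P < Submodule.colon P {f} := by
  refine lt_of_le_of_ne Ideal.le_colon fun h1 => hg ?_
  rw [h1, Submodule.mem_colon_singleton, smul_eq_mul, mul_comm]
  exact h

/-- L2. -/
theorem L2 [IsNoetherianRing R] (I : Ideal R) : ∀ (_ : H.HI I) (c0 : ℕ)
    (_ : ∀ P : Ideal R, P.IsPrime → H.HI P → I ≤ P → c0 ≤ H.c P),
    Polynomial.X ^ c0 ∣ phi (H.K I) := by
  induction I using WellFoundedGT.induction with
  | ind I ih =>
    intro hI c0 hc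
    by_cases htop : I = ⊤
    · rw [htop, H.K_top, map_zero]; exact dvd_zero _
    by_cases hpr : I.IsPrime
    · rcases H.base hI hpr with ⟨f, χ, hf, hχ, hfI⟩ | hbase
      · have h1 := ih _ (lt_sup hfI) (H.sup_HI hI hf) (c0 + 1) (by
          intro Q hQ hHQ hle
          have h2 : I < Q := lt_of_lt_of_le (lt_sup hfI) hle
          have h3 := H.c_lt hI hHQ hpr hQ h2
          have h4 := hc I hpr hI le_rfl
          omega)
        rw [H.K_sup_prime hpr hI hf hfI, map_mul] at h1
        rw [Polynomial.X_pow_dvd_iff] at h1 ⊢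
        intro d hd
        induction d using Nat.strong_induction_on with
        | _ d ihd =>
          have h5 := h1 (d + 1) (by omega)
          rw [Polynomial.coeff_mul, Finset.Nat.sum_antidiagonal_eq_sum_range_succ
            (fun i j => (phi (1 - monomial χ (1 : ℤ))).coeff i * (phi (H.K I)).coeff j)] at h5
          rw [Finset.sum_eq_single 1] at h5
          · rw [phi_one_sub_coeff_one] at h5
            have h6 : d + 1 - 1 = d := by omega
            rw [h6] at h5
            exact (mul_eq_zero.mp h5).resolve_left (dotTh_ne_zero hχ)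
          · intro b hb hb1
            rcases Nat.eq_zero_or_pos b with h0 | h0
            · rw [h0, phi_one_sub_coeff_zero, zero_mul]
            · rcases Nat.eq_zero_or_pos d with hd0 | hd0
              · exfalso
                have := Finset.mem_range.mp hb
                omega
              · have hlt : d + 1 - b < d := by omega
                rw [ihd _ hlt (by omega), mul_zero]
          · intro h7
            exact absurd (Finset.mem_range.mpr (by omega)) h7
      · exact (pow_dvd_pow _ (hc I hpr hI le_rfl)).trans hbase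
    · obtain ⟨f, g, a, b, hf, _, hfI, hgI, hfg⟩ := H.prime_crit hI htop hpr
      rw [H.K_exact hI hf, map_add, map_mul]
      refine dvd_add ?_ (Dvd.dvd.mul_left ?_ _)
      · exact ih _ (lt_sup hfI) (H.sup_HI hI hf) c0
          (fun P hP hH hle => hc P hP hH (le_sup_left.trans hle))
      · exact ih _ (lt_colon hgI hfg) (H.colon_HI hI hf) c0
          (fun P hP hH hle => hc P hP hH (Ideal.le_colon.trans hle))

lemma X_pow_dvd_prime [IsNoetherianRing R] {P : Ideal R} (hP : P.IsPrime) (hH : H.HI P) :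
    Polynomial.X ^ (H.c P) ∣ phi (H.K P) := by
  refine H.L2 P hH _ fun Q hQ hHQ hle => ?_
  rcases eq_or_lt_of_le hle with h | h
  · rw [h]
  · exact (H.c_lt hH hHQ hP hQ h).le

/-- L3, for an arbitrary additive subgroup. -/
theorem L3 [IsNoetherianRing R] (D : AddSubgroup (MvPolynomial ι ℤ)) (I : Ideal R) :
    ∀ (_ : H.HI I) (c0 : ℕ)
    (_ : ∀ P : Ideal R, P.IsPrime → H.HI P → I ≤ P → c0 ≤ H.c P)
    (_ : (phi (H.K I)).coeff c0 ∉ D),
    ∃ P : Ideal R, P.IsPrime ∧ H.HI P ∧ I ≤ P ∧ H.c P = c0 ∧ H.LC P ∉ D := by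
  induction I using WellFoundedGT.induction with
  | ind I ih =>
    intro hI c0 hc hD
    by_cases htop : I = ⊤
    · rw [htop, H.K_top, map_zero, Polynomial.coeff_zero] at hD
      exact absurd D.zero_mem hD
    by_cases hpr : I.IsPrime
    · have h1 := hc I hpr hI le_rfl
      rcases eq_or_lt_of_le h1 with h2 | h2
      · refine ⟨I, hpr, hI, le_rfl, h2.symm, ?_⟩
        unfold LC
        rwa [← h2]
      · exfalso
        have h3 := H.X_pow_dvd_prime hpr hI
        rw [Polynomial.X_pow_dvd_iff] at h3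
        rw [h3 _ h2] at hD
        exact hD D.zero_mem
    · obtain ⟨f, g, a, b, hf, _, hfI, hgI, hfg⟩ := H.prime_crit hI htop hpr
      have hc2 : ∀ P : Ideal R, P.IsPrime → H.HI P → Submodule.colon I {f} ≤ P → c0 ≤ H.c P :=
        fun P hP hH hle => hc P hP hH (Ideal.le_colon.trans hle)
      have hdv := H.L2 _ (H.colon_HI hI hf) c0 hc2
      rw [Polynomial.X_pow_dvd_iff] at hdv
      have hco : (phi (monomial a (1 : ℤ)) * phi (H.K (Submodule.colon I {f}))).coeff c0 =
          (phi (H.K (Submodule.colon I {f}))).coeff c0 := by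
        rw [Polynomial.coeff_mul, Finset.Nat.sum_antidiagonal_eq_sum_range_succ
            (fun i j => (phi (monomial a (1 : ℤ))).coeff i *
              (phi (H.K (Submodule.colon I {f}))).coeff j)]
        rw [Finset.sum_eq_single 0]
        · rw [(phi_monomial_coeff a).1, one_mul, Nat.sub_zero]
        · intro b hb hb1
          have := Finset.mem_range.mp hb
          rw [hdv _ (by omega), mul_zero]
        · intro h7
          exact absurd (Finset.mem_range.mpr (by omega)) h7
      rw [H.K_exact hI hf, map_add, map_mul, Polynomial.coeff_add, hco] at hD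
      by_cases hD1 : (phi (H.K (I ⊔ Ideal.span {f}))).coeff c0 ∈ D
      · have hD2 : (phi (H.K (Submodule.colon I {f}))).coeff c0 ∉ D := fun h =>
          hD (D.add_mem hD1 h)
        obtain ⟨P, h1, h2, h3, h4, h5⟩ := ih _ (lt_colon hgI hfg) (H.colon_HI hI hf) c0 hc2 hD2
        exact ⟨P, h1, h2, Ideal.le_colon.trans h3, h4, h5⟩
      · obtain ⟨P, h1, h2, h3, h4, h5⟩ := ih _ (lt_sup hfI) (H.sup_HI hI hf) c0
          (fun P hP hH hle => hc P hP hH (le_sup_left.trans hle)) hD1
        exact ⟨P, h1, h2, le_sup_left.trans h3, h4, h5⟩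

/-- L4, the case `f ∉ P`. -/
theorem L4_of_notMem [IsNoetherianRing R] (D : AddSubgroup (MvPolynomial ι ℤ)) {P : Ideal R}
    (hP : P.IsPrime) (hH : H.HI P) {f : R} {χ : ι →₀ ℕ} (hf : H.Hom f χ) (hfP : f ∉ P)
    (hD : dotTh χ * H.LC P ∉ D) :
    ∃ Q : Ideal R, Q.IsPrime ∧ H.HI Q ∧ P ⊔ Ideal.span {f} ≤ Q ∧ H.c Q = H.c P + 1 ∧
      H.LC Q ∉ D := by
  refine H.L3 D (P ⊔ Ideal.span {f}) (H.sup_HI hH hf) (H.c P + 1) ?_ ?_
  · intro Q hQ hHQ hle
    exact H.c_lt hH hHQ hP hQ (lt_of_lt_of_le (lt_sup hfP) hle)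
  · rw [H.K_sup_prime hP hH hf hfP, map_mul, Polynomial.coeff_mul,
      Finset.Nat.sum_antidiagonal_eq_sum_range_succ
            (fun i j => (phi (1 - monomial χ (1 : ℤ))).coeff i * (phi (H.K P)).coeff j)]
    have h3 := H.X_pow_dvd_prime hP hH
    rw [Polynomial.X_pow_dvd_iff] at h3
    rw [Finset.sum_eq_single 1]
    · rw [phi_one_sub_coeff_one]
      have h6 : H.c P + 1 - 1 = H.c P := by omega
      rw [h6]
      exact hD
    · intro b hb hb1
      rcases Nat.eq_zero_or_pos b with h0 | h0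
      · rw [h0, phi_one_sub_coeff_zero, zero_mul]
      · have := Finset.mem_range.mp hb
        rw [h3 _ (by omega), mul_zero]
    · intro h7
      exact absurd (Finset.mem_range.mpr (by omega)) h7

/-- L4 for an ideal `D` of `Z[Theta]` and a multiplier `dotTh χ` that is regular modulo `D`. -/
theorem L4 [IsNoetherianRing R] (D : Ideal (MvPolynomial ι ℤ)) {P : Ideal R}
    (hP : P.IsPrime) (hH : H.HI P) {f : R} {χ : ι →₀ ℕ} (hf : H.Hom f χ)
    (hχ : ∀ x, dotTh χ * x ∈ D → x ∈ D) (hD : H.LC P ∉ D) :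
    ∃ Q : Ideal R, Q.IsPrime ∧ H.HI Q ∧ P ≤ Q ∧ f ∈ Q ∧ H.c Q ≤ H.c P + 1 ∧
      H.LC Q ∉ D := by
  by_cases hfP : f ∈ P
  · exact ⟨P, hP, hH, le_rfl, hfP, by omega, hD⟩
  · obtain ⟨Q, h1, h2, h3, h4, h5⟩ := H.L4_of_notMem D.toAddSubgroup hP hH hf hfP
      (fun h => hD (hχ _ h))
    exact ⟨Q, h1, h2, le_sup_left.trans h3,
      (le_sup_right.trans h3) (Ideal.mem_span_singleton_self f), h4.le, h5⟩

/-- L4 with two ideals `D ≤ D'` (2-adic form): `LC P ∉ D`, and `dotTh χ * x ∈ D'` implies
`x ∈ D`. -/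
theorem L4' [IsNoetherianRing R] (D D' : Ideal (MvPolynomial ι ℤ)) (hDD : D' ≤ D) {P : Ideal R}
    (hP : P.IsPrime) (hH : H.HI P) {f : R} {χ : ι →₀ ℕ} (hf : H.Hom f χ)
    (hχ : ∀ x, dotTh χ * x ∈ D' → x ∈ D) (hD : H.LC P ∉ D) :
    ∃ Q : Ideal R, Q.IsPrime ∧ H.HI Q ∧ P ≤ Q ∧ f ∈ Q ∧ H.c Q ≤ H.c P + 1 ∧
      H.LC Q ∉ D' := by
  by_cases hfP : f ∈ P
  · exact ⟨P, hP, hH, le_rfl, hfP, by omega, fun h => hD (hDD h)⟩
  · obtain ⟨Q, h1, h2, h3, h4, h5⟩ := H.L4_of_notMem D'.toAddSubgroup hP hH hf hfP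
      (fun h => hD (hχ _ h))
    exact ⟨Q, h1, h2, le_sup_left.trans h3,
      (le_sup_right.trans h3) (Ideal.mem_span_singleton_self f), h4.le, h5⟩

end HSys

end P199H
end
end

section

section

/-!
# P199, blueprint H, L5 (first part): parity and the filtration by cyclic modules

Exported: `two_pow_dvd_of_phi`, `filt_induction`.
-/

set_option linter.all false

open MvPolynomial

namespace P199H

section arith

variable {ι : Type}

theorem phi_X (i : ι) :
    phi (X i : MvPolynomial ι ℤ) = 1 - Polynomial.C (X i) * Polynomial.X := by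
  simp [phi]

theorem phi_prod_coeff_zero [Fintype ι] :
    (phi (∏ i : ι, (1 + X i : MvPolynomial ι ℤ))).coeff 0 = 2 ^ Fintype.card ι := by
  rw [map_prod, Polynomial.coeff_zero_eq_eval_zero, Polynomial.eval_prod]
  simp only [map_add, map_one, phi_X, Polynomial.eval_add, Polynomial.eval_one,
    Polynomial.eval_sub, Polynomial.eval_mul, Polynomial.eval_X, mul_zero, sub_zero,
    Finset.prod_const, Finset.card_univ]
  norm_num

/-- the parity argument -/
theorem two_pow_dvd_of_phi [Fintype ι] (G LC : MvPolynomial ι ℤ) (c r : ℕ)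
    (hX : (Polynomial.X : Polynomial (MvPolynomial ι ℤ)) ^ c ∣
      phi (G * ∏ i : ι, (1 + X i : MvPolynomial ι ℤ)))
    (hc : (phi (G * ∏ i : ι, (1 + X i : MvPolynomial ι ℤ))).coeff c = r * LC)
    (hLC : ¬ (2 : MvPolynomial ι ℤ) ∣ LC) :
    2 ^ Fintype.card ι ∣ r := by
  rw [map_mul] at hX hc
  have h0 := phi_prod_coeff_zero (ι := ι)
  set P := phi (∏ i : ι, (1 + X i : MvPolynomial ι ℤ)) with hP
  have hXP : ¬ (Polynomial.X : Polynomial (MvPolynomial ι ℤ)) ∣ P := by
    rw [Polynomial.X_dvd_iff, h0]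
    exact pow_ne_zero _ two_ne_zero
  obtain ⟨H, hH⟩ := Polynomial.prime_X.pow_dvd_of_dvd_mul_right c hXP hX
  rw [hH, mul_assoc, Polynomial.coeff_X_pow_mul', if_pos le_rfl, Nat.sub_self,
    Polynomial.mul_coeff_zero, h0] at hc
  have hLC' : ∃ d, ¬ (2 : ℤ) ∣ LC.coeff d := by
    by_contra hcon
    push Not at hcon
    apply hLC
    have : (2 : MvPolynomial ι ℤ) = C 2 := by simp
    rw [this, MvPolynomial.C_dvd_iff_dvd_coeff]
    exact hcon
  obtain ⟨d, hd⟩ := hLC'
  have h1 := congrArg (MvPolynomial.coeff d) hc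
  have h2 : (H.coeff 0 * 2 ^ Fintype.card ι : MvPolynomial ι ℤ) =
      C (2 ^ Fintype.card ι) * H.coeff 0 := by simp [mul_comm]
  have h3 : ((r : MvPolynomial ι ℤ) * LC) = C (r : ℤ) * LC := by simp
  rw [h2, h3, MvPolynomial.coeff_C_mul, MvPolynomial.coeff_C_mul] at h1
  have h4 : (2 ^ Fintype.card ι : ℤ) ∣ r * LC.coeff d := ⟨_, h1.symm⟩
  have h5 : IsCoprime ((2 : ℤ) ^ Fintype.card ι) (LC.coeff d) :=
    IsCoprime.pow_left ((Int.prime_two.coprime_iff_not_dvd).2 hd)
  have h6 := h5.dvd_of_dvd_mul_right h4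
  exact_mod_cast h6

theorem phi_mono_mul {q : MvPolynomial ι ℤ} {c : ℕ} (d : ι →₀ ℕ)
    (h : (Polynomial.X : Polynomial (MvPolynomial ι ℤ)) ^ c ∣ phi q) :
    (Polynomial.X : Polynomial (MvPolynomial ι ℤ)) ^ c ∣ phi (monomial d 1 * q) ∧
      (phi (monomial d 1 * q)).coeff c = (phi q).coeff c := by
  obtain ⟨s, hs⟩ := h
  rw [map_mul, hs]
  refine ⟨⟨phi (monomial d 1) * s, by ring⟩, ?_⟩
  rw [mul_left_comm, Polynomial.coeff_X_pow_mul', Polynomial.coeff_X_pow_mul', if_pos le_rfl,
    if_pos le_rfl, Nat.sub_self, Polynomial.mul_coeff_zero, (phi_monomial_coeff d).1, one_mul]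

end arith

section filt

variable {k : Type} [Field k] {ι : Type} {J : Type} [Fintype J] (w : J → Dg ι)
  (hw : ∀ j, w j ≠ 0)
variable {M : Type} [AddCommGroup M] [Module k M] [Module (MvPolynomial J k) M]
  [IsScalarTower k (MvPolynomial J k) M]

/-- `a ↦ a • m` -/
noncomputable def actMap (k : Type) [Field k] {J : Type} {M : Type} [AddCommGroup M] [Module k M]
    [Module (MvPolynomial J k) M] [IsScalarTower k (MvPolynomial J k) M] (m : M) :
    MvPolynomial J k →ₗ[k] M :=
  (LinearMap.toSpanSingleton (MvPolynomial J k) M m).restrictScalars k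

@[simp] theorem actMap_apply (m : M) (a : MvPolynomial J k) : actMap k m a = a • m := rfl

/-- one step of the filtration -/
theorem hs_step {G : Gr k ι M} {m : M} {d : Dg ι} (hm : IsDeg (grPoly k w hw) G d (actMap k m))
    {V : Submodule (MvPolynomial J k) M} (hV : G.IsHom (V.restrictScalars k)) :
    G.IsHom ((V ⊔ Submodule.span (MvPolynomial J k) {m}).restrictScalars k) ∧
    (grPoly k w hw).IsHom
      (Submodule.restrictScalars k (V.comap (LinearMap.toSpanSingleton (MvPolynomial J k) M m))) ∧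
    G.hs ((V ⊔ Submodule.span (MvPolynomial J k) {m}).restrictScalars k) -
      G.hs (V.restrictScalars k) = tp d * ((grPoly k w hw).hs ⊤ - (grPoly k w hw).hs
      (Submodule.restrictScalars k
        (V.comap (LinearMap.toSpanSingleton (MvPolynomial J k) M m)))) := by
  have e1 : (V ⊔ Submodule.span (MvPolynomial J k) {m}).restrictScalars k =
      (⊤ : Submodule k (MvPolynomial J k)).map (actMap k m) ⊔ V.restrictScalars k := by
    ext x
    rw [Submodule.restrictScalars_mem, Submodule.mem_sup, Submodule.mem_sup]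
    constructor
    · rintro ⟨y, hy, z, hz, rfl⟩
      obtain ⟨a, rfl⟩ := Submodule.mem_span_singleton.1 hz
      exact ⟨a • m, ⟨a, Submodule.mem_top, rfl⟩, y, hy, add_comm _ _⟩
    · rintro ⟨_, ⟨a, _, rfl⟩, y, hy, rfl⟩
      exact ⟨y, hy, a • m, Submodule.smul_mem _ _ (Submodule.mem_span_singleton_self m),
        add_comm _ _⟩
  have e2 : (Submodule.restrictScalars k
      (V.comap (LinearMap.toSpanSingleton (MvPolynomial J k) M m))) =
      ⊤ ⊓ (V.restrictScalars k).comap (actMap k m) := by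
    rw [top_inf_eq]; rfl
  refine ⟨?_, ?_, ?_⟩
  · rw [e1]
    exact (Gr.IsHom.map hm (Gr.isHom_top _)).sup hV
  · rw [e2, top_inf_eq]
    exact Gr.IsHom.comap hm hV
  · rw [e1, e2]
    exact hs_shift hm (Gr.isHom_top _) hV

/-- **The filtration by cyclic modules.** -/
theorem filt_induction {G : Gr k ι M} {κ : Type} [DecidableEq κ] (m : κ → M) (d : κ → Dg ι)
    (hm : ∀ i, IsDeg (grPoly k w hw) G (d i) (actMap k (m i)))
    (P : Ideal (MvPolynomial J k)) (U : Submodule (MvPolynomial J k) M)
    (hU : G.IsHom (U.restrictScalars k)) (hPU : ∀ a ∈ P, ∀ x : M, a • x ∈ U)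
    (hUt : ∀ (a : MvPolynomial J k) (x : M), a • x ∈ U → a ∈ P ∨ x ∈ U)
    (c : ℕ) (hc : (Polynomial.X : Polynomial (MvPolynomial ι ℤ)) ^ c ∣ phi (kp w hw P))
    (hI : ∀ I : Ideal (MvPolynomial J k), HomI w I → P < I →
      (Polynomial.X : Polynomial (MvPolynomial ι ℤ)) ^ (c + 1) ∣ phi (kp w hw I))
    (T : Finset κ) :
    G.IsHom ((U ⊔ Submodule.span (MvPolynomial J k) (m '' (T : Set κ))).restrictScalars k) ∧
    ∃ (F : MvPolynomial ι ℤ) (r : ℕ),
      (F : MvPowerSeries ι ℤ) =
        (G.hs ((U ⊔ Submodule.span (MvPolynomial J k) (m '' (T : Set κ))).restrictScalars k) -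
          G.hs (U.restrictScalars k)) * ∏ j, (1 - tp (w j)) ∧
      (Polynomial.X : Polynomial (MvPolynomial ι ℤ)) ^ c ∣ phi F ∧
      (phi F).coeff c = r * (phi (kp w hw P)).coeff c ∧
      r ≤ T.card ∧ (r = 0 → ∀ i ∈ T, m i ∈ U) ∧
      (r = T.card → ∀ a : κ → MvPolynomial J k, ∑ i ∈ T, a i • m i ∈ U → ∀ i ∈ T, a i ∈ P) := by
  induction T using Finset.induction_on with
  | empty =>
    have e : U ⊔ Submodule.span (MvPolynomial J k) (m '' ((∅ : Finset κ) : Set κ)) = U := by
      simp
    rw [e]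
    refine ⟨hU, 0, 0, ?_, ?_, ?_, le_rfl, ?_, ?_⟩
    · rw [sub_self, zero_mul, MvPolynomial.coe_zero]
    · rw [map_zero]; exact dvd_zero _
    · simp
    · intro _ i hi; exact absurd hi (Finset.notMem_empty i)
    · intro _ a _ i hi; exact absurd hi (Finset.notMem_empty i)
  | insert i T hi ih =>
    obtain ⟨hV, F, r, hF, hF1, hF2, hr, hr0, hrc⟩ := ih
    set V := U ⊔ Submodule.span (MvPolynomial J k) (m '' (T : Set κ)) with hVdef
    have e : U ⊔ Submodule.span (MvPolynomial J k) (m '' ((insert i T : Finset κ) : Set κ)) =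
        V ⊔ Submodule.span (MvPolynomial J k) {m i} := by
      rw [Finset.coe_insert, Set.image_insert_eq, Submodule.span_insert, hVdef, sup_assoc,
        sup_comm (Submodule.span (MvPolynomial J k) {m i})]
    rw [e]
    obtain ⟨h1, h2, h3⟩ := hs_step w hw (hm i) hV
    set I : Ideal (MvPolynomial J k) :=
      V.comap (LinearMap.toSpanSingleton (MvPolynomial J k) M (m i)) with hIdef
    have hIhom : HomI w I := (homI_iff w hw).2 h2
    have hmemI : ∀ a, a ∈ I ↔ a • m i ∈ V := fun a => Iff.rfl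
    have hUV : U ≤ V := le_sup_left
    have hPI : P ≤ I := fun a ha => (hmemI a).2 (hUV (hPU a ha _))
    refine ⟨h1, F + monomial (d i) 1 * kp w hw I, if I = P then r + 1 else r, ?_, ?_, ?_, ?_,
      ?_, ?_⟩
    · rw [MvPolynomial.coe_add, MvPolynomial.coe_mul, coe_monomial_tp, coe_kp w hw hIhom, hF]
      linear_combination -(∏ j, (1 - tp (w j))) * h3
    · rw [map_add]
      refine dvd_add hF1 (phi_mono_mul (d i) ?_).1
      rcases eq_or_lt_of_le hPI with h | h
      · rw [← h]; exact hc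
      · exact (pow_dvd_pow _ (Nat.le_succ c)).trans (hI I hIhom h)
    · rw [map_add, Polynomial.coeff_add, hF2]
      rcases eq_or_lt_of_le hPI with h | h
      · rw [if_pos h.symm, (phi_mono_mul (d i) (by rw [← h]; exact hc)).2, ← h]
        push_cast
        ring
      · have h4 := hI I hIhom h
        rw [if_neg (ne_of_gt h),
          (phi_mono_mul (d i) ((pow_dvd_pow _ (Nat.le_succ c)).trans h4)).2,
          Polynomial.X_pow_dvd_iff.1 h4 c (Nat.lt_succ_self c), add_zero]
    · rw [Finset.card_insert_of_notMem hi]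
      split_ifs <;> omega
    · intro hr'
      by_cases h : I = P
      · rw [if_pos h] at hr'; omega
      · rw [if_neg h] at hr'
        have h4 := hr0 hr'
        have hVU : V = U := by
          rw [hVdef, sup_eq_left, Submodule.span_le]
          rintro _ ⟨j, hj, rfl⟩
          exact h4 j hj
        have h5 : ∃ a, a ∈ I ∧ a ∉ P := by
          by_contra hcon
          push Not at hcon
          exact h (le_antisymm hcon hPI)
        obtain ⟨a, ha, haP⟩ := h5
        have h6 : a • m i ∈ U := by rw [← hVU]; exact (hmemI a).1 ha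
        have h7 : m i ∈ U := (hUt a _ h6).resolve_left haP
        intro j hj
        rcases Finset.mem_insert.1 hj with rfl | hj
        · exact h7
        · exact h4 j hj
    · intro hr' a ha
      rw [Finset.card_insert_of_notMem hi] at hr'
      by_cases h : I = P
      · rw [if_pos h] at hr'
        rw [Finset.sum_insert hi] at ha
        have h4 : a i ∈ I := by
          rw [hmemI]
          have h5 : ∑ j ∈ T, a j • m j ∈ V := by
            refine Submodule.sum_mem _ fun j hj => ?_
            exact (le_sup_right : _ ≤ V) (Submodule.smul_mem _ _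
              (Submodule.subset_span ⟨j, hj, rfl⟩))
          have h6 := V.sub_mem (hUV ha) h5
          rwa [add_sub_cancel_right] at h6
        rw [h] at h4
        have h5 : ∑ j ∈ T, a j • m j ∈ U := by
          have h6 := U.sub_mem ha (hPU (a i) h4 (m i))
          rwa [add_sub_cancel_left] at h6
        intro j hj
        rcases Finset.mem_insert.1 hj with rfl | hj
        · exact h4
        · exact hrc (by omega) a h5 j hj
      · rw [if_neg h] at hr'
        omega

end filt

end P199H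
end
end

section

section

open scoped BigOperators

namespace P199H

/-- Index set of the `2K` generators: `inl i` stands for `U_i`, `inr i` for `V_i`. -/
abbrev Ix (K : ℕ) : Type := Fin K ⊕ Fin K

/-- The group `(ℤ/2)^{2K}`. -/
abbrev Gam (K : ℕ) : Type := Ix K → ZMod 2

lemma z2 (x : ZMod 2) : x = 0 ∨ x = 1 := by
  revert x; decide

lemma z2_11 : (1 : ZMod 2) + 1 = 0 := by decide

lemma z2_add_self (x : ZMod 2) : x + x = 0 := by
  revert x; decide

lemma Gam.add_self {K : ℕ} (g : Gam K) : g + g = 0 := by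
  funext i; exact z2_add_self (g i)

section coc
variable {K : ℕ} {R : Type*} [CommRing R]

/-- sign part of the cocycle -/
def sgp (R : Type*) [CommRing R] (x y : ZMod 2) : R := if x = 1 ∧ y = 1 then -1 else 1

/-- square part of the cocycle -/
def sqp {R : Type*} [CommRing R] (r : R) (x y : ZMod 2) : R := if x = 1 ∧ y = 1 then r else 1

lemma sgp_add_left (x x' y : ZMod 2) : sgp R (x + x') y = sgp R x y * sgp R x' y := by
  rcases z2 x with rfl | rfl <;> rcases z2 x' with rfl | rfl <;> rcases z2 y with rfl | rfl <;>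
    simp [sgp, z2_11]

lemma sgp_add_right (x y y' : ZMod 2) : sgp R x (y + y') = sgp R x y * sgp R x y' := by
  rcases z2 x with rfl | rfl <;> rcases z2 y' with rfl | rfl <;> rcases z2 y with rfl | rfl <;>
    simp [sgp, z2_11]

@[simp] lemma sgp_zero_left (y : ZMod 2) : sgp R 0 y = 1 := by simp [sgp]
@[simp] lemma sgp_zero_right (y : ZMod 2) : sgp R y 0 = 1 := by simp [sgp]

lemma sgp_mul_self (x y : ZMod 2) : sgp R x y * sgp R x y = 1 := by
  rcases z2 x with rfl | rfl <;> rcases z2 y with rfl | rfl <;> simp [sgp]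

lemma sqp_comm (r : R) (x y : ZMod 2) : sqp r x y = sqp r y x := by
  simp [sqp, and_comm]

@[simp] lemma sqp_zero_left (r : R) (y : ZMod 2) : sqp r 0 y = 1 := by simp [sqp]
@[simp] lemma sqp_zero_right (r : R) (y : ZMod 2) : sqp r y 0 = 1 := by simp [sqp]

lemma sqp_cocycle (r : R) (x y z : ZMod 2) :
    sqp r x y * sqp r (x + y) z = sqp r x (y + z) * sqp r y z := by
  rcases z2 x with rfl | rfl <;> rcases z2 y with rfl | rfl <;> rcases z2 z with rfl | rfl <;>
    simp [sqp, z2_11]

/-- the sign `(-1)^{q·p'}` -/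
def sgn0 (R : Type*) [CommRing R] (g h : Gam K) : R :=
  ∏ i : Fin K, sgp R (g (Sum.inr i)) (h (Sum.inl i))

/-- the product of the squares -/
def sqq (s : Ix K → R) (g h : Gam K) : R := ∏ j : Ix K, sqp (s j) (g j) (h j)

/-- the cocycle: `X^g X^h = coc s g h X^{g+h}` -/
def coc (s : Ix K → R) (g h : Gam K) : R := sgn0 R g h * sqq s g h

lemma sgn0_add_left (g g' h : Gam K) : sgn0 R (g + g') h = sgn0 R g h * sgn0 R g' h := by
  simp [sgn0, sgp_add_left, Finset.prod_mul_distrib]

lemma sgn0_add_right (g h h' : Gam K) : sgn0 R g (h + h') = sgn0 R g h * sgn0 R g h' := by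
  simp [sgn0, sgp_add_right, Finset.prod_mul_distrib]

@[simp] lemma sgn0_zero_left (h : Gam K) : sgn0 R 0 h = 1 := by simp [sgn0]
@[simp] lemma sgn0_zero_right (h : Gam K) : sgn0 R h 0 = 1 := by simp [sgn0]
@[simp] lemma sqq_zero_left (s : Ix K → R) (h : Gam K) : sqq s 0 h = 1 := by simp [sqq]
@[simp] lemma sqq_zero_right (s : Ix K → R) (h : Gam K) : sqq s h 0 = 1 := by simp [sqq]
@[simp] lemma coc_zero_left (s : Ix K → R) (h : Gam K) : coc s 0 h = 1 := by simp [coc]
@[simp] lemma coc_zero_right (s : Ix K → R) (h : Gam K) : coc s h 0 = 1 := by simp [coc]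

lemma sgn0_mul_self (g h : Gam K) : sgn0 R g h * sgn0 R g h = 1 := by
  rw [sgn0, ← Finset.prod_mul_distrib]
  exact Finset.prod_eq_one (fun i _ => sgp_mul_self _ _)

lemma sqq_comm (s : Ix K → R) (g h : Gam K) : sqq s g h = sqq s h g := by
  unfold sqq; exact Finset.prod_congr rfl (fun j _ => sqp_comm _ _ _)

lemma sqq_cocycle (s : Ix K → R) (g h l : Gam K) :
    sqq s g h * sqq s (g + h) l = sqq s g (h + l) * sqq s h l := by
  unfold sqq
  rw [← Finset.prod_mul_distrib, ← Finset.prod_mul_distrib]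
  exact Finset.prod_congr rfl (fun j _ => sqp_cocycle _ _ _ _)

lemma coc_cocycle (s : Ix K → R) (g h l : Gam K) :
    coc s g h * coc s (g + h) l = coc s g (h + l) * coc s h l := by
  have h1 := sqq_cocycle s g h l
  unfold coc
  rw [sgn0_add_left, sgn0_add_right]
  calc sgn0 R g h * sqq s g h * (sgn0 R g l * sgn0 R h l * sqq s (g + h) l)
      = sgn0 R g h * sgn0 R g l * sgn0 R h l * (sqq s g h * sqq s (g + h) l) := by ring
    _ = _ := by rw [h1]; ring

/-- the commutation sign: `X^g X^h = sg g h X^h X^g`. -/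
def sg (R : Type*) [CommRing R] (g h : Gam K) : R := sgn0 R g h * sgn0 R h g

lemma sg_add_right (g h h' : Gam K) : sg R g (h + h') = sg R g h * sg R g h' := by
  simp only [sg, sgn0_add_left, sgn0_add_right]; ring

@[simp] lemma sg_zero_left (h : Gam K) : sg R 0 h = 1 := by simp [sg]
@[simp] lemma sg_zero_right (h : Gam K) : sg R h 0 = 1 := by simp [sg]

@[simp] lemma sg_self (g : Gam K) : sg R g g = 1 := by
  simp [sg, sgn0_mul_self]

lemma coc_comm (s : Ix K → R) (g h : Gam K) : coc s g h = sg R g h * coc s h g := by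
  unfold coc sg
  rw [sqq_comm s h g]
  calc sgn0 R g h * sqq s g h = sgn0 R g h * (sgn0 R h g * sgn0 R h g) * sqq s g h := by
        rw [sgn0_mul_self, mul_one]
    _ = _ := by ring

end coc

/-- The twisted algebra: free `R`-module on symbols `X^g`, `g ∈ (ℤ/2)^{2K}`. -/
def Tw (K : ℕ) (R : Type*) (_s : Ix K → R) : Type _ := Gam K → R

namespace Tw
variable {K : ℕ} {R : Type*} [CommRing R] {s : Ix K → R}

instance : AddCommGroup (Tw K R s) := inferInstanceAs (AddCommGroup (Gam K → R))
instance : Module R (Tw K R s) := inferInstanceAs (Module R (Gam K → R))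

omit [CommRing R] in
@[ext] lemma ext {f g : Tw K R s} (h : ∀ a, f a = g a) : f = g := funext h

@[simp] lemma add_apply (f g : Tw K R s) (a : Gam K) : (f + g) a = f a + g a := rfl
@[simp] lemma sub_apply (f g : Tw K R s) (a : Gam K) : (f - g) a = f a - g a := rfl
@[simp] lemma neg_apply (f : Tw K R s) (a : Gam K) : (-f) a = -f a := rfl
@[simp] lemma zero_apply (a : Gam K) : (0 : Tw K R s) a = 0 := rfl
@[simp] lemma smul_apply (r : R) (f : Tw K R s) (a : Gam K) : (r • f) a = r * f a := rfl

/-- coefficient as linear map -/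
def coeff (a : Gam K) : Tw K R s →ₗ[R] R := LinearMap.proj (R := R) (φ := fun _ : Gam K => R) a

@[simp] lemma coeff_apply (a : Gam K) (f : Tw K R s) : coeff a f = f a := rfl

lemma sum_apply {ι : Type*} (t : Finset ι) (F : ι → Tw K R s) (a : Gam K) :
    (∑ i ∈ t, F i) a = ∑ i ∈ t, F i a :=
  Finset.sum_apply a t (F : ι → Gam K → R)

instance : Mul (Tw K R s) := ⟨fun f g a => ∑ d : Gam K, coc s d (a + d) * f d * g (a + d)⟩

lemma mul_apply (f g : Tw K R s) (a : Gam K) :
    (f * g) a = ∑ d : Gam K, coc s d (a + d) * f d * g (a + d) := rfl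

/-- basis element -/
def X (g : Gam K) : Tw K R s := (Pi.single g 1 : Gam K → R)

instance : One (Tw K R s) := ⟨X 0⟩

lemma one_def : (1 : Tw K R s) = X 0 := rfl

lemma X_apply (g a : Gam K) : (X g : Tw K R s) a = if a = g then 1 else 0 := by
  simp [X, Pi.single_apply]

lemma add_add_self (a d : Gam K) : a + d + d = a := by
  rw [add_assoc, Gam.add_self, add_zero]

lemma add_self_add (a d : Gam K) : a + (a + d) = d := by
  rw [← add_assoc, Gam.add_self, zero_add]

lemma X_mul_apply (g : Gam K) (f : Tw K R s) (a : Gam K) :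
    (X g * f : Tw K R s) a = coc s g (a + g) * f (a + g) := by
  rw [mul_apply, Finset.sum_eq_single g]
  · simp [X_apply]
  · intro b _ hb; simp [X_apply, hb]
  · intro h; exact absurd (Finset.mem_univ _) h

lemma mul_X_apply (g : Gam K) (f : Tw K R s) (a : Gam K) :
    (f * X g : Tw K R s) a = coc s (a + g) g * f (a + g) := by
  rw [mul_apply, Finset.sum_eq_single (a + g)]
  · rw [← add_assoc, Gam.add_self, zero_add]; simp [X_apply]
  · intro b _ hb
    have : a + b ≠ g := by
      intro h; apply hb; rw [← h, add_self_add]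
    simp [X_apply, this]
  · intro h; exact absurd (Finset.mem_univ _) h

protected lemma mul_assoc' (f g h : Tw K R s) : f * g * h = f * (g * h) := by
  ext a
  simp only [mul_apply, Finset.mul_sum, Finset.sum_mul]
  rw [Finset.sum_comm]
  refine Finset.sum_congr rfl (fun e _ => ?_)
  -- substitute d = e + z
  rw [← Equiv.sum_comp (Equiv.addLeft e)]
  refine Finset.sum_congr rfl (fun z _ => ?_)
  simp only [Equiv.coe_addLeft]
  have h1 : e + z + e = z := by rw [add_comm e z, add_add_self]
  have h2 : a + e + z = a + (e + z) := by rw [add_assoc]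
  rw [h1, h2]
  have hc := coc_cocycle s e z (a + (e + z))
  have h3 : z + (a + (e + z)) = a + e := by
    rw [← add_assoc a e z, add_comm z, add_add_self]
  rw [h3] at hc
  calc coc s (e + z) (a + (e + z)) * (coc s e z * f e * g z) * h (a + (e + z))
      = (coc s e z * coc s (e + z) (a + (e + z))) * (f e * g z * h (a + (e + z))) := by ring
    _ = coc s e (a + e) * coc s z (a + (e + z)) * (f e * g z * h (a + (e + z))) := by rw [hc]
    _ = _ := by ring

instance : Ring (Tw K R s) :=
  { (inferInstance : AddCommGroup (Tw K R s)) with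
    mul := (· * ·)
    one := 1
    mul_assoc := Tw.mul_assoc'
    one_mul := by
      intro f; ext a; rw [one_def, X_mul_apply]; simp
    mul_one := by
      intro f; ext a; rw [one_def, mul_X_apply]; simp
    left_distrib := by
      intro f g h; ext a; simp [mul_apply, mul_add, Finset.sum_add_distrib]
    right_distrib := by
      intro f g h; ext a; simp [mul_apply, mul_add, add_mul, Finset.sum_add_distrib]
    zero_mul := by intro f; ext a; simp [mul_apply]
    mul_zero := by intro f; ext a; simp [mul_apply] }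

protected lemma smul_mul_assoc' (r : R) (f g : Tw K R s) : (r • f) * g = r • (f * g) := by
  ext a
  simp only [mul_apply, smul_apply, Finset.mul_sum]
  exact Finset.sum_congr rfl (fun _ _ => by ring)

protected lemma mul_smul_comm' (r : R) (f g : Tw K R s) : f * (r • g) = r • (f * g) := by
  ext a
  simp only [mul_apply, smul_apply, Finset.mul_sum]
  exact Finset.sum_congr rfl (fun _ _ => by ring)

instance : Algebra R (Tw K R s) := Algebra.ofModule Tw.smul_mul_assoc' Tw.mul_smul_comm'

lemma algebraMap_eq (r : R) : algebraMap R (Tw K R s) r = r • (1 : Tw K R s) := by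
  rw [Algebra.algebraMap_eq_smul_one]

lemma algebraMap_apply (r : R) (a : Gam K) :
    algebraMap R (Tw K R s) r a = if a = 0 then r else 0 := by
  rw [algebraMap_eq, smul_apply, one_def, X_apply]; split_ifs <;> simp

lemma X_mul_X (g h : Gam K) : (X g * X h : Tw K R s) = coc s g h • X (g + h) := by
  ext a
  rw [X_mul_apply, smul_apply, X_apply, X_apply]
  by_cases h1 : a = g + h
  · subst h1
    have : g + h + g = h := by rw [add_comm g h, add_add_self]
    simp [this]
  · have h2 : a + g ≠ h := by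
      intro h2; apply h1; rw [← h2, add_comm g, add_add_self]
    simp [h1, h2]

@[simp] lemma X_zero : (X 0 : Tw K R s) = 1 := rfl

/-- The sign automorphism `f ↦ X^g f X^{-g}`, defined over any ring. -/
def sigFun (g : Gam K) (f : Tw K R s) : Tw K R s := fun a => sg R g a * f a

lemma sigFun_apply (g : Gam K) (f : Tw K R s) (a : Gam K) : sigFun g f a = sg R g a * f a := rfl

/-- The sign automorphism as algebra automorphism. -/
def sig (g : Gam K) : Tw K R s →ₐ[R] Tw K R s where
  toFun := sigFun g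
  map_one' := by
    ext a; rw [sigFun_apply, one_def, X_apply]; by_cases h : a = 0 <;> simp [h]
  map_mul' f h := by
    ext a
    rw [sigFun_apply, mul_apply, mul_apply, Finset.mul_sum]
    refine Finset.sum_congr rfl (fun d _ => ?_)
    rw [sigFun_apply, sigFun_apply]
    have : sg R g a = sg R g d * sg R g (a + d) := by
      rw [← sg_add_right, add_comm a d, ← add_assoc, Gam.add_self, zero_add]
    rw [this]; ring
  map_zero' := by ext a; simp [sigFun_apply]
  map_add' f h := by ext a; simp [sigFun_apply, mul_add]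
  commutes' r := by
    ext a; rw [sigFun_apply, algebraMap_apply]; by_cases h : a = 0 <;> simp [h]

@[simp] lemma sig_apply (g : Gam K) (f : Tw K R s) (a : Gam K) : sig g f a = sg R g a * f a := rfl

lemma X_mul_X_comm (g h : Gam K) : (X g * X h : Tw K R s) = sg R g h • (X h * X g) := by
  rw [X_mul_X, X_mul_X, coc_comm, add_comm h g, smul_smul]

/-- normalized trace -/
def tau : Tw K R s →ₗ[R] R := coeff 0

lemma tau_apply (f : Tw K R s) : tau f = f 0 := rfl

@[simp] lemma tau_one : tau (1 : Tw K R s) = 1 := by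
  rw [tau_apply, one_def, X_apply]; simp

lemma tau_mul (f g : Tw K R s) : tau (f * g) = ∑ d : Gam K, coc s d d * f d * g d := by
  rw [tau_apply, mul_apply]; simp

lemma tau_mul_comm (f g : Tw K R s) : tau (f * g) = tau (g * f) := by
  rw [tau_mul, tau_mul]; exact Finset.sum_congr rfl (fun _ _ => by ring)

/-- the standard basis -/
noncomputable def basis : Module.Basis (Gam K) R (Tw K R s) := Pi.basisFun R (Gam K)

lemma basis_apply (g : Gam K) : (basis g : Tw K R s) = X g := by
  show (Pi.basisFun R (Gam K)) g = (Pi.single g 1 : Gam K → R)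
  rw [Pi.basisFun_apply]

lemma basis_repr (f : Tw K R s) (g : Gam K) : basis.repr f g = f g := by
  exact Pi.basisFun_repr (R := R) (η := Gam K) f g

instance : Module.Free R (Tw K R s) := Module.Free.of_basis basis
instance : Module.Finite R (Tw K R s) := Module.Finite.of_basis basis

lemma card_Gam : Fintype.card (Gam K) = 2 ^ (2 * K) := by
  simp [Gam, Ix, ZMod.card, two_mul]

lemma finrank_eq [Nontrivial R] : Module.finrank R (Tw K R s) = 2 ^ (2 * K) := by
  rw [Module.finrank_eq_card_basis basis, card_Gam]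

lemma eq_sum (f : Tw K R s) : f = ∑ g : Gam K, f g • X g := by
  ext a
  rw [sum_apply, Finset.sum_eq_single a]
  · simp [X_apply]
  · intro b _ hb; simp [X_apply, Ne.symm hb]
  · intro h; exact absurd (Finset.mem_univ _) h

instance [Nontrivial R] : Nontrivial (Tw K R s) :=
  ⟨⟨0, 1, fun h => by
    have := congrFun (show (0 : Gam K → R) = _ from h) 0
    change (0 : R) = (1 : Tw K R s) 0 at this
    rw [one_def, X_apply] at this
    simp at this⟩⟩

section map
variable {R' : Type*} [CommRing R'] {s' : Ix K → R'}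

lemma map_sgp (φ : R →+* R') (x y : ZMod 2) : φ (sgp R x y) = sgp R' x y := by
  unfold sgp; split_ifs <;> simp

lemma map_sqp (φ : R →+* R') (r : R) (x y : ZMod 2) : φ (sqp r x y) = sqp (φ r) x y := by
  unfold sqp; split_ifs <;> simp

lemma map_sgn0 (φ : R →+* R') (g h : Gam K) : φ (sgn0 R g h) = sgn0 R' g h := by
  simp [sgn0, map_sgp]

lemma map_sg (φ : R →+* R') (g h : Gam K) : φ (sg R g h) = sg R' g h := by
  simp [sg, map_sgn0]

lemma map_coc (φ : R →+* R') (hs : ∀ i, φ (s i) = s' i) (g h : Gam K) :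
    φ (coc s g h) = coc s' g h := by
  simp [coc, sqq, map_sgn0, map_sqp, hs]

/-- coefficientwise application of a map -/
def mapFun (s' : Ix K → R') (φ : R → R') (f : Tw K R s) : Tw K R' s' := fun a => φ (f a)

omit [CommRing R] [CommRing R'] in
lemma mapFun_apply (φ : R → R') (f : Tw K R s) (a : Gam K) : mapFun s' φ f a = φ (f a) := rfl

/-- functoriality -/
def map (φ : R →+* R') (hs : ∀ i, φ (s i) = s' i) : Tw K R s →+* Tw K R' s' where
  toFun f := mapFun s' φ f
  map_one' := by
    ext a; rw [mapFun_apply, one_def, one_def, X_apply, X_apply]; split_ifs <;> simp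
  map_mul' f g := by
    ext a; rw [mapFun_apply, mul_apply, mul_apply, map_sum]
    refine Finset.sum_congr rfl (fun d _ => ?_)
    rw [map_mul, map_mul, map_coc φ hs, mapFun_apply, mapFun_apply]
  map_zero' := by ext a; simp [mapFun_apply]
  map_add' f g := by ext a; simp [mapFun_apply]

@[simp] lemma map_apply (φ : R →+* R') (hs : ∀ i, φ (s i) = s' i) (f : Tw K R s) (a : Gam K) :
    map φ hs f a = φ (f a) := rfl

@[simp] lemma map_X (φ : R →+* R') (hs : ∀ i, φ (s i) = s' i) (g : Gam K) :
    map φ hs (X g) = X g := by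
  ext a; rw [map_apply, X_apply, X_apply]; split_ifs <;> simp

lemma map_smul (φ : R →+* R') (hs : ∀ i, φ (s i) = s' i) (r : R) (f : Tw K R s) :
    map φ hs (r • f) = φ r • map φ hs f := by
  ext a; simp

lemma map_algebraMap (φ : R →+* R') (hs : ∀ i, φ (s i) = s' i) (r : R) :
    map φ hs (algebraMap R (Tw K R s) r) = algebraMap R' (Tw K R' s') (φ r) := by
  rw [algebraMap_eq, algebraMap_eq, map_smul, map_one]

lemma tau_map (φ : R →+* R') (hs : ∀ i, φ (s i) = s' i) (f : Tw K R s) :
    tau (map φ hs f) = φ (tau f) := rfl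

lemma map_eq_zero_iff' (φ : R →+* R') (hs : ∀ i, φ (s i) = s' i) (f : Tw K R s) :
    map φ hs f = 0 ↔ ∀ a, φ (f a) = 0 := by
  constructor
  · intro h a; exact congrFun (show (map φ hs f : Gam K → R') = 0 from h) a
  · intro h; ext a; exact h a

lemma map_injective (φ : R →+* R') (hs : ∀ i, φ (s i) = s' i) (hφ : Function.Injective φ) :
    Function.Injective (map φ hs) := by
  intro f g h; ext a; exact hφ (congrFun (show (map φ hs f : Gam K → R') = map φ hs g from h) a)

lemma map_surjective (φ : R →+* R') (hs : ∀ i, φ (s i) = s' i) (hφ : Function.Surjective φ) :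
    Function.Surjective (map φ hs) := by
  intro g
  refine ⟨fun a => (hφ (g a)).choose, ?_⟩
  ext a; exact (hφ (g a)).choose_spec

end map

end Tw

end P199H
end
end

section

section

set_option linter.all false
open scoped BigOperators

namespace P199H

section om
variable {K : ℕ} {R : Type*} [CommRing R]

end om

namespace Tw
variable {K : ℕ} {R : Type*} [CommRing R] {s : Ix K → R}

section loc
variable {L : Type*} [Field L] [Algebra R L] [IsDomain R] [IsFractionRing R L] {s' : Ix K → L}

/-- common denominators -/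
lemma exists_smul_eq_map (hs : ∀ i, algebraMap R L (s i) = s' i) (f : Tw K L s') :
    ∃ b : R, b ≠ 0 ∧ ∃ f' : Tw K R s, algebraMap R L b • f = map (algebraMap R L) hs f' := by
  classical
  obtain ⟨b, hb⟩ := IsLocalization.exist_integer_multiples_of_finset (nonZeroDivisors R)
    (Finset.univ.image (fun a : Gam K => f a))
  refine ⟨b, nonZeroDivisors.ne_zero b.2, ?_⟩
  have h1 : ∀ a : Gam K, ∃ c : R, algebraMap R L c = algebraMap R L b * f a := by
    intro a
    obtain ⟨c, hc⟩ := hb (f a) (Finset.mem_image_of_mem _ (Finset.mem_univ a))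
    refine ⟨c, ?_⟩
    rw [hc, Algebra.smul_def]
  choose c hc using h1
  refine ⟨(show Tw K R s from c), ?_⟩
  ext a
  rw [smul_apply, map_apply, ← hc a]

lemma noZeroDivisors_frac (hs : ∀ i, algebraMap R L (s i) = s' i) [NoZeroDivisors (Tw K R s)] :
    NoZeroDivisors (Tw K L s') := by
  refine ⟨fun {f g} h => ?_⟩
  obtain ⟨b, hb, f', hf⟩ := exists_smul_eq_map (s := s) hs f
  obtain ⟨c, hc, g', hg⟩ := exists_smul_eq_map (s := s) hs g
  have hb' : algebraMap R L b ≠ 0 := by
    simpa using hb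
  have hc' : algebraMap R L c ≠ 0 := by
    simpa using hc
  have h1 : map (algebraMap R L) hs (f' * g') = 0 := by
    rw [map_mul, ← hf, ← hg, smul_mul_smul_comm, h, smul_zero]
  have h2 : f' * g' = 0 := by
    apply map_injective (algebraMap R L) hs (IsFractionRing.injective R L)
    rw [h1, map_zero]
  rcases mul_eq_zero.mp h2 with h3 | h3
  · left
    rw [h3, map_zero] at hf
    exact (smul_eq_zero.mp hf).resolve_left hb'
  · right
    rw [h3, map_zero] at hg
    exact (smul_eq_zero.mp hg).resolve_left hc'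

end loc

section field
variable {L : Type*} [Field L] {s : Ix K → L}

/-- a twisted algebra over a field without zero divisors is a division ring -/
@[reducible] noncomputable def divisionRing [NoZeroDivisors (Tw K L s)] : DivisionRing (Tw K L s) :=
  have : IsDomain (Tw K L s) := NoZeroDivisors.to_isDomain _
  divisionRingOfFiniteDimensional L (Tw K L s)

end field

end Tw

end P199H
end
end

section

section

set_option linter.all false
open scoped BigOperators

namespace P199H

variable {K : ℕ}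

/-- the degree of `X^g` -/
noncomputable def gval (g : Gam K) : Ix K →₀ ℕ :=
  Finsupp.equivFunOnFinite.symm (fun i => (g i).val)

@[simp] lemma gval_apply (g : Gam K) (i : Ix K) : gval g i = (g i).val := rfl

@[simp] lemma gval_zero : gval (0 : Gam K) = 0 := by ext i; simp

/-- the degree of the cocycle `coc s g h` -/
noncomputable def cdeg (g h : Gam K) : Ix K →₀ ℕ :=
  ∑ j : Ix K, (if g j = 1 ∧ h j = 1 then Finsupp.single j 2 else 0)

lemma cdeg_apply (g h : Gam K) (i : Ix K) :
    cdeg g h i = if g i = 1 ∧ h i = 1 then 2 else 0 := by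
  unfold cdeg
  rw [Finsupp.finset_sum_apply, Finset.sum_eq_single i]
  · split_ifs <;> simp
  · intro b _ hb; split_ifs
    · rw [Finsupp.single_apply, if_neg hb]
    · rfl
  · intro h; exact absurd (Finset.mem_univ _) h

lemma cdeg_add_gval (g h : Gam K) : cdeg g h + gval (g + h) = gval g + gval h := by
  ext i
  rw [Finsupp.add_apply, Finsupp.add_apply, cdeg_apply, gval_apply, gval_apply, gval_apply,
    Pi.add_apply]
  rcases z2 (g i) with h1 | h1 <;> rcases z2 (h i) with h2 | h2 <;> simp [h1, h2, z2_11] <;> rfl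

/-- An abstract notion of homogeneous elements of a commutative ring with degrees in
`Ix K →₀ ℕ`, for which `s i` is homogeneous of degree `2 e_i`. -/
structure HomSys {R : Type*} [CommRing R] (s : Ix K → R) where
  /-- `Hm d r`: `r` is homogeneous of degree `d` (zero allowed) -/
  Hm : (Ix K →₀ ℕ) → R → Prop
  zero : ∀ d, Hm d 0
  one : Hm 0 1
  add : ∀ {d a b}, Hm d a → Hm d b → Hm d (a + b)
  neg : ∀ {d a}, Hm d a → Hm d (-a)
  mul : ∀ {d e a b}, Hm d a → Hm e b → Hm (d + e) (a * b)
  s_hom : ∀ i, Hm (Finsupp.single i 2) (s i)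

namespace HomSys
variable {R : Type*} [CommRing R] {s : Ix K → R} (H : HomSys s)

lemma sum {ι : Type*} (t : Finset ι) (F : ι → R) (d : Ix K →₀ ℕ) (h : ∀ i ∈ t, H.Hm d (F i)) :
    H.Hm d (∑ i ∈ t, F i) := by
  classical
  induction t using Finset.induction_on with
  | empty => simpa using H.zero d
  | insert a t ha ih =>
    rw [Finset.sum_insert ha]
    exact H.add (h a (Finset.mem_insert_self _ _)) (ih fun i hi => h i (Finset.mem_insert_of_mem hi))

lemma prod {ι : Type*} (t : Finset ι) (F : ι → R) (D : ι → (Ix K →₀ ℕ))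
    (h : ∀ i ∈ t, H.Hm (D i) (F i)) : H.Hm (∑ i ∈ t, D i) (∏ i ∈ t, F i) := by
  classical
  induction t using Finset.induction_on with
  | empty => simpa using H.one
  | insert a t ha ih =>
    rw [Finset.sum_insert ha, Finset.prod_insert ha]
    exact H.mul (h a (Finset.mem_insert_self _ _)) (ih fun i hi => h i (Finset.mem_insert_of_mem hi))

lemma sgp (x y : ZMod 2) : H.Hm 0 (sgp R x y) := by
  unfold P199H.sgp; split_ifs
  · exact H.neg H.one
  · exact H.one

lemma sgn0 (g h : Gam K) : H.Hm 0 (sgn0 R g h) := by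
  have := H.prod Finset.univ (fun i : Fin K => P199H.sgp R (g (Sum.inr i)) (h (Sum.inl i)))
    (fun _ => 0) (fun i _ => H.sgp _ _)
  simpa [P199H.sgn0] using this

lemma coc (g h : Gam K) : H.Hm (cdeg g h) (coc s g h) := by
  have h1 : H.Hm (cdeg g h) (sqq s g h) := by
    unfold cdeg sqq
    apply H.prod
    intro j _
    unfold sqp
    split_ifs
    · exact H.s_hom j
    · exact H.one
  have := H.mul (H.sgn0 g h) h1
  rwa [zero_add] at this

/-- Homogeneous elements of `Tw`. -/
def TwH (χ : Ix K →₀ ℕ) (f : Tw K R s) : Prop :=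
  ∀ g : Gam K, f g = 0 ∨ ∃ d, d + gval g = χ ∧ H.Hm d (f g)

variable {H}

lemma TwH.X (g : Gam K) : H.TwH (gval g) (Tw.X g) := by
  intro a
  rw [Tw.X_apply]
  by_cases h : a = g
  · right; exact ⟨0, by rw [h, zero_add], by simpa [h] using H.one⟩
  · left; simp [h]

lemma TwH.one : H.TwH 0 (1 : Tw K R s) := by
  have := TwH.X (H := H) (0 : Gam K)
  rwa [gval_zero] at this

lemma TwH.add {χ : Ix K →₀ ℕ} {f g : Tw K R s} (hf : H.TwH χ f) (hg : H.TwH χ g) :
    H.TwH χ (f + g) := by
  intro a
  rw [Tw.add_apply]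
  rcases hf a with h1 | ⟨d, hd, h1⟩
  · rw [h1, zero_add]; exact hg a
  · rcases hg a with h2 | ⟨e, he, h2⟩
    · rw [h2, add_zero]; exact Or.inr ⟨d, hd, h1⟩
    · have : d = e := add_right_cancel (hd.trans he.symm)
      subst this
      exact Or.inr ⟨d, hd, H.add h1 h2⟩

lemma TwH.mul {χ ψ : Ix K →₀ ℕ} {f g : Tw K R s} (hf : H.TwH χ f) (hg : H.TwH ψ g) :
    H.TwH (χ + ψ) (f * g) := by
  intro a
  rw [Tw.mul_apply]
  by_cases hall : ∀ d : Gam K, P199H.coc s d (a + d) * f d * g (a + d) = 0
  · left; exact Finset.sum_eq_zero (fun d _ => hall d)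
  · right
    push Not at hall
    obtain ⟨d₀, hd₀⟩ := hall
    -- every non-zero term has degree `e` with `e + gval a = χ + ψ`
    have key : ∀ d : Gam K, P199H.coc s d (a + d) * f d * g (a + d) ≠ 0 →
        ∃ e, e + gval a = χ + ψ ∧ H.Hm e (P199H.coc s d (a + d) * f d * g (a + d)) := by
      intro d hd
      have hfd : f d ≠ 0 := by
        intro h; apply hd; rw [h, mul_zero, zero_mul]
      have hgd : g (a + d) ≠ 0 := by
        intro h; apply hd; rw [h, mul_zero]
      obtain ⟨d1, hd1, h1⟩ := (hf d).resolve_left hfd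
      obtain ⟨d2, hd2, h2⟩ := (hg (a + d)).resolve_left hgd
      refine ⟨cdeg d (a + d) + d1 + d2, ?_, H.mul (H.mul (H.coc _ _) h1) h2⟩
      have h3 := cdeg_add_gval d (a + d)
      have h4 : d + (a + d) = a := by rw [add_comm, Tw.add_add_self]
      rw [h4] at h3
      calc cdeg d (a + d) + d1 + d2 + gval a = (cdeg d (a + d) + gval a) + d1 + d2 := by abel
        _ = gval d + gval (a + d) + d1 + d2 := by rw [h3]
        _ = (d1 + gval d) + (d2 + gval (a + d)) := by abel
        _ = χ + ψ := by rw [hd1, hd2]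
    obtain ⟨e, he, _⟩ := key d₀ hd₀
    refine ⟨e, he, H.sum _ _ _ (fun d _ => ?_)⟩
    by_cases h0 : P199H.coc s d (a + d) * f d * g (a + d) = 0
    · rw [h0]; exact H.zero _
    · obtain ⟨e', he', h'⟩ := key d h0
      have : e' = e := add_right_cancel (he'.trans he.symm)
      rwa [this] at h'

lemma TwH.smul {d χ : Ix K →₀ ℕ} {r : R} {f : Tw K R s} (hr : H.Hm d r) (hf : H.TwH χ f) :
    H.TwH (d + χ) (r • f) := by
  intro a
  rw [Tw.smul_apply]
  rcases hf a with h1 | ⟨e, he, h1⟩
  · left; rw [h1, mul_zero]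
  · right; exact ⟨d + e, by rw [add_assoc, he], H.mul hr h1⟩

lemma TwH.algebraMap {d : Ix K →₀ ℕ} {r : R} (hr : H.Hm d r) :
    H.TwH d (algebraMap R (Tw K R s) r) := by
  rw [Tw.algebraMap_eq]
  have := TwH.smul hr (TwH.one (H := H))
  rwa [add_zero] at this

lemma TwH.tau {χ : Ix K →₀ ℕ} {f : Tw K R s} (hf : H.TwH χ f) : H.Hm χ (Tw.tau f) := by
  rcases hf 0 with h | ⟨d, hd, h⟩
  · rw [Tw.tau_apply, h]; exact H.zero _
  · rw [gval_zero, add_zero] at hd
    rw [Tw.tau_apply, ← hd]; exact h

end HomSys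

/-- The polynomial ring with weights as a `HomSys`. -/
noncomputable def polyHomSys {k J : Type*} [Field k] (w : J → (Ix K →₀ ℕ)) (js : Ix K → J)
    (hjs : ∀ i, w (js i) = Finsupp.single i 2) :
    HomSys (K := K) (fun i => (MvPolynomial.X (js i) : MvPolynomial J k)) where
  Hm d p := MvPolynomial.IsWeightedHomogeneous w p d
  zero d := MvPolynomial.isWeightedHomogeneous_zero k w d
  one := MvPolynomial.isWeightedHomogeneous_one k w
  add h1 h2 := (MvPolynomial.weightedHomogeneousSubmodule k w _).add_mem h1 h2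
  neg h := (MvPolynomial.weightedHomogeneousSubmodule k w _).neg_mem h
  mul h1 h2 := h1.mul h2
  s_hom i := by
    have := MvPolynomial.isWeightedHomogeneous_X k w (js i)
    rwa [hjs i] at this

end P199H
end
end

section

section

/-!
P199, Blueprint H: homogeneous ideals of polynomial rings with weights in `ι →₀ ℕ`:
stability, the homogeneous prime criterion.
-/

namespace P199H

open MvPolynomial

variable {k : Type} [Field k] {J ι : Type}

lemma whc_lex [LinearOrder ι] (w : J → ι →₀ ℕ) (n : ι →₀ ℕ)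
    (p : MvPolynomial J k) :
    weightedHomogeneousComponent (M := Lex (ι →₀ ℕ)) (fun j => toLex (w j)) (toLex n) p =
      weightedHomogeneousComponent w n p := by
  classical
  ext d
  rw [coeff_weightedHomogeneousComponent, coeff_weightedHomogeneousComponent]
  have h : Finsupp.weight (fun j => toLex (w j)) d = toLex (Finsupp.weight w d) := rfl
  rw [h]
  simp only [EmbeddingLike.apply_eq_iff_eq]

theorem prime_crit_poly [Finite ι] (w : J → ι →₀ ℕ) {I : Ideal (MvPolynomial J k)}
    (hI : ∀ p ∈ I, ∀ m, weightedHomogeneousComponent w m p ∈ I) (hne : I ≠ ⊤)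
    (hnp : ¬ I.IsPrime) :
    ∃ f g a b, IsWeightedHomogeneous w f a ∧ IsWeightedHomogeneous w g b ∧ f ∉ I ∧ g ∉ I ∧
      f * g ∈ I := by
  have := Fintype.ofFinite ι
  let _ : LinearOrder ι := LinearOrder.lift' (Fintype.equivFin ι) (Fintype.equivFin ι).injective
  let w' : J → Lex (ι →₀ ℕ) := fun j => toLex (w j)
  let _ : DecidableEq (Lex (ι →₀ ℕ)) := LinearOrder.toDecidableEq
  let _ : GradedAlgebra (weightedHomogeneousSubmodule k w') := weightedGradedAlgebra k w'
  by_contra hcon
  push Not at hcon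
  apply hnp
  refine Ideal.IsHomogeneous.isPrime_of_homogeneous_mem_or_mem
    (𝒜 := weightedHomogeneousSubmodule k w') ?_ hne ?_
  · intro i r hr
    have h1 : ((DirectSum.decompose (weightedHomogeneousSubmodule k w') r) i :
        MvPolynomial J k) = weightedHomogeneousComponent w' i r :=
      weightedDecomposition.decompose'_apply k w' r i
    rw [h1]
    have h2 := whc_lex w (ofLex i) r
    rw [toLex_ofLex] at h2
    rw [h2]
    exact hI r hr _
  · rintro x y ⟨a, hx⟩ ⟨b, hy⟩ hxy
    by_contra hno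
    push Not at hno
    exact hcon x y (ofLex a) (ofLex b) hx hy hno.1 hno.2 hxy

lemma whc_sum (w : J → ι →₀ ℕ) (p : MvPolynomial J k) :
    ∃ s : Finset (ι →₀ ℕ), ∑ b ∈ s, weightedHomogeneousComponent w b p = p ∧
      ∀ m, m ∉ s → weightedHomogeneousComponent w m p = 0 := by
  have hfin : {m | weightedHomogeneousComponent w m p ≠ 0}.Finite :=
    weightedHomogeneousComponent_finsupp p
  refine ⟨hfin.toFinset, ?_, ?_⟩
  · conv_rhs => rw [← sum_weightedHomogeneousComponent w p]
    symm
    refine finsum_eq_sum_of_support_subset _ ?_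
    intro x hx
    rw [Finset.mem_coe, Set.Finite.mem_toFinset]
    exact hx
  · intro m hm
    by_contra h
    exact hm ((Set.Finite.mem_toFinset _).mpr h)

lemma whc_mul (w : J → ι →₀ ℕ) {f : MvPolynomial J k} {χ : ι →₀ ℕ}
    (hf : IsWeightedHomogeneous w f χ) (p : MvPolynomial J k) (m : ι →₀ ℕ) :
    weightedHomogeneousComponent w (m + χ) (p * f) = weightedHomogeneousComponent w m p * f := by
  classical
  obtain ⟨s, hs, hs0⟩ := whc_sum w p
  conv_lhs => rw [← hs]
  rw [Finset.sum_mul, map_sum]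
  rw [Finset.sum_eq_single m]
  · have h1 : IsWeightedHomogeneous w (weightedHomogeneousComponent w m p * f) (m + χ) :=
      (weightedHomogeneousComponent_isWeightedHomogeneous m p).mul hf
    exact h1.weightedHomogeneousComponent_same
  · intro b _ hb
    have h1 : IsWeightedHomogeneous w (weightedHomogeneousComponent w b p * f) (b + χ) :=
      (weightedHomogeneousComponent_isWeightedHomogeneous b p).mul hf
    exact h1.weightedHomogeneousComponent_ne _ (fun h => hb (add_right_cancel h).symm)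
  · intro h
    rw [hs0 m h, zero_mul, map_zero]

lemma whc_mul_of_not_le (w : J → ι →₀ ℕ) {f : MvPolynomial J k} {χ : ι →₀ ℕ}
    (hf : IsWeightedHomogeneous w f χ) (p : MvPolynomial J k) (m : ι →₀ ℕ) (hm : ¬ χ ≤ m) :
    weightedHomogeneousComponent w m (p * f) = 0 := by
  classical
  obtain ⟨s, hs, hs0⟩ := whc_sum w p
  conv_lhs => rw [← hs]
  rw [Finset.sum_mul, map_sum]
  refine Finset.sum_eq_zero fun b _ => ?_
  have h1 : IsWeightedHomogeneous w (weightedHomogeneousComponent w b p * f) (b + χ) :=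
    (weightedHomogeneousComponent_isWeightedHomogeneous b p).mul hf
  refine h1.weightedHomogeneousComponent_ne _ (fun h => hm ?_)
  rw [h]; exact le_add_self

lemma pc_sup (w : J → ι →₀ ℕ) {I : Ideal (MvPolynomial J k)}
    (hI : ∀ p ∈ I, ∀ m, weightedHomogeneousComponent w m p ∈ I)
    {f : MvPolynomial J k} {χ : ι →₀ ℕ} (hf : IsWeightedHomogeneous w f χ) :
    ∀ p ∈ I ⊔ Ideal.span {f}, ∀ m, weightedHomogeneousComponent w m p ∈ I ⊔ Ideal.span {f} := by
  classical
  intro p hp m
  obtain ⟨a, ha, b, hb, rfl⟩ := Submodule.mem_sup.mp hp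
  rw [map_add]
  refine Ideal.add_mem _ ((le_sup_left : I ≤ _) (hI a ha m)) ?_
  obtain ⟨c, rfl⟩ := Ideal.mem_span_singleton'.mp hb
  by_cases hm : χ ≤ m
  · obtain ⟨m', rfl⟩ : ∃ m', m = m' + χ := ⟨m - χ, (tsub_add_cancel_of_le hm).symm⟩
    rw [whc_mul w hf]
    exact (le_sup_right : Ideal.span {f} ≤ _)
      (Ideal.mul_mem_left _ _ (Ideal.mem_span_singleton_self f))
  · rw [whc_mul_of_not_le w hf _ _ hm]
    exact Ideal.zero_mem _

lemma pc_colon (w : J → ι →₀ ℕ) {I : Ideal (MvPolynomial J k)}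
    (hI : ∀ p ∈ I, ∀ m, weightedHomogeneousComponent w m p ∈ I)
    {f : MvPolynomial J k} {χ : ι →₀ ℕ} (hf : IsWeightedHomogeneous w f χ) :
    ∀ p ∈ Submodule.colon I {f}, ∀ m,
      weightedHomogeneousComponent w m p ∈ Submodule.colon I {f} := by
  classical
  intro p hp m
  rw [Submodule.mem_colon_singleton, smul_eq_mul] at hp ⊢
  rw [← whc_mul w hf]
  exact hI _ hp _

end P199H
end
end

section

section

/-!
Transcendence degree of quotients of polynomial rings (problem P199): the degree drops along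
strict inclusions of primes, and it is subadditive.
-/

namespace P199H

open Cardinal

/-- lifting an algebraically independent family along a homomorphism with a nonzero kernel
element gives one more independent element. -/
theorem algInd_option {k A B : Type} [Field k] [CommRing A] [IsDomain A] [CommRing B]
    [Algebra k A] [Algebra k B] (π : A →ₐ[k] B) {ι : Type} (a : ι → A)
    (hb : AlgebraicIndependent k (fun i => π (a i))) (f : A) (hf : f ≠ 0) (hπ : π f = 0) :
    AlgebraicIndependent k (fun o : Option ι => o.elim f a) := by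
  have ha : AlgebraicIndependent k a := AlgebraicIndependent.of_comp π hb
  refine (ha.option_iff_transcendental f).mpr ?_
  intro halg
  obtain ⟨q, hq0, hq⟩ := halg.exists_nonzero_coeff_and_aeval_eq_zero
    (mem_nonZeroDivisors_of_ne_zero hf)
  apply hq0
  -- the constant coefficient maps to zero
  have h1 : π (algebraMap (Algebra.adjoin k (Set.range a)) A (q.coeff 0)) = 0 := by
    have h2 : Polynomial.aeval f q
        = algebraMap (Algebra.adjoin k (Set.range a)) A (q.coeff 0)
          + f * Polynomial.aeval f q.divX := by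
      conv_lhs => rw [← Polynomial.divX_mul_X_add q]
      rw [map_add, map_mul, Polynomial.aeval_X, Polynomial.aeval_C]
      ring
    have h3 := congrArg π h2
    rw [hq] at h3
    rw [map_add, map_mul, hπ, zero_mul, add_zero, map_zero] at h3
    exact h3.symm
  obtain ⟨p, hp⟩ := ha.aevalEquiv.surjective (q.coeff 0)
  rw [← hp, AlgebraicIndependent.algebraMap_aevalEquiv] at h1
  have h4 : MvPolynomial.aeval (fun i => π (a i)) p = 0 := by
    rw [← h1]
    have h6 := MvPolynomial.comp_aeval_apply (f := a) π p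
    exact h6.symm
  have h5 : p = 0 := hb (by rw [h4, map_zero])
  rw [← hp, h5, map_zero]

/-- the transcendence degree of a quotient of a polynomial ring, as a natural number. -/
noncomputable def td {J : Type} (P : Ideal (MvPolynomial J ℚ)) : ℕ :=
  Cardinal.toNat (Algebra.trdeg ℚ (MvPolynomial J ℚ ⧸ P))

theorem trdeg_lt_aleph0 {J : Type} [Finite J] (P : Ideal (MvPolynomial J ℚ)) :
    Algebra.trdeg ℚ (MvPolynomial J ℚ ⧸ P) < ℵ₀ := by
  exact trdeg_lt_aleph0_of_finiteType

theorem le_td {J : Type} [Finite J] (P : Ideal (MvPolynomial J ℚ)) {ι : Type} [Fintype ι]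
    (b : ι → MvPolynomial J ℚ ⧸ P) (hb : AlgebraicIndependent ℚ b) :
    Fintype.card ι ≤ td P := by
  have h := hb.cardinalMk_le_trdeg
  have h2 := Cardinal.toNat_le_toNat h (trdeg_lt_aleph0 P)
  simpa [td] using h2

theorem exists_td {J : Type} [Finite J] (P : Ideal (MvPolynomial J ℚ)) [hP : P.IsPrime] :
    ∃ b : Fin (td P) → MvPolynomial J ℚ ⧸ P, AlgebraicIndependent ℚ b ∧
      IsTranscendenceBasis ℚ b := by
  have : FaithfulSMul ℚ (MvPolynomial J ℚ ⧸ P) := inferInstance
  obtain ⟨ι, x, hx⟩ := exists_isTranscendenceBasis' (R := ℚ) (A := MvPolynomial J ℚ ⧸ P)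
  have h1 := hx.cardinalMk_eq_trdeg
  have h2 : Cardinal.mk ι < ℵ₀ := by rw [h1]; exact trdeg_lt_aleph0 P
  have : Finite ι := Cardinal.mk_lt_aleph0_iff.mp h2
  have : Fintype ι := Fintype.ofFinite ι
  have h3 : Fintype.card ι = td P := by
    rw [td, ← h1]; simp
  let e : Fin (td P) ≃ ι := (Fintype.equivFinOfCardEq h3).symm
  have hx' : IsTranscendenceBasis ℚ (fun i => x (e i)) := hx.comp_equiv e
  exact ⟨fun i => x (e i), hx'.1, hx'⟩

theorem td_lt {J : Type} [Finite J] (P Q : Ideal (MvPolynomial J ℚ)) [hP : P.IsPrime]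
    [hQ : Q.IsPrime] (h : P < Q) : td Q + 1 ≤ td P := by
  obtain ⟨hle, hne⟩ := lt_iff_le_and_ne.mp h
  obtain ⟨g, hgQ, hgP⟩ := SetLike.exists_of_lt h
  obtain ⟨b, hb, -⟩ := exists_td Q
  let π : (MvPolynomial J ℚ ⧸ P) →ₐ[ℚ] (MvPolynomial J ℚ ⧸ Q) := Ideal.Quotient.factorₐ ℚ hle
  have hsurj : Function.Surjective π := Ideal.Quotient.factor_surjective hle
  choose a ha using fun i => hsurj (b i)
  have hb' : AlgebraicIndependent ℚ (fun i => π (a i)) := by
    simpa [ha] using hb
  have h1 := algInd_option π a hb' (Ideal.Quotient.mk P g)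
    (by rwa [Ne, Ideal.Quotient.eq_zero_iff_mem])
    (by
      change Ideal.Quotient.mk Q g = 0
      rwa [Ideal.Quotient.eq_zero_iff_mem])
  have h2 := le_td P _ h1
  simpa using h2

end P199H
end
end

section

section

/-!
Subadditivity of the transcendence degree, transport along surjections (problem P199).
-/

namespace P199H

open Cardinal

theorem isAlgebraic_of_subalgebra {k A : Type} [Field k] [CommRing A] [IsDomain A]
    [Algebra k A] (B : Subalgebra k A) {ι : Type} (x : ι → B) (s : Set A)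
    (hs : ∀ i, (x i : A) ∈ s) (b : B)
    (hb : IsAlgebraic (Algebra.adjoin k (Set.range x)) b) :
    IsAlgebraic (Algebra.adjoin k s) (b : A) := by
  have hmem : ∀ c : Algebra.adjoin k (Set.range x), ((c : B) : A) ∈ Algebra.adjoin k s := by
    rintro ⟨c, hc⟩
    have h1 : (B.val c) ∈ (Algebra.adjoin k (Set.range x)).map B.val := ⟨c, hc, rfl⟩
    rw [AlgHom.map_adjoin] at h1
    refine Algebra.adjoin_mono ?_ h1
    rintro _ ⟨_, ⟨i, rfl⟩, rfl⟩
    exact hs i
  let f : Algebra.adjoin k (Set.range x) →+* Algebra.adjoin k s :=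
    ((B.val.comp (Algebra.adjoin k (Set.range x)).val).toRingHom).codRestrict
      (Algebra.adjoin k s) hmem
  have hf : Function.Injective f := by
    intro c d hcd
    have := congrArg Subtype.val hcd
    exact Subtype.ext (Subtype.ext this)
  exact IsAlgebraic.ringHom_of_comp_eq (S := Algebra.adjoin k s) (B := A) f
    (B.val.toRingHom) (a := b) hb hf (by ext; rfl)

theorem trdeg_le_add {k A A1 A2 : Type} [Field k] [CommRing A] [IsDomain A] [CommRing A1]
    [CommRing A2] [Algebra k A] [Algebra k A1] [Algebra k A2]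
    (f1 : A1 →ₐ[k] A) (f2 : A2 →ₐ[k] A)
    (hgen : Algebra.adjoin k (Set.range f1 ∪ Set.range f2) = ⊤) :
    Algebra.trdeg k A ≤ Algebra.trdeg k A1 + Algebra.trdeg k A2 := by
  classical
  obtain ⟨ι1, x1, hx1⟩ := exists_isTranscendenceBasis' (R := k) (A := f1.range)
  obtain ⟨ι2, x2, hx2⟩ := exists_isTranscendenceBasis' (R := k) (A := f2.range)
  let s : Set A := (Set.range fun i => (x1 i : A)) ∪ (Set.range fun i => (x2 i : A))
  have alg1 := hx1.isAlgebraic
  have alg2 := hx2.isAlgebraic
  have hfull : ∀ a : A, IsAlgebraic (Algebra.adjoin k s) a := by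
    intro a
    have ha : a ∈ Algebra.adjoin k (Set.range f1 ∪ Set.range f2) := by rw [hgen]; trivial
    induction ha using Algebra.adjoin_induction with
    | mem z hz =>
      rcases hz with ⟨c, rfl⟩ | ⟨c, rfl⟩
      · exact isAlgebraic_of_subalgebra f1.range x1 s (fun i => Or.inl ⟨i, rfl⟩) ⟨f1 c, ⟨c, rfl⟩⟩
          (alg1.isAlgebraic _)
      · exact isAlgebraic_of_subalgebra f2.range x2 s (fun i => Or.inr ⟨i, rfl⟩) ⟨f2 c, ⟨c, rfl⟩⟩
          (alg2.isAlgebraic _)
    | algebraMap r =>
      have : algebraMap k A r = algebraMap (Algebra.adjoin k s) A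
        (algebraMap k (Algebra.adjoin k s) r) := rfl
      rw [this]
      exact isAlgebraic_algebraMap _
    | add x y _ _ hx hy => exact hx.add hy
    | mul x y _ _ hx hy => exact hx.mul hy
  have halg : Algebra.IsAlgebraic (Algebra.adjoin k s) A := ⟨hfull⟩
  have h1 : Algebra.trdeg k A ≤ #s := Algebra.IsAlgebraic.trdeg_le_cardinalMk k s
  have h2 : #s ≤ #ι1 + #ι2 := by
    refine (Cardinal.mk_union_le _ _).trans (add_le_add ?_ ?_)
    · exact Cardinal.mk_range_le
    · exact Cardinal.mk_range_le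
  have h3 : #ι1 ≤ Algebra.trdeg k A1 := by
    rw [hx1.cardinalMk_eq_trdeg]
    exact trdeg_le_of_surjective f1.rangeRestrict f1.rangeRestrict_surjective
  have h4 : #ι2 ≤ Algebra.trdeg k A2 := by
    rw [hx2.cardinalMk_eq_trdeg]
    exact trdeg_le_of_surjective f2.rangeRestrict f2.rangeRestrict_surjective
  exact h1.trans (h2.trans (add_le_add h3 h4))

/-- `td` in terms of any finite type algebra: an algebra homomorphism which is injective. -/
theorem td_eq_of_surjective {J J' : Type} [Finite J] [Finite J']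
    (f : MvPolynomial J ℚ →ₐ[ℚ] MvPolynomial J' ℚ) (hf : Function.Surjective f)
    (P' : Ideal (MvPolynomial J' ℚ)) : td (P'.comap f) = td P' := by
  unfold td
  congr 1
  let g : MvPolynomial J ℚ →ₐ[ℚ] (MvPolynomial J' ℚ ⧸ P') := (Ideal.Quotient.mkₐ ℚ P').comp f
  have hg : Function.Surjective g := (Ideal.Quotient.mkₐ_surjective ℚ P').comp hf
  have hk : RingHom.ker g = P'.comap f := by
    ext z
    rw [RingHom.mem_ker, Ideal.mem_comap]
    change Ideal.Quotient.mk P' (f z) = 0 ↔ _
    rw [Ideal.Quotient.eq_zero_iff_mem]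
  have e1 := Ideal.quotientKerAlgEquivOfSurjective hg
  have e2 : (MvPolynomial J ℚ ⧸ RingHom.ker g) ≃ₐ[ℚ] (MvPolynomial J ℚ ⧸ P'.comap f) :=
    Ideal.quotientEquivAlgOfEq ℚ hk
  exact (e2.symm.trans e1).trdeg_eq

theorem td_bot {J : Type} [Fintype J] :
    td (⊥ : Ideal (MvPolynomial J ℚ)) = Fintype.card J := by
  unfold td
  rw [(AlgEquiv.quotientBot ℚ (MvPolynomial J ℚ)).trdeg_eq, MvPolynomial.trdeg_of_isDomain]
  simp

theorem td_le_add {J1 J2 : Type} [Finite J1] [Finite J2] (P1 : Ideal (MvPolynomial J1 ℚ))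
    (P2 : Ideal (MvPolynomial J2 ℚ)) (Q : Ideal (MvPolynomial (J1 ⊕ J2) ℚ)) [hQ : Q.IsPrime]
    (h1 : P1.map (MvPolynomial.rename (R := ℚ) (Sum.inl : J1 → J1 ⊕ J2)) ≤ Q)
    (h2 : P2.map (MvPolynomial.rename (R := ℚ) (Sum.inr : J2 → J1 ⊕ J2)) ≤ Q) :
    td Q ≤ td P1 + td P2 := by
  let f1 : (MvPolynomial J1 ℚ ⧸ P1) →ₐ[ℚ] (MvPolynomial (J1 ⊕ J2) ℚ ⧸ Q) :=
    Ideal.Quotient.liftₐ P1 ((Ideal.Quotient.mkₐ ℚ Q).comp (MvPolynomial.rename Sum.inl)) (by
      intro a ha
      change Ideal.Quotient.mk Q _ = 0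
      rw [Ideal.Quotient.eq_zero_iff_mem]
      exact h1 (Ideal.mem_map_of_mem _ ha))
  let f2 : (MvPolynomial J2 ℚ ⧸ P2) →ₐ[ℚ] (MvPolynomial (J1 ⊕ J2) ℚ ⧸ Q) :=
    Ideal.Quotient.liftₐ P2 ((Ideal.Quotient.mkₐ ℚ Q).comp (MvPolynomial.rename Sum.inr)) (by
      intro a ha
      change Ideal.Quotient.mk Q _ = 0
      rw [Ideal.Quotient.eq_zero_iff_mem]
      exact h2 (Ideal.mem_map_of_mem _ ha))
  have hgen : Algebra.adjoin ℚ (Set.range f1 ∪ Set.range f2) = ⊤ := by
    rw [eq_top_iff]
    rintro z -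
    obtain ⟨p, rfl⟩ := Ideal.Quotient.mk_surjective z
    induction p using MvPolynomial.induction_on with
    | C a => exact Subalgebra.algebraMap_mem _ a
    | add p q hp hq => rw [map_add]; exact add_mem hp hq
    | mul_X p j hp =>
      rw [map_mul]
      refine mul_mem hp (Algebra.subset_adjoin ?_)
      rcases j with j | j
      · left
        refine ⟨Ideal.Quotient.mk P1 (MvPolynomial.X j), ?_⟩
        change Ideal.Quotient.mk Q (MvPolynomial.rename Sum.inl (MvPolynomial.X j)) = _
        rw [MvPolynomial.rename_X]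
      · right
        refine ⟨Ideal.Quotient.mk P2 (MvPolynomial.X j), ?_⟩
        change Ideal.Quotient.mk Q (MvPolynomial.rename Sum.inr (MvPolynomial.X j)) = _
        rw [MvPolynomial.rename_X]
  have h3 := trdeg_le_add f1 f2 hgen
  have h4 : Algebra.trdeg ℚ (MvPolynomial J1 ℚ ⧸ P1) + Algebra.trdeg ℚ (MvPolynomial J2 ℚ ⧸ P2)
      < ℵ₀ := Cardinal.add_lt_aleph0 (trdeg_lt_aleph0 P1) (trdeg_lt_aleph0 P2)
  have h5 := Cardinal.toNat_le_toNat h3 h4
  rwa [Cardinal.toNat_add (trdeg_lt_aleph0 P1) (trdeg_lt_aleph0 P2)] at h5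

/-- a family of independent elements in a field of fractions of the quotient. -/
theorem exists_algInd_fraction {J : Type} [Finite J] (P : Ideal (MvPolynomial J ℚ))
    [hP : P.IsPrime] (L : Type) [Field L] [CharZero L] [Algebra (MvPolynomial J ℚ ⧸ P) L]
    [IsFractionRing (MvPolynomial J ℚ ⧸ P) L] :
    ∃ b : Fin (td P) → L, AlgebraicIndependent ℚ b := by
  obtain ⟨b, hb, -⟩ := exists_td P
  have hinj : Function.Injective (algebraMap (MvPolynomial J ℚ ⧸ P) L) :=
    IsFractionRing.injective _ _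
  let f : (MvPolynomial J ℚ ⧸ P) →ₐ[ℚ] L :=
    RingHom.toRatAlgHom (algebraMap (MvPolynomial J ℚ ⧸ P) L)
  exact ⟨fun i => f (b i), hb.map' (f := f) hinj⟩

end P199H
end
end

section

section

set_option linter.all false

/-!
P199, Blueprint H: the system `polySys w hw : HSys (MvPolynomial J ℚ) ι` of homogeneous ideals of a
polynomial ring with weights `w`, K-polynomial `kp w hw`, codimension `card J - td P`.
-/

namespace P199H

open MvPolynomial

variable {J ι : Type} [Fintype J]

theorem td_le_card (P : Ideal (MvPolynomial J ℚ)) [hP : P.IsPrime] : td P ≤ Fintype.card J := by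
  rw [← td_bot (J := J)]
  by_cases h : P = ⊥
  · rw [h]
  · have h1 := td_lt ⊥ P (bot_lt_iff_ne_bot.mpr h)
    omega

theorem base_poly_phi [Finite ι] (w : J → Dg ι) (hw : ∀ j, w j ≠ 0)
    {P : Ideal (MvPolynomial J ℚ)} (hH : HomI w P) (hP : P.IsPrime) :
    (∃ f χ, IsWeightedHomogeneous w f χ ∧ χ ≠ 0 ∧ f ∉ P) ∨
      Polynomial.X ^ (Fintype.card J - td P) ∣ phi (kp w hw P) := by
  classical
  by_cases h : ∀ j, (X j : MvPolynomial J ℚ) ∈ P
  · right
    rw [kp_max w hw hH hP.ne_top h, map_prod]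
    have h1 : (Polynomial.X : Polynomial (MvPolynomial ι ℤ)) ^ (Fintype.card J) ∣
        ∏ j : J, phi (1 - monomial (w j) 1) := by
      rw [Fintype.card, ← Finset.prod_const]
      refine Finset.prod_dvd_prod_of_dvd _ _ fun j _ => ?_
      rw [Polynomial.X_dvd_iff]
      exact HSys.phi_one_sub_coeff_zero _
    exact (pow_dvd_pow _ (Nat.sub_le _ _)).trans h1
  · left
    push Not at h
    obtain ⟨j, hj⟩ := h
    exact ⟨X j, w j, isWeightedHomogeneous_X ℚ w j, hw j, hj⟩

/-- The system of homogeneous ideals of the weighted polynomial ring. -/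
noncomputable def polySys [Finite ι] (w : J → Dg ι) (hw : ∀ j, w j ≠ 0) :
    HSys (MvPolynomial J ℚ) ι where
  Hom f χ := IsWeightedHomogeneous w f χ
  HI I := HomI w I
  sup_HI hI hf := pc_sup w hI hf
  colon_HI hI hf := pc_colon w hI hf
  prime_crit hI hne hnp := prime_crit_poly w hI hne hnp
  K := kp w hw
  K_exact {I f χ} hI hf := kp_add w hw hf hI (I' := Submodule.colon I {f}) (fun p => by
    rw [Submodule.mem_colon_singleton, smul_eq_mul, mul_comm])
  K_top := kp_top w hw
  c P := Fintype.card J - td P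
  c_lt {P Q} _ _ hP hQ h := by
    have h1 := td_lt P Q h
    have h2 := td_le_card P
    omega
  base hH hP := base_poly_phi w hw hH hP

variable [Finite ι] (w : J → Dg ι) (hw : ∀ j, w j ≠ 0)

@[simp] lemma polySys_Hom (f : MvPolynomial J ℚ) (χ : ι →₀ ℕ) :
    (polySys w hw).Hom f χ ↔ IsWeightedHomogeneous w f χ := Iff.rfl

@[simp] lemma polySys_HI (I : Ideal (MvPolynomial J ℚ)) :
    (polySys w hw).HI I ↔ HomI w I := Iff.rfl

@[simp] lemma polySys_K (I : Ideal (MvPolynomial J ℚ)) :
    (polySys w hw).K I = kp w hw I := rfl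

@[simp] lemma polySys_c (P : Ideal (MvPolynomial J ℚ)) :
    (polySys w hw).c P = Fintype.card J - td P := rfl

lemma polySys_LC (P : Ideal (MvPolynomial J ℚ)) :
    (polySys w hw).LC P = (phi (kp w hw P)).coeff (Fintype.card J - td P) := rfl

lemma polySys_c_add_td (P : Ideal (MvPolynomial J ℚ)) [P.IsPrime] :
    (polySys w hw).c P + td P = Fintype.card J := by
  have h := td_le_card P
  rw [polySys_c]
  omega

instance isPrime_bot_poly : (⊥ : Ideal (MvPolynomial J ℚ)).IsPrime := Ideal.isPrime_bot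

lemma homI_spanX (T : Set J) :
    HomI w (Ideal.span ((X : J → MvPolynomial J ℚ) '' T)) := by
  classical
  intro p hp m
  rw [mem_ideal_span_X_image] at hp ⊢
  intro e he
  refine hp e ?_
  rw [mem_support_iff] at he ⊢
  rw [coeff_weightedHomogeneousComponent] at he
  split_ifs at he with h
  · exact he
  · exact absurd rfl he

lemma X_notMem_spanX {T : Set J} {j : J} (hj : j ∉ T) :
    (X j : MvPolynomial J ℚ) ∉ Ideal.span ((X : J → MvPolynomial J ℚ) '' T) := by
  classical
  rw [mem_ideal_span_X_image]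
  intro h
  obtain ⟨i, hi, h2⟩ := h (Finsupp.single j 1) (by
    rw [mem_support_iff, coeff_X, if_pos rfl]; exact one_ne_zero)
  rw [Finsupp.single_apply] at h2
  split_ifs at h2 with h3
  · exact hj (h3 ▸ hi)
  · exact h2 rfl

lemma isPrime_spanX (T : Set J) :
    (Ideal.span ((X : J → MvPolynomial J ℚ) '' T)).IsPrime := by
  classical
  let g : MvPolynomial J ℚ →ₐ[ℚ] MvPolynomial J ℚ := aeval fun j => if j ∈ T then 0 else X j
  have h1 : ∀ p : MvPolynomial J ℚ,
      p - g p ∈ Ideal.span ((X : J → MvPolynomial J ℚ) '' T) := by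
    intro p
    induction p using MvPolynomial.induction_on with
    | C a =>
      have : g (C a) = C a := by simp [g]
      rw [this, sub_self]; exact Ideal.zero_mem _
    | add p q hp hq =>
      have h2 := Ideal.add_mem _ hp hq
      have h3 : p + q - g (p + q) = p - g p + (q - g q) := by rw [map_add]; ring
      rw [h3]; exact h2
    | mul_X p j hp =>
      have h3 : p * X j - g (p * X j) = X j * (p - g p) + g p * (X j - g (X j)) := by
        rw [map_mul]; ring
      rw [h3]
      refine Ideal.add_mem _ (Ideal.mul_mem_left _ _ hp) (Ideal.mul_mem_left _ _ ?_)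
      have h4 : g (X j) = if j ∈ T then 0 else X j := by simp [g]
      rw [h4]
      split_ifs with hj
      · rw [sub_zero]; exact Ideal.subset_span ⟨j, hj, rfl⟩
      · rw [sub_self]; exact Ideal.zero_mem _
  have h2 : Ideal.span ((X : J → MvPolynomial J ℚ) '' T) = RingHom.ker g := by
    apply le_antisymm
    · rw [Ideal.span_le]
      rintro _ ⟨j, hj, rfl⟩
      have h4 : g (X j) = if j ∈ T then 0 else X j := by simp [g]
      rw [if_pos hj] at h4
      exact h4
    · intro p hp
      have h3 := h1 p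
      rw [RingHom.mem_ker] at hp
      rw [hp, sub_zero] at h3
      exact h3
  rw [h2]
  exact RingHom.ker_isPrime _

lemma spanX_insert (T : Set J) (j : J) :
    Ideal.span ((X : J → MvPolynomial J ℚ) '' (insert j T)) =
      Ideal.span ((X : J → MvPolynomial J ℚ) '' T) ⊔ Ideal.span {X j} := by
  rw [Set.image_insert_eq, Ideal.span_insert, sup_comm]

/-- The `K`-polynomial of the zero ideal is one. -/
lemma kp_bot : kp w hw (⊥ : Ideal (MvPolynomial J ℚ)) = 1 := by
  classical
  have key : ∀ T : Finset J, kp w hw (Ideal.span ((X : J → MvPolynomial J ℚ) '' (T : Set J))) =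
      (∏ j ∈ T, (1 - monomial (w j) 1)) * kp w hw (⊥ : Ideal (MvPolynomial J ℚ)) := by
    intro T
    induction T using Finset.induction_on with
    | empty => simp
    | insert a T ha ih =>
      rw [Finset.coe_insert, spanX_insert,
        kp_prime w hw (isWeightedHomogeneous_X ℚ w a) (homI_spanX w _) (isPrime_spanX _)
          (X_notMem_spanX (by simpa using ha)), ih, Finset.prod_insert ha]
      ring
  have h1 := key Finset.univ
  rw [kp_max w hw (homI_spanX w _) (isPrime_spanX _).ne_top (fun j =>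
    Ideal.subset_span ⟨j, by simp, rfl⟩)] at h1
  have h2 : (∏ j : J, (1 - monomial (w j) (1 : ℤ))) ≠ 0 := by
    rw [Finset.prod_ne_zero_iff]
    intro j _ h0
    have h3 := congrArg (coeff 0) h0
    rw [coeff_sub, coeff_zero_one, coeff_monomial, if_neg (hw j), coeff_zero] at h3
    norm_num at h3
  have h3 : (∏ j : J, (1 - monomial (w j) (1 : ℤ))) * 1 =
      (∏ j : J, (1 - monomial (w j) (1 : ℤ))) * kp w hw (⊥ : Ideal (MvPolynomial J ℚ)) := by
    rw [mul_one]; exact h1
  exact (mul_left_cancel₀ h2 h3).symm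

lemma polySys_LC_bot : (polySys w hw).LC (⊥ : Ideal (MvPolynomial J ℚ)) = 1 := by
  rw [polySys_LC, kp_bot, td_bot, Nat.sub_self, map_one, Polynomial.coeff_one_zero]

lemma polySys_c_bot : (polySys w hw).c (⊥ : Ideal (MvPolynomial J ℚ)) = 0 := by
  rw [polySys_c, td_bot, Nat.sub_self]

/-- The coefficient of a product of factors `1 - t^{χ_j}` in the lowest degree. -/
lemma phi_prod_coeff {α : Type} (s : Finset α) (χ : α → ι →₀ ℕ) :
    (phi (∏ j ∈ s, (1 - monomial (χ j) (1 : ℤ)))).coeff s.card = ∏ j ∈ s, dotTh (χ j) ∧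
      ∀ i < s.card, (phi (∏ j ∈ s, (1 - monomial (χ j) (1 : ℤ)))).coeff i = 0 := by
  classical
  induction s using Finset.induction_on with
  | empty => simp
  | insert a s ha ih =>
    have h1 : Polynomial.X ∣ phi (1 - monomial (χ a) (1 : ℤ)) := by
      rw [Polynomial.X_dvd_iff]; exact HSys.phi_one_sub_coeff_zero _
    obtain ⟨f, hf⟩ := h1
    have hf0 : f.coeff 0 = dotTh (χ a) := by
      have h2 := HSys.phi_one_sub_coeff_one (χ a)
      rw [hf, Polynomial.coeff_X_mul] at h2
      exact h2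
    have h3 : Polynomial.X ^ s.card ∣ phi (∏ j ∈ s, (1 - monomial (χ j) (1 : ℤ))) := by
      rw [Polynomial.X_pow_dvd_iff]; exact ih.2
    obtain ⟨g, hg⟩ := h3
    have hg0 : g.coeff 0 = ∏ j ∈ s, dotTh (χ j) := by
      have h2 := ih.1
      have h4 := Polynomial.coeff_X_pow_mul g s.card 0
      rw [zero_add] at h4
      rw [hg, h4] at h2
      exact h2
    have h5 : phi (∏ j ∈ insert a s, (1 - monomial (χ j) (1 : ℤ))) =
        Polynomial.X ^ (s.card + 1) * (f * g) := by
      rw [Finset.prod_insert ha, map_mul, hf, hg]; ring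
    rw [Finset.card_insert_of_notMem ha, h5, Finset.prod_insert ha]
    refine ⟨?_, ?_⟩
    · have h4 := Polynomial.coeff_X_pow_mul (f * g) (s.card + 1) 0
      rw [zero_add] at h4
      rw [h4, Polynomial.mul_coeff_zero, hf0, hg0]
    · intro i hi
      exact (Polynomial.X_pow_dvd_iff.mp (Dvd.intro _ rfl)) i hi

end P199H
end
end

section

section

/-!
# P199, blueprint H, L5: good primes give division algebras

Exported: `L5` (no zero divisors in `Tw K (S / P)`), `L5_frac` (no zero divisors in `Tw K L` for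
`L = Frac (S / P)`), `HSys.noZeroDivisors`, `regular_of_good`, `prime_of_regular`, the grading
`grTw` of `Tw K (MvPolynomial J k)` with `twH_iff`.
-/

set_option linter.all false

open MvPolynomial

namespace P199H

/-- a map sending homogeneous elements of degree `m` to homogeneous elements of degree `m + d` -/
theorem isDeg_of_hom {k : Type*} [Field k] {ι : Type} {M M' : Type*} [AddCommGroup M]
    [Module k M] [AddCommGroup M'] [Module k M'] {G : Gr k ι M} {G' : Gr k ι M'} {d : Dg ι}
    {f : M →ₗ[k] M'} (h : ∀ m x, G.π m x = x → G'.π (m + d) (f x) = f x) : IsDeg G G' d f := by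
  classical
  intro m x
  have h1 : ∀ b, G'.π (m + d) (f (G.π b x)) = if b = m then f (G.π b x) else 0 := by
    intro b
    have h2 := h b (G.π b x) (G.π_same b x)
    split_ifs with hb
    · rw [← hb, h2]
    · rw [← h2, G'.π_ne]
      intro h3
      exact hb (add_right_cancel h3).symm
  conv_rhs => rw [← G.sum_eq x, map_sum, map_sum]
  simp only [h1]
  rw [Finset.sum_ite_eq']
  split_ifs with hm
  · rfl
  · have : G.π m x = 0 := by
      by_contra h3
      exact hm (by simpa using h3)
    rw [this, map_zero]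

theorem grPi_pos {k : Type*} [Field k] {ι : Type} {M : Type*} [AddCommGroup M] [Module k M]
    {κ : Type*} [Finite κ] (σ : κ → Dg ι) (G : Gr k ι M) (m : Dg ι) (x : κ → M) (i : κ)
    (h : σ i ≤ m) : (grPi σ G).π m x i = G.π (m - σ i) (x i) := by
  simp [grPi, h]

theorem grPi_neg {k : Type*} [Field k] {ι : Type} {M : Type*} [AddCommGroup M] [Module k M]
    {κ : Type*} [Finite κ] (σ : κ → Dg ι) (G : Gr k ι M) (m : Dg ι) (x : κ → M) (i : κ)
    (h : ¬ σ i ≤ m) : (grPi σ G).π m x i = 0 := by
  simp [grPi, h]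

/-- prime subspaces of graded rings: it suffices that homogeneous elements outside are regular -/
theorem prime_of_regular {ι : Type} [Finite ι] {k A : Type} [Field k] [Ring A] [Module k A]
    (G : Gr k ι A) (U : Submodule k A) (hU : G.IsHom U) (hUl : ∀ a, ∀ x ∈ U, a * x ∈ U)
    (hUr : ∀ x ∈ U, ∀ a, x * a ∈ U)
    (hmul : ∀ m m' x y, G.π m x = x → G.π m' y = y → G.π (m + m') (x * y) = x * y)
    (hreg : ∀ m u, G.π m u = u → u ∉ U → ∀ v, v * u ∈ U → v ∈ U)
    (u v : A) (huv : u * v ∈ U) : u ∈ U ∨ v ∈ U := by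
  classical
  have := Fintype.ofFinite ι
  let _ : LinearOrder ι := LinearOrder.lift' (Fintype.equivFin ι) (Fintype.equivFin ι).injective
  by_contra hcon
  push Not at hcon
  obtain ⟨hu, hv⟩ := hcon
  have hmin : ∀ x : A, x ∉ U → ∃ a : Dg ι, G.π a x ∉ U ∧ ∀ b, G.π b x ∉ U →
      toLex a ≤ toLex b := by
    intro x hx
    have hne : ((G.fin x).toFinset.filter fun m => G.π m x ∉ U).Nonempty := by
      by_contra h
      rw [Finset.not_nonempty_iff_eq_empty, Finset.filter_eq_empty_iff] at h
      apply hx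
      rw [← G.sum_eq x]
      refine U.sum_mem fun m hm => ?_
      by_contra h2
      exact h hm h2
    obtain ⟨a, ha, hmin⟩ := Finset.exists_min_image _ (fun m : Dg ι => toLex m) hne
    refine ⟨a, (Finset.mem_filter.1 ha).2, fun b hb => hmin b ?_⟩
    rw [Finset.mem_filter]
    refine ⟨?_, hb⟩
    rw [Set.Finite.mem_toFinset]
    intro h
    apply hb
    rw [h]
    exact U.zero_mem
  obtain ⟨a, ha, ha'⟩ := hmin u hu
  obtain ⟨b, hb, hb'⟩ := hmin v hv
  apply ha
  refine hreg b (G.π b v) (G.π_same b v) hb _ ?_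
  have h1 := hU (a + b) _ huv
  have h2 : G.π (a + b) (u * v) = ∑ m ∈ (G.fin u).toFinset, ∑ m' ∈ (G.fin v).toFinset,
      (if m + m' = a + b then G.π m u * G.π m' v else 0) := by
    conv_lhs => rw [← G.sum_eq u, ← G.sum_eq v, Finset.sum_mul_sum, map_sum]
    refine Finset.sum_congr rfl fun m _ => ?_
    rw [map_sum]
    refine Finset.sum_congr rfl fun m' _ => ?_
    have h3 := hmul m m' _ _ (G.π_same m u) (G.π_same m' v)
    split_ifs with h
    · rw [← h, h3]
    · rw [← h3, G.π_ne]
      exact fun h4 => h h4.symm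
  rw [h2] at h1
  have haf : a ∈ (G.fin u).toFinset := by
    rw [Set.Finite.mem_toFinset]
    intro h
    apply ha
    rw [h]
    exact U.zero_mem
  have hbf : b ∈ (G.fin v).toFinset := by
    rw [Set.Finite.mem_toFinset]
    intro h
    apply hb
    rw [h]
    exact U.zero_mem
  -- all the other terms are in `U`
  have h4 : ∀ m m', m + m' = a + b → ¬ (m = a ∧ m' = b) → G.π m u * G.π m' v ∈ U := by
    intro m m' hmm hne
    by_cases h5 : G.π m u ∈ U
    · exact hUr _ h5 _
    by_cases h6 : G.π m' v ∈ U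
    · exact hUl _ _ h6
    exfalso
    have h7 := ha' m h5
    have h8 := hb' m' h6
    have h9 : toLex m + toLex m' = toLex a + toLex b := by
      rw [← toLex_add, ← toLex_add, hmm]
    apply hne
    have h10 := (add_eq_add_iff_eq_and_eq h7 h8).1 h9.symm
    exact ⟨(toLex.injective h10.1).symm, (toLex.injective h10.2).symm⟩
  have h5 : (∑ m ∈ (G.fin u).toFinset, ∑ m' ∈ (G.fin v).toFinset,
      (if m + m' = a + b then G.π m u * G.π m' v else 0)) - G.π a u * G.π b v ∈ U := by
    rw [← Finset.sum_product']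
    rw [← Finset.sum_erase_add _ _ (Finset.mem_product.2 ⟨haf, hbf⟩ :
      (a, b) ∈ (G.fin u).toFinset ×ˢ (G.fin v).toFinset)]
    simp only [if_true]
    rw [add_sub_cancel_right]
    refine U.sum_mem fun x hx => ?_
    rw [Finset.mem_erase] at hx
    split_ifs with h
    · exact h4 _ _ h (fun h6 => hx.1 (Prod.ext h6.1 h6.2))
    · exact U.zero_mem
  have h6 := U.sub_mem h1 h5
  rwa [sub_sub_cancel] at h6

section tw

variable {K : ℕ} {k : Type} [Field k] {J : Type} [Fintype J] {w : J → Dg (Ix K)}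
  {js : Ix K → J}

/-- the elements `s i` -/
noncomputable abbrev sX (k : Type) [Field k] {J : Type} {K : ℕ} (js : Ix K → J) :
    Ix K → MvPolynomial J k := fun i => X (js i)

/-- the twisted algebra over the polynomial ring -/
abbrev TP (k : Type) [Field k] {J : Type} {K : ℕ} (js : Ix K → J) : Type :=
  Tw K (MvPolynomial J k) (sX k js)

noncomputable local instance : Module k (TP k js) := inferInstanceAs (Module k (Gam K → MvPolynomial J k))
local instance : IsScalarTower k (MvPolynomial J k) (TP k js) :=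
  inferInstanceAs (IsScalarTower k (MvPolynomial J k) (Gam K → MvPolynomial J k))
local instance : IsNoetherian (MvPolynomial J k) (TP k js) :=
  inferInstanceAs (IsNoetherian (MvPolynomial J k) (Gam K → MvPolynomial J k))

/-- the grading of the twisted algebra -/
noncomputable def grTw (k : Type) [Field k] {J : Type} [Fintype J] {K : ℕ} (w : J → Dg (Ix K))
    (hw : ∀ j, w j ≠ 0) (js : Ix K → J) : Gr k (Ix K) (TP k js) :=
  (grPi gval (grPoly k w hw) : Gr k (Ix K) (Gam K → MvPolynomial J k))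

theorem grTw_apply (hw : ∀ j, w j ≠ 0) (m : Dg (Ix K)) (f : TP k js) (g : Gam K) :
    (grTw k w hw js).π m f g =
      if gval g ≤ m then weightedHomogeneousComponent w (m - gval g) (f g) else 0 := by
  classical
  split_ifs with h
  · exact grPi_pos gval (grPoly k w hw) m f g h
  · exact grPi_neg gval (grPoly k w hw) m f g h

theorem twH_iff (hw : ∀ j, w j ≠ 0) (hjs : ∀ i, w (js i) = Finsupp.single i 2) (m : Dg (Ix K))
    (f : TP k js) :
    (polyHomSys w js hjs).TwH m f ↔ (grTw k w hw js).π m f = f := by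
  constructor
  · intro h
    ext1 g
    rw [grTw_apply]
    rcases h g with h0 | ⟨d, hd, h1⟩
    · rw [h0]; simp
    · rw [if_pos (by rw [← hd]; exact le_add_self)]
      have : m - gval g = d := by rw [← hd, add_tsub_cancel_right]
      rw [this]
      exact IsWeightedHomogeneous.weightedHomogeneousComponent_same h1
  · intro h g
    have h1 := congrArg (fun f : TP k js => f g) h
    simp only [grTw_apply] at h1
    split_ifs at h1 with h2
    · right
      refine ⟨m - gval g, tsub_add_cancel_of_le h2, ?_⟩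
      change IsWeightedHomogeneous w (f g) (m - gval g)
      rw [← h1]
      exact weightedHomogeneousComponent_isWeightedHomogeneous _ _
    · left; exact h1.symm

theorem gval_single (i : Ix K) : gval (Pi.single i 1 : Gam K) = Finsupp.single i 1 := by
  ext j
  rw [gval_apply]
  by_cases h : j = i
  · subst h; simp; rfl
  · rw [Pi.single_eq_of_ne h, Finsupp.single_eq_of_ne (by first | exact h | exact Ne.symm h)]
    rfl

theorem coc_single {R : Type*} [CommRing R] (s : Ix K → R) (i : Ix K) :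
    coc s (Pi.single i 1) (Pi.single i 1) = s i := by
  have h1 : sgn0 R (Pi.single i 1 : Gam K) (Pi.single i 1) = 1 := by
    unfold sgn0
    refine Finset.prod_eq_one fun l _ => ?_
    unfold sgp
    rw [if_neg]
    rintro ⟨h2, h3⟩
    have h4 : Sum.inr l = i := by
      by_contra h
      rw [Pi.single_eq_of_ne h] at h2
      exact absurd h2 (by decide)
    have h5 : Sum.inl l = i := by
      by_contra h
      rw [Pi.single_eq_of_ne h] at h3
      exact absurd h3 (by decide)
    rw [← h4] at h5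
    exact absurd h5 (by simp)
  have h2 : sqq s (Pi.single i 1) (Pi.single i 1) = s i := by
    unfold sqq
    rw [Finset.prod_eq_single i]
    · simp [sqp]
    · intro j _ hj
      rw [Pi.single_eq_of_ne hj]; simp
    · intro h; exact absurd (Finset.mem_univ _) h
  rw [coc, h1, h2, one_mul]

theorem isDeg_mulLeft (hw : ∀ j, w j ≠ 0) (hjs : ∀ i, w (js i) = Finsupp.single i 2)
    {u : TP k js} {d : Dg (Ix K)} (hu : (polyHomSys w js hjs).TwH d u) :
    IsDeg (grTw k w hw js) (grTw k w hw js) d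
      ((LinearMap.mulLeft (MvPolynomial J k) u).restrictScalars k) := by
  apply isDeg_of_hom
  intro m x hx
  rw [← twH_iff hw hjs] at hx ⊢
  rw [add_comm m d]
  exact hu.mul hx

theorem isDeg_smulX (hw : ∀ j, w j ≠ 0) (hjs : ∀ i, w (js i) = Finsupp.single i 2) (j : J) :
    IsDeg (grTw k w hw js) (grTw k w hw js) (w j)
      (((X j : MvPolynomial J k) • (LinearMap.id : TP k js →ₗ[MvPolynomial J k] TP k js)
        ).restrictScalars k) := by
  apply isDeg_of_hom
  intro m x hx
  rw [← twH_iff hw hjs] at hx ⊢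
  rw [add_comm m (w j)]
  exact HomSys.TwH.smul (H := polyHomSys w js hjs) (isWeightedHomogeneous_X k w j) hx

theorem isDeg_act (hw : ∀ j, w j ≠ 0) (hjs : ∀ i, w (js i) = Finsupp.single i 2)
    {u : TP k js} {d : Dg (Ix K)} (hu : (polyHomSys w js hjs).TwH d u) :
    IsDeg (grPoly k w hw) (grTw k w hw js) d (actMap k u) := by
  apply isDeg_of_hom
  intro m a ha
  rw [← twH_iff hw hjs, actMap_apply]
  refine HomSys.TwH.smul (H := polyHomSys w js hjs) ?_ hu
  change IsWeightedHomogeneous w a m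
  rw [← ha]
  exact weightedHomogeneousComponent_isWeightedHomogeneous _ _

/-- the elements with coefficients in `P` -/
noncomputable def twP (P : Ideal (MvPolynomial J k)) : Submodule (MvPolynomial J k) (TP k js) where
  carrier := {f | ∀ g, f g ∈ P}
  add_mem' := fun {a b} ha hb g => P.add_mem (ha g) (hb g)
  zero_mem' := fun g => P.zero_mem
  smul_mem' := fun c f hf g => P.mul_mem_left c (hf g)

theorem mem_twP {P : Ideal (MvPolynomial J k)} {f : TP k js} : f ∈ twP P ↔ ∀ g, f g ∈ P := Iff.rfl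

theorem twP_mul_left {P : Ideal (MvPolynomial J k)} (u : TP k js) {f : TP k js}
    (hf : f ∈ twP P) : u * f ∈ twP P := by
  intro a
  rw [Tw.mul_apply]
  exact P.sum_mem fun g _ => P.mul_mem_left _ (hf _)

theorem twP_mul_right {P : Ideal (MvPolynomial J k)} (u : TP k js) {f : TP k js}
    (hf : f ∈ twP P) : f * u ∈ twP P := by
  intro a
  rw [Tw.mul_apply]
  exact P.sum_mem fun g _ => P.mul_mem_right _ (P.mul_mem_left _ (hf _))

theorem twP_isHom (hw : ∀ j, w j ≠ 0) {P : Ideal (MvPolynomial J k)} (hP : HomI w P) :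
    (grTw k w hw js).IsHom ((twP P : Submodule (MvPolynomial J k) (TP k js)).restrictScalars k) := by
  intro m f hf g
  rw [grTw_apply]
  split_ifs
  · exact hP _ (hf g) _
  · exact P.zero_mem

/-- the left ideal generated by `u` plus `twP P` -/
noncomputable def twV (P : Ideal (MvPolynomial J k)) (u : TP k js) : Submodule (MvPolynomial J k) (TP k js) :=
  twP P ⊔ Submodule.span (MvPolynomial J k)
    ((fun g : Gam K => (Tw.X g * u : TP k js)) '' ((Finset.univ : Finset (Gam K)) : Set (Gam K)))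

theorem twV_mul_X (P : Ideal (MvPolynomial J k)) (u : TP k js) (g : Gam K) {x : TP k js}
    (hx : x ∈ twV P u) : Tw.X g * x ∈ twV P u := by
  have h : (twV P u).map (LinearMap.mulLeft (MvPolynomial J k) (Tw.X g : TP k js)) ≤ twV P u := by
    unfold twV
    rw [Submodule.map_sup, sup_le_iff]
    constructor
    · rintro _ ⟨y, hy, rfl⟩
      exact (le_sup_left : twP P ≤ _) (twP_mul_left _ hy)
    · rw [Submodule.map_span, Submodule.span_le]
      rintro _ ⟨_, ⟨h, _, rfl⟩, rfl⟩
      refine (le_sup_right : _ ≤ twP P ⊔ _) ?_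
      change Tw.X g * (Tw.X h * u) ∈ _
      rw [← mul_assoc, Tw.X_mul_X, smul_mul_assoc]
      exact Submodule.smul_mem _ _ (Submodule.subset_span ⟨g + h, Finset.mem_coe.2
        (Finset.mem_univ _), rfl⟩)
  exact h ⟨x, hx, rfl⟩

/-- the operators: multiplication by the variables not in the range of `js`, and by the
generators -/
noncomputable def opY (k : Type) [Field k] {J : Type} (js : Ix K → J) :
    {j : J // j ∉ Set.range js} ⊕ Ix K → (TP k js →ₗ[MvPolynomial J k] TP k js) :=
  Sum.elim (fun j => (X j.1 : MvPolynomial J k) •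
      (LinearMap.id : TP k js →ₗ[MvPolynomial J k] TP k js))
    (fun i => LinearMap.mulLeft (MvPolynomial J k) (Tw.X (Pi.single i 1) : TP k js))

/-- their degrees -/
noncomputable def opD (w : J → Dg (Ix K)) (js : Ix K → J) :
    {j : J // j ∉ Set.range js} ⊕ Ix K → Dg (Ix K) :=
  Sum.elim (fun j => w j.1) (fun i => Finsupp.single i 1)

theorem opY_inl (j : {j : J // j ∉ Set.range js}) (x : TP k js) :
    opY k js (Sum.inl j) x = (X j.1 : MvPolynomial J k) • x := rfl

theorem opY_inr (i : Ix K) (x : TP k js) :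
    opY k js (Sum.inr i) x = Tw.X (Pi.single i 1) * x := rfl

theorem opY_deg (hw : ∀ j, w j ≠ 0) (hjs : ∀ i, w (js i) = Finsupp.single i 2)
    (l : {j : J // j ∉ Set.range js} ⊕ Ix K) :
    IsDeg (grTw k w hw js) (grTw k w hw js) (opD w js l) ((opY k js l).restrictScalars k) := by
  rcases l with j | i
  · exact isDeg_smulX hw hjs j.1
  · have h := HomSys.TwH.X (H := polyHomSys (k := k) w js hjs) (Pi.single i 1 : Gam K)
    rw [gval_single] at h
    exact isDeg_mulLeft hw hjs h

theorem opY_comm (l l' : {j : J // j ∉ Set.range js} ⊕ Ix K) :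
    ∃ c : k, ∀ x, opY k js l (opY k js l' x) = c • opY k js l' (opY k js l x) := by
  rcases l with j | i <;> rcases l' with j' | i'
  · refine ⟨1, fun x => ?_⟩
    rw [one_smul, opY_inl, opY_inl, opY_inl, opY_inl, smul_comm]
  · refine ⟨1, fun x => ?_⟩
    rw [one_smul, opY_inl, opY_inr, opY_inr, opY_inl, mul_smul_comm]
  · refine ⟨1, fun x => ?_⟩
    rw [one_smul, opY_inl, opY_inr, opY_inr, opY_inl, mul_smul_comm]
  · refine ⟨sg k (Pi.single i 1) (Pi.single i' 1), fun x => ?_⟩
    rw [opY_inr, opY_inr, opY_inr, opY_inr, ← mul_assoc, Tw.X_mul_X_comm, smul_mul_assoc,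
      mul_assoc, ← Tw.map_sg (C : k →+* MvPolynomial J k), ← MvPolynomial.algebraMap_eq,
      algebraMap_smul]

theorem opY_X (j : J) : ∃ l, ∃ e : ℕ, ∀ x : TP k js, (X j : MvPolynomial J k) • x =
    ((opY k js l) ^ (e + 1)) x := by
  by_cases hj : j ∈ Set.range js
  · obtain ⟨i, rfl⟩ := hj
    refine ⟨Sum.inr i, 1, fun x => ?_⟩
    rw [pow_succ, pow_one, Module.End.mul_apply, opY_inr, opY_inr, ← mul_assoc, Tw.X_mul_X,
      coc_single, Gam.add_self, Tw.X_zero, smul_mul_assoc, one_mul]
  · refine ⟨Sum.inl ⟨j, hj⟩, 0, fun x => ?_⟩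
    rw [zero_add, pow_one, opY_inl]

theorem twV_hilbert (hw : ∀ j, w j ≠ 0) (hinj : Function.Injective js)
    (hjs : ∀ i, w (js i) = Finsupp.single i 2)
    {P : Ideal (MvPolynomial J k)} (hP : HomI w P) (u : TP k js)
    (hV : (grTw k w hw js).IsHom ((twV P u).restrictScalars k)) :
    ∃ q : MvPolynomial (Ix K) ℤ,
      ((q * ∏ i : Ix K, (1 + X i : MvPolynomial (Ix K) ℤ) : MvPolynomial (Ix K) ℤ) :
        MvPowerSeries (Ix K) ℤ) =
      ((grTw k w hw js).hs ((twV P u).restrictScalars k) -
        (grTw k w hw js).hs ((twP P : Submodule (MvPolynomial J k) (TP k js)).restrictScalars k)) *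
        ∏ j, (1 - tp (w j)) := by
  classical
  obtain ⟨q, hq⟩ := hilbert_serre (grTw k w hw js) (opY k js) (opD w js) (opY_deg hw hjs)
    opY_comm opY_X (twP P) (twV P u) le_sup_left (twP_isHom hw hP) hV
    (by
      rintro (j | i) x hx
      · exact Submodule.smul_mem _ _ hx
      · exact twP_mul_left _ hx)
    (by
      rintro (j | i) x hx
      · exact Submodule.smul_mem _ _ hx
      · exact twV_mul_X P u _ hx)
  refine ⟨q, ?_⟩
  have e1 : ((∏ i : Ix K, (1 + X i : MvPolynomial (Ix K) ℤ) : MvPolynomial (Ix K) ℤ) :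
      MvPowerSeries (Ix K) ℤ) = ∏ i : Ix K, (1 + tp (Finsupp.single i 1)) := by
    rw [← MvPolynomial.coeToMvPowerSeries.ringHom_apply, map_prod]
    refine Finset.prod_congr rfl fun i _ => ?_
    rw [map_add, map_one, MvPolynomial.coeToMvPowerSeries.ringHom_apply]
    congr 1
    exact coe_monomial_tp _
  have e2 : ∏ j, (1 - tp (w j)) = (∏ j : {j : J // j ∉ Set.range js}, (1 - tp (w j.1))) *
      ((∏ i : Ix K, (1 - tp (Finsupp.single i 1))) *
        ∏ i : Ix K, (1 + tp (Finsupp.single i 1))) := by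
    rw [← Fintype.prod_subtype_mul_prod_subtype (fun j => j ∈ Set.range js), mul_comm]
    congr 1
    rw [← Finset.prod_mul_distrib]
    have e3 : ∀ (inst : Fintype {j : J // j ∈ Set.range js}),
        ∏ j ∈ @Finset.univ {j : J // j ∈ Set.range js} inst, (1 - tp (w j.1)) =
        ∏ i : Ix K, (1 - tp (w (js i))) := by
      intro inst
      symm
      apply Fintype.prod_equiv (Equiv.ofInjective js hinj)
      intro i
      rfl
    refine (e3 _).trans ?_
    refine Finset.prod_congr rfl fun i _ => ?_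
    rw [hjs i]
    have : tp (Finsupp.single i 2 : Dg (Ix K)) =
        tp (Finsupp.single i 1) * tp (Finsupp.single i 1) := by
      rw [← tp_add, ← Finsupp.single_add]
    rw [this]
    ring
  rw [MvPolynomial.coe_mul, hq, e1, e2, Fintype.prod_sum_type]
  simp only [opD, Sum.elim_inl, Sum.elim_inr]
  ring

/-- For a good prime, a homogeneous element outside `twP P` is regular modulo `twP P`. -/
theorem regular_of_good (hw : ∀ j, w j ≠ 0) (hinj : Function.Injective js)
    (hjs : ∀ i, w (js i) = Finsupp.single i 2)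
    {P : Ideal (MvPolynomial J k)} (hPp : P.IsPrime) (hP : HomI w P) (c : ℕ)
    (hc : (Polynomial.X : Polynomial (MvPolynomial (Ix K) ℤ)) ^ c ∣ phi (kp w hw P))
    (hI : ∀ I : Ideal (MvPolynomial J k), HomI w I → P < I →
      (Polynomial.X : Polynomial (MvPolynomial (Ix K) ℤ)) ^ (c + 1) ∣ phi (kp w hw I))
    (hgood : ¬ (2 : MvPolynomial (Ix K) ℤ) ∣ (phi (kp w hw P)).coeff c)
    {u : TP k js} {χ : Dg (Ix K)} (hu : (polyHomSys w js hjs).TwH χ u) (huP : u ∉ twP P)
    (v : TP k js) (hv : v * u ∈ twP P) : v ∈ twP P := by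
  classical
  obtain ⟨hV, F, r, hF, hF1, hF2, hr, hr0, hrc⟩ := filt_induction w hw (G := grTw k w hw js)
    (fun g : Gam K => (Tw.X g * u : TP k js)) (fun g => gval g + χ)
    (fun g => isDeg_act hw hjs (HomSys.TwH.mul (HomSys.TwH.X g) hu))
    P (twP P) (twP_isHom hw hP)
    (fun a ha x g => P.mul_mem_right _ ha)
    (fun a x h => by
      by_cases ha : a ∈ P
      · exact Or.inl ha
      · exact Or.inr fun g => (hPp.mem_or_mem (h g)).resolve_left ha)
    c hc hI Finset.univ
  obtain ⟨q, hq⟩ := twV_hilbert hw hinj hjs hP u hV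
  have hFq : F = q * ∏ i : Ix K, (1 + X i : MvPolynomial (Ix K) ℤ) := by
    apply MvPolynomial.coe_injective (Ix K) ℤ
    rw [hq, hF]
    rfl
  rw [hFq] at hF1 hF2
  have h2 := two_pow_dvd_of_phi q _ c r hF1 hF2 hgood
  have hcard : Fintype.card (Ix K) = 2 * K := by
    simp [Ix, two_mul]
  rw [hcard] at h2
  have hcard2 : (Finset.univ : Finset (Gam K)).card = 2 ^ (2 * K) := by
    rw [Finset.card_univ, Tw.card_Gam]
  rw [hcard2] at hr hrc
  have hr1 : r ≠ 0 := by
    intro h
    have h3 := hr0 h 0 (Finset.mem_univ _)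
    simp only [Tw.X_zero, one_mul] at h3
    exact huP h3
  have hr2 : r = 2 ^ (2 * K) := le_antisymm hr (Nat.le_of_dvd (Nat.pos_of_ne_zero hr1) h2)
  intro g
  refine hrc hr2 (fun g => v g) ?_ g (Finset.mem_univ _)
  have h3 : ∑ i : Gam K, v i • (Tw.X i * u : TP k js) = v * u := by
    conv_rhs => rw [Tw.eq_sum v, Finset.sum_mul]
    refine Finset.sum_congr rfl fun i _ => ?_
    rw [smul_mul_assoc]
  rw [h3]
  exact hv

theorem twP_prime (hw : ∀ j, w j ≠ 0) (hinj : Function.Injective js)
    (hjs : ∀ i, w (js i) = Finsupp.single i 2)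
    {P : Ideal (MvPolynomial J k)} (hPp : P.IsPrime) (hP : HomI w P) (c : ℕ)
    (hc : (Polynomial.X : Polynomial (MvPolynomial (Ix K) ℤ)) ^ c ∣ phi (kp w hw P))
    (hI : ∀ I : Ideal (MvPolynomial J k), HomI w I → P < I →
      (Polynomial.X : Polynomial (MvPolynomial (Ix K) ℤ)) ^ (c + 1) ∣ phi (kp w hw I))
    (hgood : ¬ (2 : MvPolynomial (Ix K) ℤ) ∣ (phi (kp w hw P)).coeff c)
    (u v : TP k js) (huv : u * v ∈ twP P) : u ∈ twP P ∨ v ∈ twP P := by
  refine prime_of_regular (grTw k w hw js)
    ((twP P : Submodule (MvPolynomial J k) (TP k js)).restrictScalars k) (twP_isHom hw hP)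
    (fun a x hx => twP_mul_left a hx) (fun x hx a => twP_mul_right a hx) ?_ ?_ u v huv
  · intro m m' x y hx hy
    rw [← twH_iff hw hjs] at hx hy ⊢
    exact hx.mul hy
  · intro m u hu huP v hv
    rw [← twH_iff hw hjs] at hu
    exact regular_of_good hw hinj hjs hPp hP c hc hI hgood hu huP v hv

/-- **L5**, in terms of `kp`: no zero divisors over `S / P`. -/
theorem noZeroDivisors_quotient (hw : ∀ j, w j ≠ 0) (hinj : Function.Injective js)
    (hjs : ∀ i, w (js i) = Finsupp.single i 2)
    {P : Ideal (MvPolynomial J k)} (hPp : P.IsPrime) (hP : HomI w P) (c : ℕ)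
    (hc : (Polynomial.X : Polynomial (MvPolynomial (Ix K) ℤ)) ^ c ∣ phi (kp w hw P))
    (hI : ∀ I : Ideal (MvPolynomial J k), HomI w I → P < I →
      (Polynomial.X : Polynomial (MvPolynomial (Ix K) ℤ)) ^ (c + 1) ∣ phi (kp w hw I))
    (hgood : ¬ (2 : MvPolynomial (Ix K) ℤ) ∣ (phi (kp w hw P)).coeff c) :
    NoZeroDivisors (Tw K (MvPolynomial J k ⧸ P) (fun i => Ideal.Quotient.mk P (X (js i)))) := by
  refine ⟨fun {a b} hab => ?_⟩
  let φ := Tw.map (K := K) (s := sX k js) (s' := fun i => Ideal.Quotient.mk P (X (js i)))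
    (Ideal.Quotient.mk P) (fun i => rfl)
  have hφ : Function.Surjective φ := Tw.map_surjective _ _ Ideal.Quotient.mk_surjective
  obtain ⟨u, rfl⟩ := hφ a
  obtain ⟨v, rfl⟩ := hφ b
  have hker : ∀ x : TP k js, φ x = 0 ↔ x ∈ twP P := by
    intro x
    rw [Tw.map_eq_zero_iff', mem_twP]
    simp only [Ideal.Quotient.eq_zero_iff_mem]
  rw [← map_mul, hker] at hab
  rw [hker, hker]
  exact twP_prime hw hinj hjs hPp hP c hc hI hgood u v hab

/-- **L5** for an abstract system `HSys` whose `K`-polynomial is `kp`. -/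
theorem HSys.noZeroDivisors (H : HSys (MvPolynomial J k) (Ix K)) (hw : ∀ j, w j ≠ 0)
    (hHI : ∀ I, H.HI I ↔ HomI w I) (hK : ∀ I, HomI w I → H.K I = kp w hw I)
    (hinj : Function.Injective js) (hjs : ∀ i, w (js i) = Finsupp.single i 2)
    {P : Ideal (MvPolynomial J k)} (hPp : P.IsPrime) (hP : H.HI P)
    (hgood : ¬ (2 : MvPolynomial (Ix K) ℤ) ∣ H.LC P) :
    NoZeroDivisors (Tw K (MvPolynomial J k ⧸ P) (fun i => Ideal.Quotient.mk P (X (js i)))) := by
  have hP' := (hHI P).1 hP
  refine noZeroDivisors_quotient hw hinj hjs hPp hP' (H.c P) ?_ ?_ ?_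
  · rw [← hK P hP']
    exact H.X_pow_dvd_prime hPp hP
  · intro I hI hPI
    rw [← hK I hI]
    refine H.L2 I ((hHI I).2 hI) _ fun Q hQ hHQ hle => ?_
    exact H.c_lt hP hHQ hPp hQ (lt_of_lt_of_le hPI hle)
  · have : H.LC P = (phi (kp w hw P)).coeff (H.c P) := by
      rw [HSys.LC, hK P hP']
    rwa [← this]

end tw

/-- **L5**: if `P` is a homogeneous prime with odd leading coefficient then `Tw K (S / P)` has no
zero divisors. -/
theorem L5 {K : ℕ} {J : Type} [Fintype J] (w : J → Dg (Ix K)) (hw : ∀ j, w j ≠ 0)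
    {js : Ix K → J} (hinj : Function.Injective js) (hjs : ∀ i, w (js i) = Finsupp.single i 2)
    {P : Ideal (MvPolynomial J ℚ)} (hPp : P.IsPrime) (hP : HomI w P)
    (hgood : ¬ (2 : MvPolynomial (Ix K) ℤ) ∣ (polySys w hw).LC P) :
    NoZeroDivisors (Tw K (MvPolynomial J ℚ ⧸ P) (fun i => Ideal.Quotient.mk P (X (js i)))) :=
  HSys.noZeroDivisors (polySys w hw) hw (fun _ => Iff.rfl) (fun _ _ => rfl) hinj hjs hPp hP hgood

end P199H
end
end

section

section

set_option linter.all false

/-!
# P199, blueprint H: Hilbert series of sums of extended ideals and elimination of variables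
-/

open Finset

namespace P199H

universe u

section Count

variable {k : Type*} [Field k] {ι : Type} {J : Type u} [Finite J] (w : J → Dg ι) (hw : ∀ j, w j ≠ 0)

theorem whc_monomial (m : Dg ι) (e : J →₀ ℕ) (r : k) [Decidable (Finsupp.weight w e = m)] :
    MvPolynomial.weightedHomogeneousComponent w m (MvPolynomial.monomial e r) =
      if Finsupp.weight w e = m then MvPolynomial.monomial e r else 0 := by
  split_ifs with h
  · exact (MvPolynomial.isWeightedHomogeneous_monomial w e r h).weightedHomogeneousComponent_same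
  · exact (MvPolynomial.isWeightedHomogeneous_monomial w e r rfl).weightedHomogeneousComponent_ne
      m (fun h' => h h'.symm)

/-- If the monomials with exponents `a i` form a basis modulo the homogeneous subspace `V`, then
the coefficients of the Hilbert series of the quotient count them. -/
theorem coeff_hs_sub_eq_card {V : Submodule k (MvPolynomial J k)} (hV : (grPoly k w hw).IsHom V)
    {κ : Type*} (a : κ → (J →₀ ℕ))
    (hli : LinearIndependent k (V.mkQ ∘ fun i => MvPolynomial.monomial (a i) (1 : k)))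
    (hsp : ∀ x : MvPolynomial J k, x ∈ V ⊔ Submodule.span k
      (Set.range fun i => MvPolynomial.monomial (a i) (1 : k))) (m : Dg ι) :
    Finite {i : κ // Finsupp.weight w (a i) = m} ∧
    MvPowerSeries.coeff m ((grPoly k w hw).hs ⊤ - (grPoly k w hw).hs V) =
      (Nat.card {i : κ // Finsupp.weight w (a i) = m} : ℤ) := by
  classical
  have hinj : Function.Injective a := by
    intro i j hij
    apply hli.injective
    simp [hij]
  have hfin : Finite {i : κ // Finsupp.weight w (a i) = m} := by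
    have h1 := (finite_weight_eq w hw m).to_subtype
    exact Finite.of_injective (fun i : {i : κ // Finsupp.weight w (a i) = m} =>
      (⟨a i.1, i.2⟩ : {e : J →₀ ℕ | Finsupp.weight w e = m})) (by
        intro i j hij
        have := congrArg Subtype.val hij
        exact Subtype.ext (hinj this))
  refine ⟨hfin, ?_⟩
  have := Fintype.ofFinite {i : κ // Finsupp.weight w (a i) = m}
  let G := grPoly k w hw
  let f : {i : κ // Finsupp.weight w (a i) = m} → MvPolynomial J k :=
    fun i => MvPolynomial.monomial (a i.1) (1 : k)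
  have hf : LinearIndependent k (V.mkQ ∘ f) := hli.comp _ Subtype.val_injective
  have hf' : LinearIndependent k f := hf.of_comp
  have hdis := Submodule.range_ker_disjoint hf
  rw [Submodule.ker_mkQ] at hdis
  have e1 : (⊤ : Submodule k (MvPolynomial J k)).map (G.π m) =
      V.map (G.π m) ⊔ Submodule.span k (Set.range f) := by
    apply le_antisymm
    · rintro _ ⟨x, -, rfl⟩
      obtain ⟨v, hv, y, hy, rfl⟩ := Submodule.mem_sup.1 (hsp x)
      rw [map_add]
      refine Submodule.add_mem_sup ⟨v, hv, rfl⟩ ?_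
      have h2 : (Submodule.span k (Set.range fun i => MvPolynomial.monomial (a i) (1 : k))).map
          (G.π m) ≤ Submodule.span k (Set.range f) := by
        rw [Submodule.map_span, Submodule.span_le]
        rintro _ ⟨_, ⟨i, rfl⟩, rfl⟩
        change MvPolynomial.weightedHomogeneousComponent w m (MvPolynomial.monomial (a i) 1) ∈ _
        rw [whc_monomial]
        split_ifs with h
        · exact Submodule.subset_span ⟨⟨i, h⟩, rfl⟩
        · exact Submodule.zero_mem _
      exact h2 ⟨y, hy, rfl⟩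
    · rw [sup_le_iff]
      refine ⟨Submodule.map_mono le_top, ?_⟩
      rw [Submodule.span_le]
      rintro _ ⟨i, rfl⟩
      refine ⟨f i, trivial, ?_⟩
      change MvPolynomial.weightedHomogeneousComponent w m (MvPolynomial.monomial (a i.1) 1) = _
      rw [whc_monomial, if_pos i.2]
  have e2 : V.map (G.π m) ⊓ Submodule.span k (Set.range f) = ⊥ := by
    rw [eq_bot_iff]
    rintro x ⟨hx1, hx2⟩
    have hxV : x ∈ V := ((hV.mem_map m x).1 hx1).1
    exact (Submodule.disjoint_def.1 hdis) x hx2 hxV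
  have : FiniteDimensional k (Submodule.span k (Set.range f)) :=
    FiniteDimensional.span_of_finite k (Set.finite_range f)
  have h3 := Submodule.finrank_sup_add_finrank_inf_eq (V.map (G.π m))
    (Submodule.span k (Set.range f))
  rw [← e1, e2, finrank_bot, finrank_span_eq_card hf'] at h3
  rw [map_sub, Gr.coeff_hs, Gr.coeff_hs, Nat.card_eq_fintype_card]
  change ((Module.finrank k ((⊤ : Submodule k (MvPolynomial J k)).map (G.π m)) : ℕ) : ℤ) - _ = _
  change _ - ((Module.finrank k (V.map (G.π m)) : ℕ) : ℤ) = _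
  omega

/-- Monomials spanning modulo a subspace, linearly independent. -/
theorem exists_monomial_basis (V : Submodule k (MvPolynomial J k)) :
    ∃ (κ : Type u) (a : κ → (J →₀ ℕ)),
      LinearIndependent k (V.mkQ ∘ fun i => MvPolynomial.monomial (a i) (1 : k)) ∧
      ∀ x : MvPolynomial J k, x ∈ V ⊔ Submodule.span k
        (Set.range fun i => MvPolynomial.monomial (a i) (1 : k)) := by
  classical
  obtain ⟨κ, a, -, hsp, hli⟩ := exists_linearIndependent' k
    (V.mkQ ∘ fun e : J →₀ ℕ => MvPolynomial.monomial e (1 : k))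
  refine ⟨κ, a, hli, ?_⟩
  have h1 : (Submodule.span k (Set.range fun i => MvPolynomial.monomial (a i) (1 : k))).map V.mkQ =
      ⊤ := by
    rw [Submodule.map_span, ← Set.range_comp]
    have : (V.mkQ ∘ fun i => MvPolynomial.monomial (a i) (1 : k)) =
      (V.mkQ ∘ fun e : J →₀ ℕ => MvPolynomial.monomial e (1 : k)) ∘ a := rfl
    rw [show (⇑V.mkQ ∘ fun i => MvPolynomial.monomial (a i) (1 : k)) =
      (V.mkQ ∘ fun e : J →₀ ℕ => MvPolynomial.monomial e (1 : k)) ∘ a from rfl, hsp,
      Set.range_comp, ← Submodule.map_span]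
    have h2 : Submodule.span k (Set.range fun e : J →₀ ℕ => MvPolynomial.monomial e (1 : k)) =
        ⊤ := by
      have := (MvPolynomial.basisMonomials J k).span_eq
      simpa using this
    rw [h2, Submodule.map_top, Submodule.range_mkQ]
  intro x
  have h3 : V.mkQ x ∈ (Submodule.span k
      (Set.range fun i => MvPolynomial.monomial (a i) (1 : k))).map V.mkQ := by
    rw [h1]; trivial
  obtain ⟨y, hy, hxy⟩ := h3
  have h4 : x - y ∈ V := by
    rw [← Submodule.ker_mkQ V, LinearMap.mem_ker, map_sub, hxy, sub_self]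
  have := Submodule.add_mem_sup h4 hy
  simpa using this

end Count

section Prod

variable {k : Type*} [Field k] {ι : Type} {J1 J2 : Type}

/-- the exponent of the product of two monomials in disjoint sets of variables -/
noncomputable def sumExp (e1 : J1 →₀ ℕ) (e2 : J2 →₀ ℕ) : J1 ⊕ J2 →₀ ℕ :=
  Finsupp.mapDomain Sum.inl e1 + Finsupp.mapDomain Sum.inr e2

theorem weight_sumExp (w1 : J1 → Dg ι) (w2 : J2 → Dg ι) (e1 : J1 →₀ ℕ) (e2 : J2 →₀ ℕ) :
    Finsupp.weight (Sum.elim w1 w2) (sumExp e1 e2) =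
      Finsupp.weight w1 e1 + Finsupp.weight w2 e2 := by
  rw [sumExp, map_add]
  congr 1
  · rw [Finsupp.weight_apply, Finsupp.weight_apply,
      Finsupp.sum_mapDomain_index (by simp) (by intro b m n; rw [add_smul])]
    simp
  · rw [Finsupp.weight_apply, Finsupp.weight_apply,
      Finsupp.sum_mapDomain_index (by simp) (by intro b m n; rw [add_smul])]
    simp

theorem rename_mul_rename (e1 : J1 →₀ ℕ) (e2 : J2 →₀ ℕ) :
    MvPolynomial.rename (Sum.inl : J1 → J1 ⊕ J2) (MvPolynomial.monomial e1 (1 : k)) *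
      MvPolynomial.rename Sum.inr (MvPolynomial.monomial e2 (1 : k)) =
      MvPolynomial.monomial (sumExp e1 e2) 1 := by
  rw [MvPolynomial.rename_monomial, MvPolynomial.rename_monomial, MvPolynomial.monomial_mul,
    one_mul, sumExp]

/-- every exponent is of the form `sumExp` -/
theorem exists_sumExp (e : J1 ⊕ J2 →₀ ℕ) : ∃ e1 e2, e = sumExp e1 e2 := by
  classical
  refine ⟨e.comapDomain Sum.inl Sum.inl_injective.injOn,
    e.comapDomain Sum.inr Sum.inr_injective.injOn, ?_⟩
  ext j
  rw [sumExp, Finsupp.add_apply]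
  rcases j with j | j
  · rw [Finsupp.mapDomain_apply Sum.inl_injective, Finsupp.mapDomain_notin_range]
    · simp
    · simp
  · rw [Finsupp.mapDomain_apply Sum.inr_injective, Finsupp.mapDomain_notin_range]
    · simp
    · simp

/-- The sum of the extensions of two ideals. -/
noncomputable def sumI (P : Ideal (MvPolynomial J1 k)) (Q : Ideal (MvPolynomial J2 k)) :
    Ideal (MvPolynomial (J1 ⊕ J2) k) :=
  P.map (MvPolynomial.rename (Sum.inl : J1 → J1 ⊕ J2)) ⊔
    Q.map (MvPolynomial.rename (Sum.inr : J2 → J1 ⊕ J2))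

open TensorProduct in
/-- the map to the tensor product of the quotients -/
noncomputable def toTensor (P : Ideal (MvPolynomial J1 k)) (Q : Ideal (MvPolynomial J2 k)) :
    MvPolynomial (J1 ⊕ J2) k →ₐ[k] (MvPolynomial J1 k ⧸ P) ⊗[k] (MvPolynomial J2 k ⧸ Q) :=
  MvPolynomial.aeval (Sum.elim
    (fun j => (Ideal.Quotient.mk P (MvPolynomial.X j)) ⊗ₜ[k] (1 : MvPolynomial J2 k ⧸ Q))
    (fun j => (1 : MvPolynomial J1 k ⧸ P) ⊗ₜ[k] (Ideal.Quotient.mk Q (MvPolynomial.X j))))

open TensorProduct in
theorem toTensor_inl (P : Ideal (MvPolynomial J1 k)) (Q : Ideal (MvPolynomial J2 k))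
    (p : MvPolynomial J1 k) :
    toTensor P Q (MvPolynomial.rename Sum.inl p) = (Ideal.Quotient.mk P p) ⊗ₜ[k] 1 := by
  have : (toTensor P Q).comp (MvPolynomial.rename Sum.inl) =
      (Algebra.TensorProduct.includeLeft).comp (Ideal.Quotient.mkₐ k P) := by
    apply MvPolynomial.algHom_ext
    intro j
    simp [toTensor]
  exact DFunLike.congr_fun this p

open TensorProduct in
theorem toTensor_inr (P : Ideal (MvPolynomial J1 k)) (Q : Ideal (MvPolynomial J2 k))
    (q : MvPolynomial J2 k) :
    toTensor P Q (MvPolynomial.rename Sum.inr q) = 1 ⊗ₜ[k] (Ideal.Quotient.mk Q q) := by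
  have : (toTensor P Q).comp (MvPolynomial.rename Sum.inr) =
      (Algebra.TensorProduct.includeRight).comp (Ideal.Quotient.mkₐ k Q) := by
    apply MvPolynomial.algHom_ext
    intro j
    simp [toTensor]
  exact DFunLike.congr_fun this q

theorem toTensor_sumI (P : Ideal (MvPolynomial J1 k)) (Q : Ideal (MvPolynomial J2 k))
    (x : MvPolynomial (J1 ⊕ J2) k) (hx : x ∈ sumI P Q) : toTensor P Q x = 0 := by
  have h : sumI P Q ≤ RingHom.ker (toTensor P Q).toRingHom := by
    rw [sumI, sup_le_iff, Ideal.map_le_iff_le_comap, Ideal.map_le_iff_le_comap]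
    constructor
    · intro p hp
      change toTensor P Q (MvPolynomial.rename Sum.inl p) = 0
      rw [toTensor_inl, Ideal.Quotient.eq_zero_iff_mem.2 hp, TensorProduct.zero_tmul]
    · intro q hq
      change toTensor P Q (MvPolynomial.rename Sum.inr q) = 0
      rw [toTensor_inr, Ideal.Quotient.eq_zero_iff_mem.2 hq, TensorProduct.tmul_zero]
  exact h hx

/-- monomials forming a basis modulo an ideal give a basis of the quotient ring -/
theorem exists_basis_quot {J : Type} (P : Ideal (MvPolynomial J k)) {κ : Type} (a : κ → (J →₀ ℕ))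
    (hli : LinearIndependent k ((P.restrictScalars k).mkQ ∘
      fun i => MvPolynomial.monomial (a i) (1 : k)))
    (hsp : ∀ x : MvPolynomial J k, x ∈ P.restrictScalars k ⊔ Submodule.span k
      (Set.range fun i => MvPolynomial.monomial (a i) (1 : k))) :
    ∃ b : Module.Basis κ k (MvPolynomial J k ⧸ P),
      ∀ i, b i = Ideal.Quotient.mk P (MvPolynomial.monomial (a i) (1 : k)) := by
  let g : MvPolynomial J k →ₗ[k] (MvPolynomial J k ⧸ P) := (Ideal.Quotient.mkₐ k P).toLinearMap
  have hg : LinearMap.ker g = P.restrictScalars k := by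
    ext x
    rw [LinearMap.mem_ker, Submodule.restrictScalars_mem]
    exact Ideal.Quotient.eq_zero_iff_mem
  let f : κ → MvPolynomial J k := fun i => MvPolynomial.monomial (a i) (1 : k)
  have hli' : LinearIndependent k (g ∘ f) := by
    have h1 : g ∘ f = ((P.restrictScalars k).liftQ g hg.ge) ∘ ((P.restrictScalars k).mkQ ∘ f) := by
      funext i; rfl
    rw [h1]
    apply hli.map'
    exact Submodule.ker_liftQ_eq_bot _ _ _ hg.le
  have hsp' : ⊤ ≤ Submodule.span k (Set.range (g ∘ f)) := by
    intro y _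
    obtain ⟨x, rfl⟩ := Ideal.Quotient.mk_surjective y
    obtain ⟨v, hv, z, hz, rfl⟩ := Submodule.mem_sup.1 (hsp x)
    rw [map_add, Ideal.Quotient.eq_zero_iff_mem.2 hv, zero_add, Set.range_comp,
      ← Submodule.map_span]
    exact ⟨z, hz, rfl⟩
  refine ⟨Module.Basis.mk hli' hsp', fun i => ?_⟩
  rw [Module.Basis.mk_apply]
  rfl

variable (P : Ideal (MvPolynomial J1 k)) (Q : Ideal (MvPolynomial J2 k))
  {κ1 κ2 : Type} (a1 : κ1 → (J1 →₀ ℕ)) (a2 : κ2 → (J2 →₀ ℕ))
  (hli1 : LinearIndependent k ((P.restrictScalars k).mkQ ∘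
      fun i => MvPolynomial.monomial (a1 i) (1 : k)))
  (hsp1 : ∀ x : MvPolynomial J1 k, x ∈ P.restrictScalars k ⊔ Submodule.span k
      (Set.range fun i => MvPolynomial.monomial (a1 i) (1 : k)))
  (hli2 : LinearIndependent k ((Q.restrictScalars k).mkQ ∘
      fun i => MvPolynomial.monomial (a2 i) (1 : k)))
  (hsp2 : ∀ x : MvPolynomial J2 k, x ∈ Q.restrictScalars k ⊔ Submodule.span k
      (Set.range fun i => MvPolynomial.monomial (a2 i) (1 : k)))

include hli1 hsp1 hli2 hsp2 in
theorem li_sum : LinearIndependent k (((sumI P Q).restrictScalars k).mkQ ∘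
      fun ij : κ1 × κ2 => MvPolynomial.monomial (sumExp (a1 ij.1) (a2 ij.2)) (1 : k)) := by
  obtain ⟨b1, hb1⟩ := exists_basis_quot P a1 hli1 hsp1
  obtain ⟨b2, hb2⟩ := exists_basis_quot Q a2 hli2 hsp2
  have hle : (sumI P Q).restrictScalars k ≤ LinearMap.ker (toTensor P Q).toLinearMap := by
    intro x hx
    exact toTensor_sumI P Q x hx
  have h := (b1.tensorProduct b2).linearIndependent
  apply LinearIndependent.of_comp (((sumI P Q).restrictScalars k).liftQ
    (toTensor P Q).toLinearMap hle)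
  have heq : ⇑(((sumI P Q).restrictScalars k).liftQ (toTensor P Q).toLinearMap hle) ∘
      (⇑((sumI P Q).restrictScalars k).mkQ ∘ fun ij : κ1 × κ2 =>
        MvPolynomial.monomial (sumExp (a1 ij.1) (a2 ij.2)) (1 : k)) =
      ⇑(b1.tensorProduct b2) := by
    funext ij
    rw [Module.Basis.tensorProduct_apply', hb1, hb2]
    change toTensor P Q (MvPolynomial.monomial (sumExp (a1 ij.1) (a2 ij.2)) 1) = _
    rw [← rename_mul_rename, map_mul, toTensor_inl, toTensor_inr,
      Algebra.TensorProduct.tmul_mul_tmul, one_mul, mul_one]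
  rw [heq]
  exact h

include hsp1 hsp2 in
theorem span_sum (x : MvPolynomial (J1 ⊕ J2) k) :
    x ∈ (sumI P Q).restrictScalars k ⊔ Submodule.span k
      (Set.range fun ij : κ1 × κ2 => MvPolynomial.monomial (sumExp (a1 ij.1) (a2 ij.2)) (1 : k)) := by
  set U := (sumI P Q).restrictScalars k ⊔ Submodule.span k
      (Set.range fun ij : κ1 × κ2 => MvPolynomial.monomial (sumExp (a1 ij.1) (a2 ij.2)) (1 : k))
    with hU
  have hI : ∀ y ∈ sumI P Q, y ∈ U := fun y hy => Submodule.mem_sup_left hy
  have key : ∀ (p : MvPolynomial J1 k) (q : MvPolynomial J2 k),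
      MvPolynomial.rename Sum.inl p * MvPolynomial.rename Sum.inr q ∈ U := by
    intro p q
    obtain ⟨v, hv, y, hy, rfl⟩ := Submodule.mem_sup.1 (hsp1 p)
    obtain ⟨v', hv', z, hz, rfl⟩ := Submodule.mem_sup.1 (hsp2 q)
    have hv1 : MvPolynomial.rename Sum.inl v ∈ sumI P Q :=
      Ideal.mem_sup_left (Ideal.mem_map_of_mem _ hv)
    have hv2 : MvPolynomial.rename Sum.inr v' ∈ sumI P Q :=
      Ideal.mem_sup_right (Ideal.mem_map_of_mem _ hv')
    have h1 : MvPolynomial.rename Sum.inl y * MvPolynomial.rename Sum.inr z ∈ U := by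
      refine Submodule.span_induction (p := fun y _ =>
        MvPolynomial.rename Sum.inl y * MvPolynomial.rename Sum.inr z ∈ U) ?_ ?_ ?_ ?_ hy
      · rintro _ ⟨i, rfl⟩
        refine Submodule.span_induction (p := fun z _ =>
          MvPolynomial.rename Sum.inl (MvPolynomial.monomial (a1 i) (1 : k)) *
            MvPolynomial.rename Sum.inr z ∈ U) ?_ ?_ ?_ ?_ hz
        · rintro _ ⟨j, rfl⟩
          rw [rename_mul_rename]
          exact Submodule.mem_sup_right (Submodule.subset_span ⟨(i, j), rfl⟩)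
        · rw [map_zero, mul_zero]; exact U.zero_mem
        · intro z z' _ _ h h'
          rw [map_add, mul_add]; exact U.add_mem h h'
        · intro c z _ h
          rw [map_smul, mul_smul_comm]; exact U.smul_mem c h
      · rw [map_zero, zero_mul]; exact U.zero_mem
      · intro z z' _ _ h h'
        rw [map_add, add_mul]; exact U.add_mem h h'
      · intro c z _ h
        rw [map_smul, smul_mul_assoc]; exact U.smul_mem c h
    rw [map_add, map_add, add_mul, mul_add, mul_add]
    refine U.add_mem (U.add_mem ?_ ?_) (U.add_mem ?_ h1)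
    · exact hI _ (Ideal.mul_mem_right _ _ hv1)
    · exact hI _ (Ideal.mul_mem_right _ _ hv1)
    · exact hI _ (Ideal.mul_mem_left _ _ hv2)
  induction x using MvPolynomial.induction_on' with
  | monomial e r =>
    obtain ⟨e1, e2, rfl⟩ := exists_sumExp e
    have h := U.smul_mem r (key (MvPolynomial.monomial e1 1) (MvPolynomial.monomial e2 1))
    rw [rename_mul_rename, MvPolynomial.smul_monomial, smul_eq_mul, mul_one] at h
    exact h
  | add p q hp hq => exact U.add_mem hp hq

end Prod

section HomProd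

variable {k : Type*} [Field k] {ι : Type} {J1 J2 : Type}

theorem homI_span {J : Type} (w : J → Dg ι) (T : Set (MvPolynomial J k))
    (hT : ∀ x ∈ T, ∃ m, MvPolynomial.IsWeightedHomogeneous w x m) : HomI w (Ideal.span T) := by
  classical
  letI := MvPolynomial.weightedGradedAlgebra k w
  have h : (Ideal.span T).IsHomogeneous (MvPolynomial.weightedHomogeneousSubmodule k w) := by
    apply Ideal.homogeneous_span
    intro x hx
    obtain ⟨m, hm⟩ := hT x hx
    exact ⟨m, hm⟩
  intro p hp m
  exact MvPolynomial.weightedHomogeneousComponent_mem_of_mem k w h hp m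

theorem rename_inl_hom (w1 : J1 → Dg ι) (w2 : J2 → Dg ι) {p : MvPolynomial J1 k} {m : Dg ι}
    (hp : MvPolynomial.IsWeightedHomogeneous w1 p m) :
    MvPolynomial.IsWeightedHomogeneous (Sum.elim w1 w2)
      (MvPolynomial.rename (Sum.inl : J1 → J1 ⊕ J2) p) m := by
  intro d hd
  obtain ⟨u, rfl, hu⟩ := MvPolynomial.coeff_rename_ne_zero _ _ _ hd
  have h := weight_sumExp w1 w2 u 0
  rw [sumExp, Finsupp.mapDomain_zero, add_zero, map_zero, add_zero] at h
  rw [h]
  exact hp hu

theorem rename_inr_hom (w1 : J1 → Dg ι) (w2 : J2 → Dg ι) {p : MvPolynomial J2 k} {m : Dg ι}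
    (hp : MvPolynomial.IsWeightedHomogeneous w2 p m) :
    MvPolynomial.IsWeightedHomogeneous (Sum.elim w1 w2)
      (MvPolynomial.rename (Sum.inr : J2 → J1 ⊕ J2) p) m := by
  intro d hd
  obtain ⟨u, rfl, hu⟩ := MvPolynomial.coeff_rename_ne_zero _ _ _ hd
  have h := weight_sumExp w1 w2 0 u
  rw [sumExp, Finsupp.mapDomain_zero, zero_add, map_zero, zero_add] at h
  rw [h]
  exact hp hu

theorem HomI.eq_span {J : Type} [Finite J] {w : J → Dg ι} (hw : ∀ j, w j ≠ 0)
    {P : Ideal (MvPolynomial J k)} (hP : HomI w P) :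
    P = Ideal.span {p | p ∈ P ∧ ∃ m, MvPolynomial.IsWeightedHomogeneous w p m} := by
  classical
  apply le_antisymm
  · intro p hp
    rw [← (grPoly k w hw).sum_eq p]
    refine Ideal.sum_mem _ fun m _ => Ideal.subset_span ⟨hP p hp m, m, ?_⟩
    exact MvPolynomial.weightedHomogeneousComponent_isWeightedHomogeneous m p
  · rw [Ideal.span_le]
    intro p hp
    exact hp.1

theorem homI_sumI [Finite J1] [Finite J2] {w1 : J1 → Dg ι} (hw1 : ∀ j, w1 j ≠ 0)
    {w2 : J2 → Dg ι} (hw2 : ∀ j, w2 j ≠ 0) {P : Ideal (MvPolynomial J1 k)}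
    {Q : Ideal (MvPolynomial J2 k)} (hP : HomI w1 P) (hQ : HomI w2 Q) :
    HomI (Sum.elim w1 w2) (sumI P Q) := by
  rw [sumI]
  apply HomI.sup
  · rw [hP.eq_span hw1, Ideal.map_span]
    apply homI_span
    rintro _ ⟨p, ⟨-, m, hm⟩, rfl⟩
    exact ⟨m, rename_inl_hom w1 w2 hm⟩
  · rw [hQ.eq_span hw2, Ideal.map_span]
    apply homI_span
    rintro _ ⟨p, ⟨-, m, hm⟩, rfl⟩
    exact ⟨m, rename_inr_hom w1 w2 hm⟩

theorem sumElim_ne_zero {w1 : J1 → Dg ι} (hw1 : ∀ j, w1 j ≠ 0)
    {w2 : J2 → Dg ι} (hw2 : ∀ j, w2 j ≠ 0) : ∀ j, Sum.elim w1 w2 j ≠ 0 := by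
  rintro (j | j)
  · exact hw1 j
  · exact hw2 j

/-- **Hilbert series of a sum of extended ideals.** -/
theorem hs_sumI [Finite J1] [Finite J2] {w1 : J1 → Dg ι} (hw1 : ∀ j, w1 j ≠ 0)
    {w2 : J2 → Dg ι} (hw2 : ∀ j, w2 j ≠ 0) (hw : ∀ j, Sum.elim w1 w2 j ≠ 0)
    {P : Ideal (MvPolynomial J1 k)}
    {Q : Ideal (MvPolynomial J2 k)} (hP : HomI w1 P) (hQ : HomI w2 Q) :
    (grPoly k (Sum.elim w1 w2) hw).hs ⊤ -
      (grPoly k (Sum.elim w1 w2) hw).hs ((sumI P Q).restrictScalars k) =
    ((grPoly k w1 hw1).hs ⊤ - (grPoly k w1 hw1).hs (P.restrictScalars k)) *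
      ((grPoly k w2 hw2).hs ⊤ - (grPoly k w2 hw2).hs (Q.restrictScalars k)) := by
  classical
  obtain ⟨κ1, a1, hli1, hsp1⟩ := exists_monomial_basis (P.restrictScalars k)
  obtain ⟨κ2, a2, hli2, hsp2⟩ := exists_monomial_basis (Q.restrictScalars k)
  have h1 := coeff_hs_sub_eq_card w1 hw1 (V := P.restrictScalars k)
    (fun m x hx => hP x hx m) a1 hli1 hsp1
  have h2 := coeff_hs_sub_eq_card w2 hw2 (V := Q.restrictScalars k)
    (fun m x hx => hQ x hx m) a2 hli2 hsp2
  have h := coeff_hs_sub_eq_card (Sum.elim w1 w2) hw (V := (sumI P Q).restrictScalars k)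
    (fun m x hx => homI_sumI hw1 hw2 hP hQ x hx m)
    (fun ij : κ1 × κ2 => sumExp (a1 ij.1) (a2 ij.2))
    (li_sum P Q a1 a2 hli1 hsp1 hli2 hsp2) (span_sum P Q a1 a2 hsp1 hsp2)
  ext m
  rw [(h m).2, MvPowerSeries.coeff_mul]
  have e : {ij : κ1 × κ2 // Finsupp.weight (Sum.elim w1 w2) (sumExp (a1 ij.1) (a2 ij.2)) = m} ≃
      (Σ ab : {ab : Dg ι × Dg ι // ab ∈ antidiagonal m},
        {i : κ1 // Finsupp.weight w1 (a1 i) = ab.1.1} ×
          {j : κ2 // Finsupp.weight w2 (a2 j) = ab.1.2}) :=
    { toFun := fun x => ⟨⟨(Finsupp.weight w1 (a1 x.1.1), Finsupp.weight w2 (a2 x.1.2)), by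
          rw [HasAntidiagonal.mem_antidiagonal, ← weight_sumExp]; exact x.2⟩, ⟨x.1.1, rfl⟩, ⟨x.1.2, rfl⟩⟩
      invFun := fun y => ⟨(y.2.1.1, y.2.2.1), by
          rw [weight_sumExp, y.2.1.2, y.2.2.2]; exact HasAntidiagonal.mem_antidiagonal.1 y.1.2⟩
      left_inv := fun x => rfl
      right_inv := by
        rintro ⟨⟨⟨a, b⟩, hab⟩, ⟨i, hi⟩, ⟨j, hj⟩⟩
        simp only at hi hj
        subst hi hj
        rfl }
  rw [Nat.card_congr e]
  have hf1 : ∀ a, Finite {i : κ1 // Finsupp.weight w1 (a1 i) = a} := fun a => (h1 a).1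
  have hf2 : ∀ a, Finite {i : κ2 // Finsupp.weight w2 (a2 i) = a} := fun a => (h2 a).1
  rw [Nat.card_sigma]
  push_cast
  rw [← Finset.sum_coe_sort (antidiagonal m)]
  refine Finset.sum_congr rfl fun ab _ => ?_
  rw [(h1 _).2, (h2 _).2, Nat.card_prod]
  push_cast
  rfl

/-- **The `K`-polynomial of a sum of extended ideals.** -/
theorem kp_sumI [Fintype J1] [Fintype J2] {w1 : J1 → Dg ι} (hw1 : ∀ j, w1 j ≠ 0)
    {w2 : J2 → Dg ι} (hw2 : ∀ j, w2 j ≠ 0) (hw : ∀ j, Sum.elim w1 w2 j ≠ 0)
    {P : Ideal (MvPolynomial J1 k)}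
    {Q : Ideal (MvPolynomial J2 k)} (hP : HomI w1 P) (hQ : HomI w2 Q) :
    kp (Sum.elim w1 w2) hw (sumI P Q) = kp w1 hw1 P * kp w2 hw2 Q := by
  apply kp_unique _ _ (homI_sumI hw1 hw2 hP hQ)
  rw [hs_sumI hw1 hw2 hw hP hQ, MvPolynomial.coe_mul, coe_kp w1 hw1 hP, coe_kp w2 hw2 hQ,
    Fintype.prod_sum_type]
  simp only [Sum.elim_inl, Sum.elim_inr]
  ring

end HomProd

section Elim

variable {k : Type*} [Field k] {ι : Type} {J1 J2 : Type}

theorem isDeg_rename_inl [Finite J1] [Finite J2] {w1 : J1 → Dg ι} (hw1 : ∀ j, w1 j ≠ 0)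
    {w2 : J2 → Dg ι} (hw : ∀ j, Sum.elim w1 w2 j ≠ 0) :
    IsDeg (grPoly k w1 hw1) (grPoly k (Sum.elim w1 w2) hw) 0
      (MvPolynomial.rename (Sum.inl : J1 → J1 ⊕ J2)).toLinearMap := by
  classical
  intro m x
  rw [add_zero]
  change MvPolynomial.rename Sum.inl (MvPolynomial.weightedHomogeneousComponent w1 m x) =
    MvPolynomial.weightedHomogeneousComponent (Sum.elim w1 w2) m (MvPolynomial.rename Sum.inl x)
  induction x using MvPolynomial.induction_on' with
  | monomial e r =>
    have h := weight_sumExp w1 w2 e 0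
    rw [sumExp, Finsupp.mapDomain_zero, add_zero, map_zero, add_zero] at h
    rw [whc_monomial, MvPolynomial.rename_monomial, whc_monomial, h]
    split_ifs with h1
    · rw [MvPolynomial.rename_monomial]
    · rw [map_zero]
  | add p q hp hq => rw [map_add, map_add, hp, hq, map_add, map_add]

/-- modulo the relations `X_j = ψ_j` every polynomial is a polynomial in the first variables -/
theorem sub_mem_of_rel (Q : Ideal (MvPolynomial (J1 ⊕ J2) k)) (ψ : J2 → MvPolynomial J1 k)
    (hψ : ∀ j, MvPolynomial.X (Sum.inr j) - MvPolynomial.rename Sum.inl (ψ j) ∈ Q)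
    (x : MvPolynomial (J1 ⊕ J2) k) :
    x - MvPolynomial.rename Sum.inl (MvPolynomial.aeval (Sum.elim MvPolynomial.X ψ) x) ∈ Q := by
  have h : (Ideal.Quotient.mkₐ k Q) = ((Ideal.Quotient.mkₐ k Q).comp
      (MvPolynomial.rename (Sum.inl : J1 → J1 ⊕ J2))).comp
      (MvPolynomial.aeval (Sum.elim MvPolynomial.X ψ)) := by
    apply MvPolynomial.algHom_ext
    rintro (j | j)
    · simp
    · simp only [AlgHom.comp_apply, MvPolynomial.aeval_X, Sum.elim_inr]
      exact Ideal.Quotient.eq.2 (hψ j)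
  exact Ideal.Quotient.eq.1 (DFunLike.congr_fun h x)

theorem homI_comap_inl [Finite J1] [Finite J2] {w1 : J1 → Dg ι} (hw1 : ∀ j, w1 j ≠ 0)
    {w2 : J2 → Dg ι} (hw : ∀ j, Sum.elim w1 w2 j ≠ 0) {Q : Ideal (MvPolynomial (J1 ⊕ J2) k)}
    (hQ : HomI (Sum.elim w1 w2) Q) :
    HomI w1 (Q.comap (MvPolynomial.rename (Sum.inl : J1 → J1 ⊕ J2))) := by
  intro p hp m
  have h := isDeg_rename_inl (k := k) (w2 := w2) hw1 hw m p
  rw [add_zero] at h
  change MvPolynomial.rename Sum.inl (MvPolynomial.weightedHomogeneousComponent w1 m p) =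
    MvPolynomial.weightedHomogeneousComponent (Sum.elim w1 w2) m
      (MvPolynomial.rename Sum.inl p) at h
  rw [Ideal.mem_comap]
  change MvPolynomial.rename Sum.inl (MvPolynomial.weightedHomogeneousComponent w1 m p) ∈ Q
  rw [h]
  exact hQ _ hp m

/-- **Elimination**: Hilbert series. -/
theorem hs_elim [Finite J1] [Finite J2] {w1 : J1 → Dg ι} (hw1 : ∀ j, w1 j ≠ 0)
    {w2 : J2 → Dg ι} (hw : ∀ j, Sum.elim w1 w2 j ≠ 0) {Q : Ideal (MvPolynomial (J1 ⊕ J2) k)}
    (hQ : HomI (Sum.elim w1 w2) Q) (ψ : J2 → MvPolynomial J1 k)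
    (hψ : ∀ j, MvPolynomial.X (Sum.inr j) - MvPolynomial.rename Sum.inl (ψ j) ∈ Q) :
    (grPoly k (Sum.elim w1 w2) hw).hs ⊤ -
      (grPoly k (Sum.elim w1 w2) hw).hs (Q.restrictScalars k) =
    (grPoly k w1 hw1).hs ⊤ - (grPoly k w1 hw1).hs
      ((Q.comap (MvPolynomial.rename (Sum.inl : J1 → J1 ⊕ J2))).restrictScalars k) := by
  have h := hs_shift (isDeg_rename_inl (k := k) (w2 := w2) hw1 hw)
    (Gr.isHom_top (grPoly k w1 hw1)) (U := Q.restrictScalars k) (fun m x hx => hQ x hx m)
  have e1 : (⊤ : Submodule k (MvPolynomial J1 k)).map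
      (MvPolynomial.rename (Sum.inl : J1 → J1 ⊕ J2)).toLinearMap ⊔ Q.restrictScalars k = ⊤ := by
    rw [eq_top_iff]
    intro x _
    rw [sup_comm]
    have := Submodule.add_mem_sup (S := Q.restrictScalars k) (T := (⊤ : Submodule k
      (MvPolynomial J1 k)).map (MvPolynomial.rename (Sum.inl : J1 → J1 ⊕ J2)).toLinearMap)
      (sub_mem_of_rel Q ψ hψ x)
      ⟨MvPolynomial.aeval (Sum.elim MvPolynomial.X ψ) x, trivial, rfl⟩
    simpa using this
  have e2 : (⊤ : Submodule k (MvPolynomial J1 k)) ⊓ (Q.restrictScalars k).comap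
      (MvPolynomial.rename (Sum.inl : J1 → J1 ⊕ J2)).toLinearMap =
      (Q.comap (MvPolynomial.rename (Sum.inl : J1 → J1 ⊕ J2))).restrictScalars k := by
    ext x
    simp
  rw [e1, e2, tp_zero, one_mul] at h
  exact h

/-- **Elimination**: `K`-polynomials. -/
theorem kp_elim [Fintype J1] [Fintype J2] {w1 : J1 → Dg ι} (hw1 : ∀ j, w1 j ≠ 0)
    {w2 : J2 → Dg ι} (hw : ∀ j, Sum.elim w1 w2 j ≠ 0) {Q : Ideal (MvPolynomial (J1 ⊕ J2) k)}
    (hQ : HomI (Sum.elim w1 w2) Q) (ψ : J2 → MvPolynomial J1 k)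
    (hψ : ∀ j, MvPolynomial.X (Sum.inr j) - MvPolynomial.rename Sum.inl (ψ j) ∈ Q) :
    kp (Sum.elim w1 w2) hw Q =
      kp w1 hw1 (Q.comap (MvPolynomial.rename (Sum.inl : J1 → J1 ⊕ J2))) *
        ∏ j, (1 - MvPolynomial.monomial (w2 j) 1) := by
  apply kp_unique _ _ hQ
  have e1 : ((∏ j, (1 - MvPolynomial.monomial (w2 j) 1) : MvPolynomial ι ℤ) :
      MvPowerSeries ι ℤ) = ∏ j, (1 - tp (w2 j)) := by
    rw [← MvPolynomial.coeToMvPowerSeries.ringHom_apply, map_prod]
    refine Finset.prod_congr rfl fun j _ => ?_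
    rw [map_sub, map_one, MvPolynomial.coeToMvPowerSeries.ringHom_apply, coe_monomial_tp]
  rw [hs_elim hw1 hw hQ ψ hψ, MvPolynomial.coe_mul, coe_kp w1 hw1 (homI_comap_inl hw1 hw hQ),
    Fintype.prod_sum_type, e1]
  simp only [Sum.elim_inl, Sum.elim_inr]
  ring

/-- **Elimination**: the quotients are isomorphic. -/
theorem exists_elim_equiv (Q : Ideal (MvPolynomial (J1 ⊕ J2) k)) (ψ : J2 → MvPolynomial J1 k)
    (hψ : ∀ j, MvPolynomial.X (Sum.inr j) - MvPolynomial.rename Sum.inl (ψ j) ∈ Q) :
    ∃ e : (MvPolynomial J1 k ⧸ Q.comap (MvPolynomial.rename (Sum.inl : J1 → J1 ⊕ J2))) ≃ₐ[k]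
      (MvPolynomial (J1 ⊕ J2) k ⧸ Q), ∀ x, e (Ideal.Quotient.mk _ x) =
        Ideal.Quotient.mk Q (MvPolynomial.rename Sum.inl x) := by
  let f : MvPolynomial J1 k →ₐ[k] (MvPolynomial (J1 ⊕ J2) k ⧸ Q) :=
    (Ideal.Quotient.mkₐ k Q).comp (MvPolynomial.rename (Sum.inl : J1 → J1 ⊕ J2))
  have hf : Function.Surjective f := by
    intro y
    obtain ⟨x, rfl⟩ := Ideal.Quotient.mk_surjective y
    refine ⟨MvPolynomial.aeval (Sum.elim MvPolynomial.X ψ) x, ?_⟩
    exact (Ideal.Quotient.eq.2 (sub_mem_of_rel Q ψ hψ x)).symm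
  have hker : RingHom.ker f = Q.comap (MvPolynomial.rename (Sum.inl : J1 → J1 ⊕ J2)) := by
    ext x
    rw [RingHom.mem_ker, Ideal.mem_comap]
    exact Ideal.Quotient.eq_zero_iff_mem
  refine ⟨(Ideal.quotientEquivAlgOfEq k hker.symm).trans
    (Ideal.quotientKerAlgEquivOfSurjective hf), fun x => ?_⟩
  rfl

/-- **Elimination**: transcendence degrees. -/
theorem td_elim {J1 J2 : Type} (Q : Ideal (MvPolynomial (J1 ⊕ J2) ℚ))
    (ψ : J2 → MvPolynomial J1 ℚ)
    (hψ : ∀ j, MvPolynomial.X (Sum.inr j) - MvPolynomial.rename Sum.inl (ψ j) ∈ Q) :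
    td Q = td (Q.comap (MvPolynomial.rename (Sum.inl : J1 → J1 ⊕ J2))) := by
  obtain ⟨e, -⟩ := exists_elim_equiv Q ψ hψ
  rw [td, td, e.trdeg_eq]

end Elim

end P199H
end
end

section

section

/-!
# P199, blueprint H: 2-adic cuts

* `two_prime` : `2` is prime in `ℤ[Θ]`;
* `not_pow_dvd_mul` : Gauss lemma for the 2-adic valuation;
* `exists_val` : a nonzero `x` has an exact 2-adic valuation;
* `HSys.cut2` : one cut, `HSys.cutFin` : finitely many cuts with valuation bookkeeping.
-/

set_option linter.all false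

namespace P199H

open MvPolynomial

theorem two_prime {ι : Type} : Prime (2 : MvPolynomial ι ℤ) := by
  have h : Prime (C (2 : ℤ) : MvPolynomial ι ℤ) := by
    rw [MvPolynomial.prime_C_iff]
    exact Int.prime_two
  simpa using h

theorem not_pow_dvd_mul {ι : Type} {a b : MvPolynomial ι ℤ} {u v : ℕ}
    (ha : ¬ (2 : MvPolynomial ι ℤ) ^ (u + 1) ∣ a) (hb : ¬ (2 : MvPolynomial ι ℤ) ^ (v + 1) ∣ b) :
    ¬ (2 : MvPolynomial ι ℤ) ^ (u + v + 1) ∣ a * b := by
  rw [← emultiplicity_lt_iff_not_dvd] at ha hb ⊢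
  rw [emultiplicity_mul two_prime]
  obtain ⟨a', ha'⟩ := ENat.ne_top_iff_exists.1 (ne_top_of_lt ha)
  obtain ⟨b', hb'⟩ := ENat.ne_top_iff_exists.1 (ne_top_of_lt hb)
  rw [← ha'] at ha ⊢
  rw [← hb'] at hb ⊢
  norm_cast at ha hb ⊢
  omega

theorem exists_val {ι : Type} {x : MvPolynomial ι ℤ} (hx : x ≠ 0) :
    ∃ u : ℕ, (2 : MvPolynomial ι ℤ) ^ u ∣ x ∧ ¬ (2 : MvPolynomial ι ℤ) ^ (u + 1) ∣ x := by
  classical
  -- look at a nonzero integer coefficient
  obtain ⟨e, he⟩ := MvPolynomial.ne_zero_iff.1 hx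
  have key : ∀ n : ℕ, (2 : MvPolynomial ι ℤ) ^ n ∣ x → (2 : ℤ) ^ n ∣ coeff e x := by
    rintro n ⟨y, rfl⟩
    have : (2 : MvPolynomial ι ℤ) ^ n = C ((2 : ℤ) ^ n) := by simp
    rw [this, coeff_C_mul]
    exact dvd_mul_right _ _
  have hfin : ∃ n : ℕ, ¬ (2 : MvPolynomial ι ℤ) ^ n ∣ x := by
    refine ⟨(coeff e x).natAbs, fun h => ?_⟩
    have h1 := key _ h
    have h2 : (2 : ℕ) ^ (coeff e x).natAbs ∣ (coeff e x).natAbs := by
      have := Int.natAbs_dvd_natAbs.2 h1
      simpa [Int.natAbs_pow] using this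
    have h3 := Nat.le_of_dvd (Int.natAbs_pos.2 he) h2
    exact absurd h3 (not_le.2 Nat.lt_two_pow_self)
  have h0 : Nat.find hfin ≠ 0 := by
    intro h
    have := Nat.find_spec hfin
    rw [h, pow_zero] at this
    exact this (one_dvd _)
  obtain ⟨u, hu⟩ := Nat.exists_eq_succ_of_ne_zero h0
  refine ⟨u, ?_, ?_⟩
  · have := Nat.find_min hfin (m := u) (by omega)
    simpa using this
  · have := Nat.find_spec hfin
    rwa [hu] at this

namespace HSys

variable {R : Type} [CommRing R] {ι : Type} (H : HSys R ι)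

/-- One cut, 2-adic form. -/
theorem cut2 [IsNoetherianRing R] {P : Ideal R} (hP : P.IsPrime) (hH : H.HI P) {f : R}
    {χ : ι →₀ ℕ} (hf : H.Hom f χ) {u v : ℕ}
    (hχ : ¬ (2 : MvPolynomial ι ℤ) ^ (u + 1) ∣ dotTh χ)
    (hL : ¬ (2 : MvPolynomial ι ℤ) ^ (v + 1) ∣ H.LC P) :
    ∃ Q : Ideal R, Q.IsPrime ∧ H.HI Q ∧ P ≤ Q ∧ f ∈ Q ∧ H.c Q ≤ H.c P + 1 ∧
      ¬ (2 : MvPolynomial ι ℤ) ^ (v + u + 1) ∣ H.LC Q := by
  have h := H.L4' (Ideal.span {(2 : MvPolynomial ι ℤ) ^ (v + 1)})
    (Ideal.span {(2 : MvPolynomial ι ℤ) ^ (v + u + 1)})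
    (by
      rw [Ideal.span_singleton_le_span_singleton]
      exact pow_dvd_pow _ (by omega)) hP hH hf
    (by
      intro x hx
      rw [Ideal.mem_span_singleton] at hx ⊢
      by_contra hc
      exact not_pow_dvd_mul hχ hc (by rwa [add_comm u v]))
    (by rwa [Ideal.mem_span_singleton])
  obtain ⟨Q, h1, h2, h3, h4, h5, h6⟩ := h
  exact ⟨Q, h1, h2, h3, h4, h5, by rwa [Ideal.mem_span_singleton] at h6⟩

/-- Finitely many cuts, 2-adic form. -/
theorem cutFin [IsNoetherianRing R] {J : Type} (f : J → R) (χ : J → ι →₀ ℕ)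
    (hf : ∀ j, H.Hom (f j) (χ j)) (u : J → ℕ)
    (hχ : ∀ j, ¬ (2 : MvPolynomial ι ℤ) ^ (u j + 1) ∣ dotTh (χ j)) (s : Finset J) :
    ∀ {P : Ideal R} (_ : P.IsPrime) (_ : H.HI P) {v : ℕ}
    (_ : ¬ (2 : MvPolynomial ι ℤ) ^ (v + 1) ∣ H.LC P),
    ∃ Q : Ideal R, Q.IsPrime ∧ H.HI Q ∧ P ≤ Q ∧ (∀ j ∈ s, f j ∈ Q) ∧ H.c Q ≤ H.c P + s.card ∧
      ¬ (2 : MvPolynomial ι ℤ) ^ (v + ∑ j ∈ s, u j + 1) ∣ H.LC Q := by
  classical
  induction s using Finset.induction_on with
  | empty =>
    intro P hP hH v hv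
    exact ⟨P, hP, hH, le_rfl, by simp, by simp, by simpa using hv⟩
  | insert a s ha ih =>
    intro P hP hH v hv
    obtain ⟨Q, h1, h2, h3, h4, h5, h6⟩ := ih hP hH hv
    obtain ⟨Q', g1, g2, g3, g4, g5, g6⟩ := H.cut2 h1 h2 (hf a) (hχ a) h6
    refine ⟨Q', g1, g2, h3.trans g3, ?_, ?_, ?_⟩
    · intro j hj
      rcases Finset.mem_insert.1 hj with rfl | hj
      · exact g4
      · exact g3 (h4 j hj)
    · rw [Finset.card_insert_of_notMem ha]
      omega
    · rw [Finset.sum_insert ha]
      have : v + (u a + ∑ j ∈ s, u j) + 1 = v + ∑ j ∈ s, u j + u a + 1 := by omega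
      rwa [this]

end HSys

end P199H
end
end

section

section

/-!
# P199, blueprint H: Lemma D (product and reduction to the diagonal)

`P` good in `k[J1]`, `Ps` good in `k[J2]`, `ψ : J2 → k[J1]` homogeneous of the weights of `J2`.
Then there is a good `P' ≥ P` in `k[J1]` containing `ψ(Ps)`, with `c P' ≤ c P + c Ps`.
-/

set_option linter.all false

namespace P199H

open MvPolynomial

/-- lowest coefficients multiply -/
theorem coeff_mul_of_dvd {A : Type*} [CommRing A] {f g : Polynomial A} {m n : ℕ}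
    (hf : Polynomial.X ^ m ∣ f) (hg : Polynomial.X ^ n ∣ g) :
    (f * g).coeff (m + n) = f.coeff m * g.coeff n := by
  obtain ⟨a, rfl⟩ := hf
  obtain ⟨b, rfl⟩ := hg
  have h1 := Polynomial.coeff_X_pow_mul (a * b) (m + n) 0
  have h2 := Polynomial.coeff_X_pow_mul a m 0
  have h3 := Polynomial.coeff_X_pow_mul b n 0
  rw [zero_add] at h1 h2 h3
  rw [h2, h3]
  have h4 : Polynomial.X ^ m * a * (Polynomial.X ^ n * b) =
      Polynomial.X ^ (m + n) * (a * b) := by ring
  rw [h4, h1, Polynomial.mul_coeff_zero]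

variable {J1 J2 ι : Type} [Fintype J1] [Fintype J2] [Finite ι]

theorem lemmaD (w1 : J1 → Dg ι) (hw1 : ∀ j, w1 j ≠ 0) (w2 : J2 → Dg ι) (hw2 : ∀ j, w2 j ≠ 0)
    (P : Ideal (MvPolynomial J1 ℚ)) (hP : P.IsPrime) (hPH : HomI w1 P)
    (hPL : ¬ (2 : MvPolynomial ι ℤ) ∣ (polySys w1 hw1).LC P)
    (Ps : Ideal (MvPolynomial J2 ℚ)) (hPs : Ps.IsPrime) (hPsH : HomI w2 Ps)
    (hPsL : ¬ (2 : MvPolynomial ι ℤ) ∣ (polySys w2 hw2).LC Ps)
    (ψ : J2 → MvPolynomial J1 ℚ) (hψ : ∀ j, IsWeightedHomogeneous w1 (ψ j) (w2 j)) :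
    ∃ P' : Ideal (MvPolynomial J1 ℚ), P'.IsPrime ∧ HomI w1 P' ∧
      ¬ (2 : MvPolynomial ι ℤ) ∣ (polySys w1 hw1).LC P' ∧ P ≤ P' ∧
      (∀ p ∈ Ps, aeval ψ p ∈ P') ∧
      (polySys w1 hw1).c P' ≤ (polySys w1 hw1).c P + (polySys w2 hw2).c Ps := by
  classical
  have hw := sumElim_ne_zero hw1 hw2
  set H := polySys (Sum.elim w1 w2) hw with hH
  have hcard : Fintype.card (J1 ⊕ J2) = Fintype.card J1 + Fintype.card J2 := Fintype.card_sum
  -- Step 1: a good prime over the sum of the extended ideals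
  have hI := homI_sumI hw1 hw2 hPH hPsH
  have hd1 := (polySys w1 hw1).X_pow_dvd_prime hP hPH
  have hd2 := (polySys w2 hw2).X_pow_dvd_prime hPs hPsH
  obtain ⟨Q0, h01, h02, h03, h04, h05⟩ := H.L3
    (Ideal.span {(2 : MvPolynomial ι ℤ)}).toAddSubgroup (sumI P Ps) hI
    ((polySys w1 hw1).c P + (polySys w2 hw2).c Ps)
    (by
      intro Q hQ hQH hle
      have h1 := td_le_add P Ps Q (le_sup_left.trans hle) (le_sup_right.trans hle)
      have h2 := td_le_card P
      have h3 := td_le_card Ps
      simp only [hH, polySys_c]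
      omega)
    (by
      rw [hH, polySys_K, kp_sumI hw1 hw2 hw hPH hPsH, map_mul]
      rw [polySys_K] at hd1 hd2
      rw [coeff_mul_of_dvd hd1 hd2]
      intro h
      have h' : (phi (kp w1 hw1 P)).coeff ((polySys w1 hw1).c P) *
          (phi (kp w2 hw2 Ps)).coeff ((polySys w2 hw2).c Ps) ∈
          Ideal.span {(2 : MvPolynomial ι ℤ)} := h
      rw [Ideal.mem_span_singleton] at h'
      rcases two_prime.dvd_or_dvd h' with h1 | h1
      · exact hPL h1
      · exact hPsL h1)
  have h05' : ¬ (2 : MvPolynomial ι ℤ) ^ (0 + 1) ∣ H.LC Q0 := by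
    rw [zero_add, pow_one]
    intro h
    exact h05 ((Ideal.mem_span_singleton).2 h)
  -- Step 2: cuts
  choose u hu1 hu2 using fun j => exists_val (dotTh_ne_zero (hw2 j))
  obtain ⟨Q, h11, h12, h13, h14, h15, h16⟩ := H.cutFin
    (fun j => (X (Sum.inr j) - rename Sum.inl (ψ j) : MvPolynomial (J1 ⊕ J2) ℚ)) w2
    (by
      intro j
      rw [hH, polySys_Hom]
      have h1 := isWeightedHomogeneous_X ℚ (Sum.elim w1 w2) (Sum.inr j)
      have h2 := rename_inl_hom w1 w2 (hψ j)
      exact (weightedHomogeneousSubmodule ℚ (Sum.elim w1 w2) (w2 j)).sub_mem h1 h2)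
    u hu2 Finset.univ h01 h02 h05'
  have hrel : ∀ j, (X (Sum.inr j) - rename Sum.inl (ψ j) : MvPolynomial (J1 ⊕ J2) ℚ) ∈ Q :=
    fun j => h14 j (Finset.mem_univ j)
  rw [hH, polySys_HI] at h12
  -- Step 3: elimination
  set P' := Q.comap (rename (Sum.inl : J1 → J1 ⊕ J2) : MvPolynomial J1 ℚ →ₐ[ℚ] _) with hP'
  have hP'p : P'.IsPrime := Ideal.IsPrime.comap _
  have hP'H : HomI w1 P' := homI_comap_inl hw1 hw h12
  have htd : td Q = td P' := td_elim Q ψ hrel
  have hkp := kp_elim hw1 hw h12 ψ hrel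
  have h3 := td_le_card P'
  have hc : H.c Q = (polySys w1 hw1).c P' + (Finset.univ : Finset J2).card := by
    rw [hH, polySys_c, polySys_c, hcard, htd, Finset.card_univ]
    omega
  have hLC : H.LC Q = (polySys w1 hw1).LC P' * ∏ j, dotTh (w2 j) := by
    have h4 := (polySys w1 hw1).X_pow_dvd_prime hP'p hP'H
    have h5 := phi_prod_coeff (Finset.univ : Finset J2) w2
    unfold HSys.LC
    rw [hc]
    rw [hH, polySys_K, hkp, map_mul, ← h5.1]
    rw [polySys_K] at h4
    exact coeff_mul_of_dvd h4 (Polynomial.X_pow_dvd_iff.2 h5.2)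
  refine ⟨P', hP'p, hP'H, ?_, ?_, ?_, ?_⟩
  · intro h2
    apply h16
    rw [hLC, zero_add, pow_succ']
    refine mul_dvd_mul h2 ?_
    rw [← Finset.prod_pow_eq_pow_sum]
    exact Finset.prod_dvd_prod_of_dvd _ _ fun j _ => hu1 j
  · intro p hp
    rw [hP', Ideal.mem_comap]
    exact h13 (h03 (Ideal.mem_sup_left (Ideal.mem_map_of_mem _ hp)))
  · intro p hp
    rw [hP', Ideal.mem_comap]
    have h4 : rename Sum.inr p ∈ Q :=
      h13 (h03 (Ideal.mem_sup_right (Ideal.mem_map_of_mem _ hp)))
    have h5 := sub_mem_of_rel Q ψ hrel (rename Sum.inr p)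
    rw [aeval_rename] at h5
    have h6 := Ideal.sub_mem _ h4 h5
    rw [sub_sub_cancel] at h6
    exact h6
  · rw [hc] at h15
    rw [← h04]
    omega

end P199H
end
end

section

section

/-!
# P199, blueprint H: the polynomial rings used in L6 and L8

* `D0` the degree `(2, …, 2)`;
* `Jz K`, `wz r`, `sz`, `zgen`: the variables `z_g` (`g ≠ 0`), `s_i`, their weights
  (`r D0 - g`, `2 e_i`) and the generic element `z = ∑ z_g X^g`;
* `J0 K`, `w0`, `s0`, `xgen`, `ygen`: the variables `x_g`, `y_g` (all `g`), `s_i`, their weights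
  (`D0 - g`, `2 e_i`) and the generic elements.
-/

set_option linter.all false

namespace P199H

variable {K : ℕ}

/-- The degree `(2, …, 2)`. -/
noncomputable def D0 : Ix K →₀ ℕ := Finsupp.equivFunOnFinite.symm fun _ => 2

@[simp] theorem D0_apply (i : Ix K) : (D0 : Ix K →₀ ℕ) i = 2 := rfl

theorem gval_le_smul_D0 (g : Gam K) {r : ℕ} (hr : 1 ≤ r) : gval g ≤ r • (D0 : Ix K →₀ ℕ) := by
  rw [Finsupp.le_def]
  intro i
  rw [gval_apply, Finsupp.smul_apply, D0_apply, smul_eq_mul]
  have := ZMod.val_lt (g i)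
  omega

theorem D0_eq_sum : (D0 : Ix K →₀ ℕ) = ∑ i : Ix K, Finsupp.single i 2 := by
  ext i
  rw [Finsupp.finset_sum_apply, D0_apply, Finset.sum_eq_single i]
  · simp
  · intro b _ hb
    rw [Finsupp.single_apply, if_neg hb]
  · intro h
    exact absurd (Finset.mem_univ _) h

theorem smul_D0_sub_ne_zero (g : Gam K) {r : ℕ} (hr : 1 ≤ r) (hK : 0 < K) :
    r • (D0 : Ix K →₀ ℕ) - gval g ≠ 0 := by
  intro h
  have h1 := DFunLike.congr_fun h (Sum.inl ⟨0, hK⟩)
  rw [Finsupp.tsub_apply, Finsupp.smul_apply, D0_apply, gval_apply, smul_eq_mul,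
    Finsupp.zero_apply] at h1
  have := ZMod.val_lt (g (Sum.inl ⟨0, hK⟩))
  omega

section z

/-- The variables `z_g` (`g ≠ 0`) and `s_i`. -/
abbrev Jz (K : ℕ) : Type := {g : Gam K // g ≠ 0} ⊕ Ix K

/-- The weights of `z_g` and `s_i`. -/
noncomputable def wz (r : ℕ) : Jz K → (Ix K →₀ ℕ) :=
  Sum.elim (fun g => r • D0 - gval g.1) (fun i => Finsupp.single i 2)

@[simp] theorem wz_inl (r : ℕ) (g : {g : Gam K // g ≠ 0}) :
    wz r (Sum.inl g) = r • D0 - gval g.1 := rfl

@[simp] theorem wz_inr (r : ℕ) (i : Ix K) : wz r (Sum.inr i) = Finsupp.single i 2 := rfl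

theorem pos_of_ix (i : Ix K) : 0 < K := by
  rcases i with i | i <;> exact lt_of_le_of_lt (Nat.zero_le _) i.2

theorem pos_of_ne_zero {g : Gam K} (h : g ≠ 0) : 0 < K := by
  obtain ⟨i, _⟩ := Function.ne_iff.mp h
  exact pos_of_ix i

theorem wz_ne_zero {r : ℕ} (hr : 1 ≤ r) (j : Jz K) : wz r j ≠ 0 := by
  rcases j with g | i
  · exact smul_D0_sub_ne_zero _ hr (pos_of_ne_zero g.2)
  · rw [wz_inr]
    intro h
    have := DFunLike.congr_fun h i
    simp at this

/-- The variables `s_i`. -/
noncomputable def sz (i : Ix K) : MvPolynomial (Jz K) ℚ := MvPolynomial.X (Sum.inr i)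

open Classical in
/-- The generic element `z = ∑_{g ≠ 0} z_g X^g`. -/
noncomputable def zgen : Tw K (MvPolynomial (Jz K) ℚ) sz :=
  fun g => if h : g = 0 then 0 else MvPolynomial.X (Sum.inl ⟨g, h⟩)

theorem zgen_zero : (zgen : Tw K (MvPolynomial (Jz K) ℚ) sz) 0 = 0 := by
  simp [zgen]

theorem zgen_apply {g : Gam K} (h : g ≠ 0) :
    (zgen : Tw K (MvPolynomial (Jz K) ℚ) sz) g = MvPolynomial.X (Sum.inl ⟨g, h⟩) := by
  simp [zgen, h]

end z

section xy

/-- The variables `x_g`, `y_g` (all `g`) and `s_i`. -/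
abbrev J0 (K : ℕ) : Type := (Gam K ⊕ Gam K) ⊕ Ix K

/-- The weights of `x_g`, `y_g` and `s_i`. -/
noncomputable def w0 : J0 K → (Ix K →₀ ℕ) :=
  Sum.elim (Sum.elim (fun g => D0 - gval g) (fun g => D0 - gval g)) (fun i => Finsupp.single i 2)

@[simp] theorem w0_x (g : Gam K) : w0 (Sum.inl (Sum.inl g)) = D0 - gval g := rfl
@[simp] theorem w0_y (g : Gam K) : w0 (Sum.inl (Sum.inr g)) = D0 - gval g := rfl
@[simp] theorem w0_s (i : Ix K) : w0 (Sum.inr i) = Finsupp.single i 2 := rfl

theorem w0_ne_zero (hK : 0 < K) (j : J0 K) : w0 j ≠ 0 := by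
  rcases j with (g | g) | i
  · have := smul_D0_sub_ne_zero g (le_refl 1) hK
    rwa [one_smul] at this
  · have := smul_D0_sub_ne_zero g (le_refl 1) hK
    rwa [one_smul] at this
  · rw [w0_s]
    intro h
    have := DFunLike.congr_fun h i
    simp at this

/-- The variables `s_i`. -/
noncomputable def s0 (i : Ix K) : MvPolynomial (J0 K) ℚ := MvPolynomial.X (Sum.inr i)

/-- The generic element `x`. -/
noncomputable def xgen : Tw K (MvPolynomial (J0 K) ℚ) s0 :=
  fun g => MvPolynomial.X (Sum.inl (Sum.inl g))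

/-- The generic element `y`. -/
noncomputable def ygen : Tw K (MvPolynomial (J0 K) ℚ) s0 :=
  fun g => MvPolynomial.X (Sum.inl (Sum.inr g))

/-- The product of all `s_i`. -/
noncomputable def sigma0 : MvPolynomial (J0 K) ℚ := ∏ i : Ix K, s0 i

theorem card_J0 : Fintype.card (J0 K) = 2 * 2 ^ (2 * K) + 2 * K := by
  simp only [Fintype.card_sum, Tw.card_Gam, Fintype.card_fin]
  ring

end xy

end P199H
end
end

section

section

/-!
# Formal trace polynomials in two noncommuting variables (P199, blueprint H)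
-/

namespace Vale.Agent.P199.H

/-- Formal trace polynomials in two noncommuting variables `x`, `y` with rational
coefficients. -/
inductive TExp : Type
  | x : TExp
  | y : TExp
  | const (q : ℚ) : TExp
  | add (a b : TExp) : TExp
  | mul (a b : TExp) : TExp
  | tr (a : TExp) : TExp
  deriving Countable

namespace TExp

instance : Infinite TExp :=
  Infinite.of_injective (fun n : ℕ => TExp.const (n : ℚ)) (by
    intro a b h
    simpa using h)

instance : Nonempty TExp := ⟨TExp.x⟩

/-- Evaluation of a trace polynomial in a ring `D` with a trace map `t : D → D`. -/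
def eval {D : Type*} [Ring D] [Algebra ℚ D] (t : D → D) (u v : D) : TExp → D
  | .x => u
  | .y => v
  | .const q => algebraMap ℚ D q
  | .add a b => eval t u v a + eval t u v b
  | .mul a b => eval t u v a * eval t u v b
  | .tr a => t (eval t u v a)

section

variable {D : Type*} [Ring D] [Algebra ℚ D] (t : D → D) (u v : D)

@[simp] lemma eval_x : eval t u v .x = u := rfl
@[simp] lemma eval_y : eval t u v .y = v := rfl
@[simp] lemma eval_const (q : ℚ) : eval t u v (.const q) = algebraMap ℚ D q := rfl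
@[simp] lemma eval_add (a b : TExp) :
    eval t u v (.add a b) = eval t u v a + eval t u v b := rfl
@[simp] lemma eval_mul (a b : TExp) :
    eval t u v (.mul a b) = eval t u v a * eval t u v b := rfl
@[simp] lemma eval_tr (a : TExp) : eval t u v (.tr a) = t (eval t u v a) := rfl

/-- The set of values of trace polynomials is closed under the ring operations, the trace and
multiplication by rationals, and contains `u`, `v`. -/
lemma one_mem_range : (1 : D) ∈ Set.range (eval t u v) := ⟨.const 1, by simp⟩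

lemma range_add {a b : D} (ha : a ∈ Set.range (eval t u v)) (hb : b ∈ Set.range (eval t u v)) :
    a + b ∈ Set.range (eval t u v) := by
  obtain ⟨p, rfl⟩ := ha
  obtain ⟨q, rfl⟩ := hb
  exact ⟨.add p q, rfl⟩

lemma range_mul {a b : D} (ha : a ∈ Set.range (eval t u v)) (hb : b ∈ Set.range (eval t u v)) :
    a * b ∈ Set.range (eval t u v) := by
  obtain ⟨p, rfl⟩ := ha
  obtain ⟨q, rfl⟩ := hb
  exact ⟨.mul p q, rfl⟩

lemma range_tr {a : D} (ha : a ∈ Set.range (eval t u v)) :
    t a ∈ Set.range (eval t u v) := by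
  obtain ⟨p, rfl⟩ := ha
  exact ⟨.tr p, rfl⟩

lemma range_neg {a : D} (ha : a ∈ Set.range (eval t u v)) :
    -a ∈ Set.range (eval t u v) := by
  obtain ⟨p, rfl⟩ := ha
  exact ⟨.mul (.const (-1)) p, by simp⟩

/-- The subring of values. -/
def values : Subring D where
  carrier := Set.range (eval t u v)
  mul_mem' ha hb := range_mul t u v ha hb
  one_mem' := one_mem_range t u v
  add_mem' ha hb := range_add t u v ha hb
  zero_mem' := ⟨.const 0, by simp⟩
  neg_mem' ha := range_neg t u v ha

lemma x_mem_values : u ∈ values t u v := ⟨.x, rfl⟩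
lemma y_mem_values : v ∈ values t u v := ⟨.y, rfl⟩
lemma tr_mem_values {a : D} (ha : a ∈ values t u v) : t a ∈ values t u v := range_tr t u v ha

/-- Evaluation is natural for ring homomorphisms compatible with the traces. -/
lemma map_eval {D' : Type*} [Ring D'] [Algebra ℚ D'] (t' : D' → D') (f : D →+* D')
    (hf : ∀ a, f (t a) = t' (f a)) (p : TExp) :
    f (eval t u v p) = eval t' (f u) (f v) p := by
  induction p with
  | x => rfl
  | y => rfl
  | const q => simp
  | add a b iha ihb => simp [iha, ihb]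
  | mul a b iha ihb => simp [iha, ihb]
  | tr a iha => simp [hf, iha]

end

end TExp

end Vale.Agent.P199.H
end
end

section

section

/-!
# P199, blueprint H: linear dependence and vanishing minors

* `minors_of_dep` : over a domain a nontrivial relation between `d + 1` vectors kills all the
  `(d+1)`-minors of their coordinate matrix;
* `dep_of_minors` : over a field the converse;
* `PolyRel D d w` : `w` is a root of a nonzero polynomial of degree `≤ d` over `L`, with the
  transfer lemmas (scaling, shift).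
-/

set_option linter.all false

namespace P199H

open Matrix

theorem minors_of_dep {B : Type*} [CommRing B] [IsDomain B] {G : Type*} {n : ℕ}
    (v : Fin n → G → B) (c : Fin n → B) (hc : c ≠ 0)
    (h : ∀ g, ∑ i, c i * v i g = 0) (e : Fin n → G) :
    (Matrix.of fun a b => v b (e a)).det = 0 := by
  rw [← Matrix.exists_mulVec_eq_zero_iff]
  refine ⟨c, hc, ?_⟩
  funext a
  simp only [Matrix.mulVec, dotProduct, Matrix.of_apply, Pi.zero_apply]
  rw [← h (e a)]
  exact Finset.sum_congr rfl fun i _ => mul_comm _ _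

theorem dep_of_minors {L : Type*} [Field L] {G : Type*} [Finite G] {n : ℕ}
    (v : Fin n → G → L) (h : ∀ e : Fin n → G, (Matrix.of fun a b => v b (e a)).det = 0) :
    ∃ c : Fin n → L, c ≠ 0 ∧ ∀ g, ∑ i, c i * v i g = 0 := by
  classical
  have := Fintype.ofFinite G
  by_contra hcon
  -- the rows span
  let r : G → (Fin n → L) := fun g i => v i g
  have hspan : Submodule.span L (Set.range r) = ⊤ := by
    by_contra hne
    obtain ⟨f, hf, hfs⟩ := Submodule.exists_le_ker_of_lt_top _ (lt_top_iff_ne_top.2 hne)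
    apply hcon
    refine ⟨fun i => f (Pi.single i 1), ?_, ?_⟩
    · intro h0
      apply hf
      apply LinearMap.pi_ext'
      intro i
      ext
      simpa using congrFun h0 i
    · intro g
      have h1 : f (r g) = 0 := hfs (Submodule.subset_span ⟨g, rfl⟩)
      have h2 : r g = ∑ i, (v i g) • (Pi.single i (1 : L) : Fin n → L) := by
        funext j
        simp [r, Finset.sum_apply, Pi.single_apply]
      rw [h2, map_sum] at h1
      rw [← h1]
      refine Finset.sum_congr rfl fun i _ => ?_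
      rw [map_smul, smul_eq_mul, mul_comm]
  -- choose a basis among the rows
  obtain ⟨κ, a, ha, hsp, hli⟩ := exists_linearIndependent' L r
  have := Fintype.ofInjective a ha
  rw [hspan] at hsp
  let b : Module.Basis κ L (Fin n → L) := Module.Basis.mk hli hsp.ge
  have hcard : Fintype.card κ = n := by
    have := Module.finrank_eq_card_basis b
    rw [Module.finrank_fin_fun] at this
    exact this.symm
  let e' : Fin n ≃ κ := (Fintype.equivFinOfCardEq hcard).symm
  have h1 := h (fun i => a (e' i))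
  have h2 : LinearIndependent L (fun i => r (a (e' i))) := hli.comp e' e'.injective
  have h3 : IsUnit (Matrix.of fun x y => v y (a (e' x))) := by
    rw [← Matrix.linearIndependent_rows_iff_isUnit]
    exact h2
  rw [Matrix.isUnit_iff_isUnit_det, h1] at h3
  exact not_isUnit_zero h3

section PolyRel

open Polynomial

variable {L D : Type*} [Field L] [Ring D] [Algebra L D]

/-- `w` is a root of a nonzero polynomial of degree at most `d`. -/
def PolyRel (L : Type*) {D : Type*} [Field L] [Ring D] [Algebra L D] (d : ℕ) (w : D) : Prop :=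
  ∃ p : L[X], p ≠ 0 ∧ p.natDegree ≤ d ∧ aeval w p = 0

theorem polyRel_iff (d : ℕ) (w : D) :
    PolyRel L d w ↔ ∃ c : Fin (d + 1) → L, c ≠ 0 ∧ ∑ i, c i • w ^ (i : ℕ) = 0 := by
  constructor
  · rintro ⟨p, hp, hd, hw⟩
    refine ⟨fun i => p.coeff i, ?_, ?_⟩
    · intro h0
      apply hp
      ext i
      rw [coeff_zero]
      rcases lt_or_ge i (d + 1) with h | h
      · exact congrFun h0 ⟨i, h⟩
      · exact coeff_eq_zero_of_natDegree_lt (by omega)
    · rw [aeval_eq_sum_range' (n := d + 1) (by omega), Finset.sum_range] at hw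
      exact hw
  · rintro ⟨c, hc, h⟩
    refine ⟨∑ i : Fin (d + 1), C (c i) * X ^ (i : ℕ), ?_, ?_, ?_⟩
    · intro h0
      apply hc
      funext j
      have h1 := congrArg (fun q : L[X] => q.coeff j) h0
      simp only [finsetSum_coeff, coeff_C_mul, coeff_X_pow, coeff_zero] at h1
      rw [Finset.sum_eq_single j] at h1
      · simpa using h1
      · intro b _ hb
        have : (j : ℕ) ≠ b := fun h => hb (Fin.ext h.symm)
        simp [this]
      · intro h
        exact absurd (Finset.mem_univ _) h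
    · refine natDegree_sum_le_of_forall_le _ _ fun i _ => ?_
      exact (natDegree_C_mul_X_pow_le _ _).trans (by omega)
    · rw [map_sum, ← h]
      refine Finset.sum_congr rfl fun i _ => ?_
      rw [map_mul, aeval_C, map_pow, aeval_X, Algebra.smul_def]

/-- Shift by a scalar. -/
theorem PolyRel.of_sub {d : ℕ} {w : D} (a : L) (h : PolyRel L d (w - algebraMap L D a)) :
    PolyRel L d w := by
  obtain ⟨p, h1, h2, h3⟩ := h
  refine ⟨p.comp (X - C a), ?_, ?_, ?_⟩
  · intro h0
    apply h1
    have := congrArg (fun q : L[X] => q.comp (X + C a)) h0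
    simp only [comp_assoc, sub_comp, X_comp, C_comp, add_sub_cancel_right, comp_X, zero_comp]
      at this
    exact this
  · rw [natDegree_comp, natDegree_X_sub_C, mul_one]
    exact h2
  · rw [aeval_comp, map_sub, aeval_X, aeval_C]
    exact h3

/-- Scaling by a nonzero scalar. -/
theorem PolyRel.of_smul {d : ℕ} {w : D} {a : L} (ha : a ≠ 0) (h : PolyRel L d (a • w)) :
    PolyRel L d w := by
  obtain ⟨p, h1, h2, h3⟩ := h
  refine ⟨p.comp (C a * X), ?_, ?_, ?_⟩
  · intro h0
    apply h1
    have := congrArg (fun q : L[X] => q.comp (C a⁻¹ * X)) h0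
    simp only [comp_assoc, mul_comp, X_comp, C_comp, zero_comp] at this
    rw [← mul_assoc, ← C_mul, mul_inv_cancel₀ ha, C_1, one_mul, comp_X] at this
    exact this
  · refine (natDegree_comp_le).trans ?_
    refine (Nat.mul_le_mul h2 (show (C a * X).natDegree ≤ 1 from (natDegree_C_mul_le _ _).trans natDegree_X_le)).trans ?_
    omega
  · rw [aeval_comp, map_mul, aeval_X, aeval_C, ← Algebra.smul_def]
    exact h3

end PolyRel

end P199H
end
end

section

section

/-!
# P199, blueprint H: homogenisation of trace polynomials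

For a trace expression `e` and elements `σ : R`, `u v : Tw K R s` the element `hz σ u v e` is
`σ ^ (ex e) • e (σ⁻¹ u, σ⁻¹ v)`, and it is homogeneous of degree `(ex e) D0` if `σ, u, v` are
homogeneous of degree `D0`.
-/

set_option linter.all false

namespace P199H

open Vale.Agent.P199.H (TExp)

/-- exponents -/
def ex : TExp → ℕ
  | .x => 1
  | .y => 1
  | .const _ => 0
  | .add a b => ex a + ex b
  | .mul a b => ex a + ex b
  | .tr a => ex a

section

variable {K : ℕ} {R : Type*} [CommRing R] [Algebra ℚ R] {s : Ix K → R}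

/-- the homogenised trace expression -/
noncomputable def hz (σ : R) (u v : Tw K R s) : TExp → Tw K R s
  | .x => u
  | .y => v
  | .const q => algebraMap R _ (algebraMap ℚ R q)
  | .add a b => σ ^ ex b • hz σ u v a + σ ^ ex a • hz σ u v b
  | .mul a b => hz σ u v a * hz σ u v b
  | .tr a => algebraMap R _ (Tw.tau (hz σ u v a))

theorem hz_hom (H : HomSys s) {δ : Ix K →₀ ℕ} (hq : ∀ q : ℚ, H.Hm 0 (algebraMap ℚ R q))
    {σ : R} (hσ : H.Hm δ σ) {u v : Tw K R s} (hu : H.TwH δ u) (hv : H.TwH δ v) (e : TExp) :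
    H.TwH (ex e • δ) (hz σ u v e) := by
  have hpow : ∀ n : ℕ, H.Hm (n • δ) (σ ^ n) := by
    intro n
    induction n with
    | zero => rw [pow_zero, zero_smul]; exact H.one
    | succ n ih => rw [pow_succ, succ_nsmul]; exact H.mul ih hσ
  induction e with
  | x => simpa [hz, ex] using hu
  | y => simpa [hz, ex] using hv
  | const q =>
    have := HomSys.TwH.algebraMap (H := H) (hq q)
    simpa [hz, ex] using this
  | add a b iha ihb =>
    have h1 := HomSys.TwH.smul (hpow (ex b)) iha
    have h2 := HomSys.TwH.smul (hpow (ex a)) ihb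
    rw [← add_smul] at h1 h2
    rw [add_comm (ex b) (ex a)] at h1
    exact h1.add h2
  | mul a b iha ihb =>
    have h1 := iha.mul ihb
    rw [← add_smul] at h1
    exact h1
  | tr a iha =>
    exact HomSys.TwH.algebraMap iha.tau

theorem map_hz {R' : Type*} [CommRing R'] [Algebra ℚ R'] {s' : Ix K → R'} (φ : R →+* R')
    (hs : ∀ i, φ (s i) = s' i) (σ : R) (u v : Tw K R s) (e : TExp) :
    Tw.map φ hs (hz σ u v e) = hz (φ σ) (Tw.map φ hs u) (Tw.map φ hs v) e := by
  induction e with
  | x => rfl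
  | y => rfl
  | const q =>
    simp only [hz]
    rw [Tw.map_algebraMap]
    congr 1
    have : φ.comp (algebraMap ℚ R) = algebraMap ℚ R' := RingHom.ext_rat _ _
    exact congrArg (fun f : ℚ →+* R' => f q) this
  | add a b iha ihb =>
    simp only [hz]
    rw [map_add, Tw.map_smul, Tw.map_smul, iha, ihb, map_pow, map_pow]
  | mul a b iha ihb =>
    simp only [hz]
    rw [map_mul, iha, ihb]
  | tr a iha =>
    simp only [hz]
    rw [Tw.map_algebraMap, ← Tw.tau_map φ hs, iha]

theorem hz_eval [Algebra ℚ (Tw K R s)] (σ : R) (u v : Tw K R s) (e : TExp) :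
    hz σ (σ • u) (σ • v) e =
      σ ^ ex e • TExp.eval (fun w => algebraMap R (Tw K R s) (Tw.tau w)) u v e := by
  induction e with
  | x => simp [hz, ex]
  | y => simp [hz, ex]
  | const q =>
    simp only [hz, ex, TExp.eval, pow_zero, one_smul]
    have : (algebraMap R (Tw K R s)).comp (algebraMap ℚ R) = algebraMap ℚ (Tw K R s) :=
      RingHom.ext_rat _ _
    exact congrArg (fun f : ℚ →+* Tw K R s => f q) this
  | add a b iha ihb =>
    simp only [hz, ex, TExp.eval]
    rw [iha, ihb, smul_smul, smul_smul, smul_add, ← pow_add, ← pow_add, add_comm (ex b)]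
  | mul a b iha ihb =>
    simp only [hz, ex, TExp.eval]
    rw [iha, ihb, smul_mul_assoc, mul_smul_comm, smul_smul, ← pow_add]
  | tr a iha =>
    simp only [hz, ex, TExp.eval]
    rw [iha, map_smul, smul_eq_mul, map_mul, Algebra.smul_def]

/-- a trace expression evaluated at `0, 0` is a scalar -/
theorem eval_zero_zero [Algebra ℚ (Tw K R s)] (e : TExp) :
    ∃ a : R, TExp.eval (fun w => algebraMap R (Tw K R s) (Tw.tau w)) 0 0 e =
      algebraMap R (Tw K R s) a := by
  induction e with
  | x => exact ⟨0, by simp [TExp.eval]⟩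
  | y => exact ⟨0, by simp [TExp.eval]⟩
  | const q =>
    refine ⟨algebraMap ℚ R q, ?_⟩
    simp only [TExp.eval]
    have : (algebraMap R (Tw K R s)).comp (algebraMap ℚ R) = algebraMap ℚ (Tw K R s) :=
      RingHom.ext_rat _ _
    exact congrArg (fun f : ℚ →+* Tw K R s => f q) this.symm
  | add a b iha ihb =>
    obtain ⟨c, hc⟩ := iha
    obtain ⟨c', hc'⟩ := ihb
    exact ⟨c + c', by simp only [TExp.eval]; rw [hc, hc', map_add]⟩
  | mul a b iha ihb =>
    obtain ⟨c, hc⟩ := iha
    obtain ⟨c', hc'⟩ := ihb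
    exact ⟨c * c', by simp only [TExp.eval]; rw [hc, hc', map_mul]⟩
  | tr a iha =>
    exact ⟨_, rfl⟩

end

section S0

variable {K : ℕ}

/-- the homogeneity system of the base ring -/
noncomputable def H0 : HomSys (K := K) s0 := polyHomSys w0 Sum.inr (fun _ => rfl)

theorem H0_Hm (d : Ix K →₀ ℕ) (p : MvPolynomial (J0 K) ℚ) :
    (H0 (K := K)).Hm d p ↔ MvPolynomial.IsWeightedHomogeneous w0 p d := Iff.rfl

theorem sigma0_hom : (H0 (K := K)).Hm D0 sigma0 := by
  rw [D0_eq_sum]
  exact H0.prod _ _ _ fun i _ => H0.s_hom i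

theorem xgen_hom : (H0 (K := K)).TwH D0 xgen := by
  intro g
  right
  refine ⟨D0 - gval g, ?_, ?_⟩
  · have := gval_le_smul_D0 g (le_refl 1)
    rw [one_smul] at this
    exact tsub_add_cancel_of_le this
  · rw [H0_Hm]
    exact MvPolynomial.isWeightedHomogeneous_X ℚ w0 (Sum.inl (Sum.inl g))

theorem ygen_hom : (H0 (K := K)).TwH D0 ygen := by
  intro g
  right
  refine ⟨D0 - gval g, ?_, ?_⟩
  · have := gval_le_smul_D0 g (le_refl 1)
    rw [one_smul] at this
    exact tsub_add_cancel_of_le this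
  · rw [H0_Hm]
    exact MvPolynomial.isWeightedHomogeneous_X ℚ w0 (Sum.inl (Sum.inr g))

/-- the homogenised trace expression, with exponent at least one -/
noncomputable def Fe (K : ℕ) (e : TExp) : Tw K (MvPolynomial (J0 K) ℚ) s0 :=
  (sigma0 : MvPolynomial (J0 K) ℚ) • hz sigma0 xgen ygen e

theorem Fe_hom (e : TExp) : (H0 (K := K)).TwH ((ex e + 1) • D0) (Fe K e) := by
  have h := hz_hom (H0 (K := K)) (δ := D0)
    (fun q => by
      rw [H0_Hm]
      exact MvPolynomial.isWeightedHomogeneous_C w0 q)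
    sigma0_hom xgen_hom ygen_hom e
  have := HomSys.TwH.smul sigma0_hom h
  rwa [← succ_nsmul'] at this

theorem Fe_comp (e : TExp) (g : Gam K) :
    MvPolynomial.IsWeightedHomogeneous w0 (Fe K e g) ((ex e + 1) • D0 - gval g) := by
  rcases Fe_hom e g with h | ⟨d, hd, h⟩
  · rw [h]
    exact MvPolynomial.isWeightedHomogeneous_zero ℚ w0 _
  · rw [H0_Hm] at h
    rw [← hd, add_tsub_cancel_right]
    exact h

/-- the substitution `z_g ↦ (Fe e)_g`, `s_i ↦ s_i` -/
noncomputable def psi (e : TExp) : Jz K → MvPolynomial (J0 K) ℚ :=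
  Sum.elim (fun g => Fe K e g.1) s0

theorem psi_hom (e : TExp) (j : Jz K) :
    MvPolynomial.IsWeightedHomogeneous w0 (psi e j) (wz (ex e + 1) j) := by
  rcases j with g | i
  · exact Fe_comp e g.1
  · exact MvPolynomial.isWeightedHomogeneous_X ℚ w0 (Sum.inr i)

theorem aeval_psi_sz (e : TExp) (i : Ix K) :
    (MvPolynomial.aeval (psi e) : MvPolynomial (Jz K) ℚ →ₐ[ℚ] MvPolynomial (J0 K) ℚ).toRingHom
      (sz i) = s0 i := by
  simp [sz, psi]

theorem map_zgen (e : TExp) :
    Tw.map (MvPolynomial.aeval (psi e) :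
      MvPolynomial (Jz K) ℚ →ₐ[ℚ] MvPolynomial (J0 K) ℚ).toRingHom (aeval_psi_sz e) zgen =
      Fe K e - algebraMap (MvPolynomial (J0 K) ℚ) _ (Tw.tau (Fe K e)) := by
  ext g
  rw [Tw.map_apply, Tw.sub_apply, Tw.algebraMap_apply]
  by_cases hg : g = 0
  · subst hg
    rw [zgen_zero, map_zero, if_pos rfl, Tw.tau_apply, sub_self]
  · rw [zgen_apply hg, if_neg hg, sub_zero]
    simp [psi]

/-- evaluation of `Fe` in a field -/
theorem map_Fe (e : TExp) {L : Type} [Field L] [Algebra ℚ L]
    (φ : MvPolynomial (J0 K) ℚ →+* L) [Algebra ℚ (Tw K L (fun i => φ (s0 i)))]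
    (hσ : φ sigma0 ≠ 0) :
    Tw.map φ (fun _ => rfl) (Fe K e) = φ sigma0 ^ (ex e + 1) •
      TExp.eval (fun v => algebraMap L (Tw K L (fun i => φ (s0 i))) (Tw.tau v))
      ((φ sigma0)⁻¹ • Tw.map φ (fun _ => rfl) xgen)
      ((φ sigma0)⁻¹ • Tw.map φ (fun _ => rfl) ygen) e := by
  have h1 := hz_eval (φ sigma0)
    ((φ sigma0)⁻¹ • Tw.map φ (fun _ => rfl) xgen : Tw K L (fun i => φ (s0 i)))
    ((φ sigma0)⁻¹ • Tw.map φ (fun _ => rfl) ygen) e
  rw [smul_inv_smul₀ hσ, smul_inv_smul₀ hσ] at h1
  rw [pow_succ', mul_smul, ← h1, Fe, Tw.map_smul, map_hz]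

/-- If the minors of `1, z, …, z^d` are killed by `φ` after the substitution, then the value of
the trace polynomial satisfies a relation of degree `≤ d`. -/
theorem polyRel_of_minors (e : TExp) (d : ℕ) {L : Type} [Field L] [Algebra ℚ L]
    (φ : MvPolynomial (J0 K) ℚ →+* L) [Algebra ℚ (Tw K L (fun i => φ (s0 i)))] (hd : 1 ≤ d)
    (h : ∀ f : Fin (d + 1) → Gam K,
      φ ((MvPolynomial.aeval (psi e) : MvPolynomial (Jz K) ℚ →ₐ[ℚ] MvPolynomial (J0 K) ℚ)
        (Matrix.of fun a b : Fin (d + 1) => (zgen ^ (b : ℕ) : Tw K _ sz) (f a)).det) = 0) :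
    PolyRel L d (TExp.eval (fun v => algebraMap L (Tw K L (fun i => φ (s0 i))) (Tw.tau v))
      ((φ sigma0)⁻¹ • Tw.map φ (fun _ => rfl) xgen)
      ((φ sigma0)⁻¹ • Tw.map φ (fun _ => rfl) ygen) e) := by
  by_cases hσ : φ sigma0 = 0
  · rw [hσ, inv_zero, zero_smul, zero_smul]
    obtain ⟨a, ha⟩ := eval_zero_zero (K := K) (s := fun i => φ (s0 i)) e
    rw [ha]
    refine ⟨Polynomial.X - Polynomial.C a, Polynomial.X_sub_C_ne_zero a, ?_, ?_⟩
    · rw [Polynomial.natDegree_X_sub_C]
      exact hd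
    · rw [map_sub, Polynomial.aeval_X, Polynomial.aeval_C, sub_self]
  · have h1 := map_Fe e φ hσ
    apply PolyRel.of_smul (pow_ne_zero (ex e + 1) hσ)
    rw [← h1]
    apply PolyRel.of_sub (φ (Tw.tau (Fe K e)))
    -- the shifted element is the image of `z`
    set ψ : MvPolynomial (Jz K) ℚ →+* MvPolynomial (J0 K) ℚ :=
      (MvPolynomial.aeval (psi e) : MvPolynomial (Jz K) ℚ →ₐ[ℚ] MvPolynomial (J0 K) ℚ).toRingHom
      with hψ
    have h2 : Tw.map φ (fun _ => rfl) (Fe K e) - algebraMap L (Tw K L (fun i => φ (s0 i)))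
        (φ (Tw.tau (Fe K e))) = Tw.map (φ.comp ψ)
          (fun i => by rw [RingHom.comp_apply, hψ, aeval_psi_sz]) zgen := by
      have h3 := congrArg (Tw.map φ (s' := fun i => φ (s0 i)) (fun _ => rfl)) (map_zgen (K := K) e)
      rw [map_sub, Tw.map_algebraMap] at h3
      rw [← h3]
      rfl
    rw [h2]
    set z' : Tw K L (fun i => φ (s0 i)) := Tw.map (φ.comp ψ)
          (fun i => by rw [RingHom.comp_apply, hψ, aeval_psi_sz]) zgen with hz'
    obtain ⟨c, hc0, hc⟩ := dep_of_minors (L := L) (G := Gam K) (n := d + 1)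
      (fun b g => (z' ^ (b : ℕ)) g) (by
        intro f
        rw [← h f]
        change _ = (φ.comp ψ) _
        rw [RingHom.map_det]
        congr 1
        ext a b
        simp only [Matrix.of_apply, RingHom.mapMatrix_apply, Matrix.map_apply]
        rw [hz', ← map_pow]
        rfl)
    rw [polyRel_iff]
    refine ⟨c, hc0, ?_⟩
    ext g
    rw [Tw.sum_apply, Tw.zero_apply, ← hc g]
    rfl

end S0

end P199H
end
end

section

section

/-!
# P199, blueprint H: assembly of L8

`L6Stmt K` is the output of L6.  `L8_of_L6 : L6Stmt K → …`.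
-/

set_option linter.all false

namespace P199H

open MvPolynomial
open Vale.Agent.P199.H (TExp)

/-- The output of L6. -/
def L6Stmt (K : ℕ) : Prop :=
  ∀ (a r : ℕ), 1 ≤ a → a ≤ K → ∀ hr : 1 ≤ r, ∃ Ps : Ideal (MvPolynomial (Jz K) ℚ),
    Ps.IsPrime ∧ HomI (wz r) Ps ∧
    ¬ (2 : MvPolynomial (Ix K) ℤ) ∣ (polySys (wz r) (wz_ne_zero hr)).LC Ps ∧
    (polySys (wz r) (wz_ne_zero hr)).c Ps ≤ 2 ^ (2 * K - a) ∧
    ∀ f : Fin (2 ^ a + 1) → Gam K,
      (Matrix.of fun i j : Fin (2 ^ a + 1) => (zgen ^ (j : ℕ) : Tw K _ sz) (f i)).det ∈ Ps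

theorem sum_bound (K m : ℕ) (h : m + 2 ≤ 2 * K) :
    (∑ j ∈ Finset.range m, 2 ^ (2 * K - (j + 3))) + 2 ^ (2 * K - (m + 2)) ≤ 2 ^ (2 * K - 2) := by
  induction m with
  | zero => simp
  | succ m ih =>
    have h1 := ih (by omega)
    rw [Finset.sum_range_succ]
    have h2 : 2 ^ (2 * K - (m + 2)) = 2 ^ (2 * K - (m + 3)) + 2 ^ (2 * K - (m + 1 + 2)) := by
      have : 2 * K - (m + 2) = (2 * K - (m + 3)) + 1 := by omega
      rw [this, pow_succ]
      have : m + 1 + 2 = m + 3 := by omega
      rw [this]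
      ring
    omega

variable {K : ℕ}

theorem L8_induction (hK : 0 < K) (h6 : L6Stmt K) (Φ : ℕ → TExp) (m : ℕ) (hm : m + 2 ≤ K) :
    ∃ P : Ideal (MvPolynomial (J0 K) ℚ), P.IsPrime ∧ HomI w0 P ∧
      ¬ (2 : MvPolynomial (Ix K) ℤ) ∣ (polySys w0 (w0_ne_zero hK)).LC P ∧
      (polySys w0 (w0_ne_zero hK)).c P ≤ ∑ j ∈ Finset.range m, 2 ^ (2 * K - (j + 3)) ∧
      ∀ j < m, ∀ f : Fin (2 ^ (j + 3) + 1) → Gam K,
        (aeval (psi (Φ j)) : MvPolynomial (Jz K) ℚ →ₐ[ℚ] MvPolynomial (J0 K) ℚ)
          (Matrix.of fun a b : Fin (2 ^ (j + 3) + 1) =>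
            (zgen ^ (b : ℕ) : Tw K _ sz) (f a)).det ∈ P := by
  induction m with
  | zero =>
    refine ⟨⊥, Ideal.isPrime_bot, homI_bot w0, ?_, ?_, ?_⟩
    · rw [polySys_LC_bot]
      exact fun h => two_prime.not_unit (isUnit_of_dvd_one h)
    · rw [polySys_c_bot]
      exact Nat.zero_le _
    · intro j hj
      exact absurd hj (Nat.not_lt_zero _)
  | succ m ih =>
    obtain ⟨P, h1, h2, h3, h4, h5⟩ := ih (by omega)
    obtain ⟨Ps, g1, g2, g3, g4, g5⟩ := h6 (m + 3) (ex (Φ m) + 1) (by omega) (by omega)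
      (Nat.le_add_left 1 _)
    obtain ⟨P', k1, k2, k3, k4, k5, k6⟩ := lemmaD w0 (w0_ne_zero hK) (wz (ex (Φ m) + 1))
      (wz_ne_zero (Nat.le_add_left 1 _)) P h1 h2 h3 Ps g1 g2 g3 (psi (Φ m)) (psi_hom (Φ m))
    refine ⟨P', k1, k2, k3, ?_, ?_⟩
    · rw [Finset.sum_range_succ]
      exact k6.trans (add_le_add h4 g4)
    · intro j hj f
      rcases Nat.lt_succ_iff_lt_or_eq.1 hj with hj | rfl
      · exact k4 (h5 j hj f)
      · exact k5 _ (g5 f)

/-- **L8** (from L6). -/
theorem L8_of_L6 (h6 : ∀ K, L6Stmt K) (Φ : ℕ → TExp) (n K : ℕ) (hK0 : 0 < K) (hK : n + 3 ≤ K) :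
    ∃ P : Ideal (MvPolynomial (J0 K) ℚ), P.IsPrime ∧ HomI w0 P ∧
      ¬ (2 : MvPolynomial (Ix K) ℤ) ∣ (polySys w0 (w0_ne_zero hK0)).LC P ∧
      4 * (polySys w0 (w0_ne_zero hK0)).c P ≤ 2 ^ (2 * K) ∧
      ∀ (L : Type) [Field L] (φ : MvPolynomial (J0 K) ℚ →+* L), (∀ p ∈ P, φ p = 0) →
        ∀ [Algebra ℚ (Tw K L (fun i => φ (s0 i)))], ∀ j ≤ n,
          PolyRel L (2 ^ (j + 3))
            (TExp.eval (fun v => algebraMap L (Tw K L (fun i => φ (s0 i))) (Tw.tau v))
              ((φ sigma0)⁻¹ • Tw.map φ (fun _ => rfl) xgen)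
              ((φ sigma0)⁻¹ • Tw.map φ (fun _ => rfl) ygen) (Φ j)) := by
  obtain ⟨P, h1, h2, h3, h4, h5⟩ := L8_induction hK0 (h6 K) Φ (n + 1) (by omega)
  refine ⟨P, h1, h2, h3, ?_, ?_⟩
  · have h7 := sum_bound K (n + 1) (by omega)
    have h8 : 4 * 2 ^ (2 * K - 2) = 2 ^ (2 * K) := by
      have : 2 * K = (2 * K - 2) + 2 := by omega
      conv_rhs => rw [this, pow_add]
      ring
    rw [← h8]
    exact Nat.mul_le_mul_left 4 (h4.trans ((Nat.le_add_right _ _).trans h7))
  · intro L _ φ hφ _ j hj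
    letI : Algebra ℚ L := (φ.comp MvPolynomial.C).toAlgebra
    exact polyRel_of_minors (Φ j) (2 ^ (j + 3)) φ Nat.one_le_two_pow
      (fun f => hφ _ (h5 j (by omega) f))

end P199H
end
end

section

section

/-!
# P199, blueprint H: the isotropic subgroup `Lam K a` and its orthogonal `LamP K a`
-/

set_option linter.all false

namespace P199H

/-- the isotropic subgroup: supported on the first `a` indices of the first kind -/
def Lam (K a : ℕ) : AddSubgroup (Gam K) where
  carrier := {γ | (∀ i : Fin K, γ (Sum.inr i) = 0) ∧ ∀ i : Fin K, a ≤ (i : ℕ) → γ (Sum.inl i) = 0}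
  zero_mem' := ⟨fun _ => rfl, fun _ _ => rfl⟩
  add_mem' := by
    rintro γ δ ⟨h1, h2⟩ ⟨h3, h4⟩
    exact ⟨fun i => by rw [Pi.add_apply, h1, h3, add_zero],
      fun i hi => by rw [Pi.add_apply, h2 i hi, h4 i hi, add_zero]⟩
  neg_mem' := by
    rintro γ ⟨h1, h2⟩
    exact ⟨fun i => by rw [Pi.neg_apply, h1, neg_zero],
      fun i hi => by rw [Pi.neg_apply, h2 i hi, neg_zero]⟩

/-- the orthogonal of `Lam K a` -/
def LamP (K a : ℕ) : AddSubgroup (Gam K) where
  carrier := {γ | ∀ i : Fin K, (i : ℕ) < a → γ (Sum.inr i) = 0}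
  zero_mem' := fun _ _ => rfl
  add_mem' := by
    rintro γ δ h1 h3
    exact fun i hi => by rw [Pi.add_apply, h1 i hi, h3 i hi, add_zero]
  neg_mem' := by
    rintro γ h1
    exact fun i hi => by rw [Pi.neg_apply, h1 i hi, neg_zero]

theorem mem_Lam {K a : ℕ} {γ : Gam K} : γ ∈ Lam K a ↔
    (∀ i : Fin K, γ (Sum.inr i) = 0) ∧ ∀ i : Fin K, a ≤ (i : ℕ) → γ (Sum.inl i) = 0 := Iff.rfl

theorem mem_LamP {K a : ℕ} {γ : Gam K} : γ ∈ LamP K a ↔
    ∀ i : Fin K, (i : ℕ) < a → γ (Sum.inr i) = 0 := Iff.rfl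

instance (K a : ℕ) (γ : Gam K) : Decidable (γ ∈ Lam K a) :=
  inferInstanceAs (Decidable ((∀ i : Fin K, γ (Sum.inr i) = 0) ∧
    ∀ i : Fin K, a ≤ (i : ℕ) → γ (Sum.inl i) = 0))

instance (K a : ℕ) (γ : Gam K) : Decidable (γ ∈ LamP K a) :=
  inferInstanceAs (Decidable (∀ i : Fin K, (i : ℕ) < a → γ (Sum.inr i) = 0))

theorem Lam_le_LamP (K a : ℕ) : Lam K a ≤ LamP K a := fun _ h i _ => h.1 i

section
variable {K a : ℕ} {R : Type*} [CommRing R]

theorem sg_Lam {γ δ : Gam K} (hδ : δ ∈ Lam K a) :
    sg R γ δ = ∏ i : Fin K, sgp R (γ (Sum.inr i)) (δ (Sum.inl i)) := by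
  unfold sg
  have : sgn0 R δ γ = 1 := by
    unfold sgn0
    exact Finset.prod_eq_one fun i _ => by rw [hδ.1 i, sgp_zero_left]
  rw [this, mul_one]
  rfl

theorem sg_Lam_LamP {γ δ : Gam K} (hγ : γ ∈ LamP K a) (hδ : δ ∈ Lam K a) : sg R γ δ = 1 := by
  rw [sg_Lam hδ]
  refine Finset.prod_eq_one fun i _ => ?_
  by_cases hi : (i : ℕ) < a
  · rw [hγ i hi, sgp_zero_left]
  · rw [hδ.2 i (not_lt.mp hi), sgp_zero_right]

theorem sg_Lam_Lam {γ δ : Gam K} (hγ : γ ∈ Lam K a) (hδ : δ ∈ Lam K a) : sg R γ δ = 1 :=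
  sg_Lam_LamP (Lam_le_LamP K a hγ) hδ

/-- the basis vector of index `inl i` -/
def eL (i : Fin K) : Gam K := Pi.single (Sum.inl i) 1

theorem eL_mem {i : Fin K} (hi : (i : ℕ) < a) : eL i ∈ Lam K a := by
  refine ⟨fun j => ?_, fun j hj => ?_⟩
  · simp [eL]
  · have : j ≠ i := by rintro rfl; omega
    simp [eL, this]

theorem eL_ne_zero (i : Fin K) : (eL i : Gam K) ≠ 0 := by
  intro h
  have := congrFun h (Sum.inl i)
  simp [eL] at this

theorem sg_eL (γ : Gam K) {i : Fin K} (hi : (i : ℕ) < a) :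
    sg R γ (eL i) = sgp R (γ (Sum.inr i)) 1 := by
  rw [sg_Lam (eL_mem hi), Finset.prod_eq_single i]
  · simp [eL]
  · intro j _ hj
    simp [eL, hj]
  · intro h; exact absurd (Finset.mem_univ _) h

theorem exists_of_notMem_LamP {γ : Gam K} (hγ : γ ∉ LamP K a) :
    ∃ δ ∈ Lam K a, δ ≠ 0 ∧ sg R γ δ = -1 := by
  rw [mem_LamP] at hγ
  push Not at hγ
  obtain ⟨i, hi, h⟩ := hγ
  refine ⟨eL i, eL_mem hi, eL_ne_zero i, ?_⟩
  rw [sg_eL γ hi]
  rcases z2 (γ (Sum.inr i)) with h0 | h0
  · exact absurd h0 h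
  · rw [h0]; simp [sgp]

/-- elements with prescribed pairing with `Lam K a` -/
def fq (q : Fin a → ZMod 2) : Gam K
  | Sum.inl _ => 0
  | Sum.inr i => if h : (i : ℕ) < a then q ⟨i, h⟩ else 0

theorem fq_sep (haK : a ≤ K) (h2 : (1 : R) ≠ -1) {q q' : Fin a → ZMod 2} (h : q ≠ q') :
    ∃ δ ∈ Lam K a, δ ≠ 0 ∧ sg R (fq q) δ ≠ sg R (fq q' : Gam K) δ := by
  obtain ⟨i, hi⟩ := Function.ne_iff.mp h
  have hi' : ((⟨i, lt_of_lt_of_le i.2 haK⟩ : Fin K) : ℕ) < a := i.2
  refine ⟨eL ⟨i, lt_of_lt_of_le i.2 haK⟩, eL_mem hi', eL_ne_zero _, ?_⟩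
  rw [sg_eL _ hi', sg_eL _ hi']
  have e1 : (fq q : Gam K) (Sum.inr ⟨i, lt_of_lt_of_le i.2 haK⟩) = q i := by simp [fq]
  have e2 : (fq q' : Gam K) (Sum.inr ⟨i, lt_of_lt_of_le i.2 haK⟩) = q' i := by simp [fq]
  rw [e1, e2]
  rcases z2 (q i) with h0 | h0 <;> rcases z2 (q' i) with h1 | h1
  · exact absurd (h0.trans h1.symm) hi
  · rw [h0, h1]; simpa [sgp] using h2
  · rw [h0, h1]; simpa [sgp] using h2.symm
  · exact absurd (h0.trans h1.symm) hi

/-- the family separating the characters of `Lam K a` -/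
noncomputable def ff (K a : ℕ) : Fin (2 ^ a) → Gam K := fun n =>
  fq ((Fintype.equivFinOfCardEq (α := Fin a → ZMod 2) (by simp [ZMod.card])).symm n)

theorem ff_sep (haK : a ≤ K) (h2 : (1 : R) ≠ -1) (i j : Fin (2 ^ a)) (h : i ≠ j) :
    ∃ δ ∈ Lam K a, δ ≠ 0 ∧ sg R (ff K a i) δ ≠ sg R (ff K a j) δ := by
  apply fq_sep haK h2
  intro h'
  exact h (Equiv.injective _ h')

end

/-- the elements of `Lam K a` -/
def equivLam (K a : ℕ) (haK : a ≤ K) : Lam K a ≃ (Fin a → ZMod 2) where
  toFun γ i := γ.1 (Sum.inl ⟨i, lt_of_lt_of_le i.2 haK⟩)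
  invFun q := ⟨fun x => match x with
    | Sum.inl i => if h : (i : ℕ) < a then q ⟨i, h⟩ else 0
    | Sum.inr _ => 0, fun _ => rfl, fun i hi => by simp [not_lt.mpr hi]⟩
  left_inv γ := by
    apply Subtype.ext
    funext x
    rcases x with i | i
    · by_cases h : (i : ℕ) < a
      · simp [h]
      · simp [h, γ.2.2 i (not_lt.mp h)]
    · simp [γ.2.1 i]
  right_inv q := by
    funext i
    simp

theorem card_Lam {K a : ℕ} (haK : a ≤ K) : Nat.card (Lam K a) = 2 ^ a := by
  rw [Nat.card_congr (equivLam K a haK), Nat.card_eq_fintype_card]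
  simp [ZMod.card]

/-- the elements of `LamP K a` -/
def equivLamP (K a : ℕ) : LamP K a ≃ (Fin K → ZMod 2) × ({i : Fin K // ¬ (i : ℕ) < a} → ZMod 2) where
  toFun γ := (fun i => γ.1 (Sum.inl i), fun i => γ.1 (Sum.inr i))
  invFun q := ⟨fun x => match x with
    | Sum.inl i => q.1 i
    | Sum.inr i => if h : (i : ℕ) < a then 0 else q.2 ⟨i, h⟩, fun i hi => by simp [hi]⟩
  left_inv γ := by
    apply Subtype.ext
    funext x
    rcases x with i | i
    · rfl
    · by_cases h : (i : ℕ) < a
      · simp [h, γ.2 i h]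
      · simp [h]
  right_inv q := by
    refine Prod.ext rfl ?_
    funext i
    simp [i.2]

theorem card_LamP {K a : ℕ} (haK : a ≤ K) : Nat.card (LamP K a) = 2 ^ (2 * K - a) := by
  rw [Nat.card_congr (equivLamP K a), Nat.card_eq_fintype_card, Fintype.card_prod]
  have h : Fintype.card {i : Fin K // ¬ (i : ℕ) < a} = K - a := by
    rw [Fintype.card_subtype_compl, Fintype.card_fin]
    congr 1
    rw [Fintype.card_subtype]
    have : (Finset.univ.filter fun i : Fin K => (i : ℕ) < a).card =
        (Finset.range a).card := by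
      refine Finset.card_bij (fun i _ => (i : ℕ)) (fun i hi => ?_) (fun i _ j _ h => Fin.ext h)
        (fun b hb => ?_)
      · simpa using hi
      · have hb' := Finset.mem_range.mp hb
        exact ⟨⟨b, lt_of_lt_of_le hb' haK⟩, by simpa using hb', rfl⟩
    rw [this, Finset.card_range]
  simp only [Fintype.card_pi, ZMod.card, Finset.prod_const, Finset.card_univ, Fintype.card_fin]
  rw [h, ← pow_add]
  congr 1
  omega

/-- number of cuts in L6 -/
theorem card_diff {K a : ℕ} (haK : a ≤ K) :
    (Finset.univ.filter fun γ : Gam K => γ ∈ LamP K a ∧ γ ∉ Lam K a).card =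
      2 ^ (2 * K - a) - 2 ^ a := by
  classical
  have h1 : (Finset.univ.filter fun γ : Gam K => γ ∈ LamP K a ∧ γ ∉ Lam K a) =
      (Finset.univ.filter fun γ : Gam K => γ ∈ LamP K a) \
        (Finset.univ.filter fun γ : Gam K => γ ∈ Lam K a) := by
    ext γ; simp
  rw [h1, Finset.card_sdiff_of_subset]
  · congr 1
    · rw [← card_LamP haK, Nat.card_eq_fintype_card, Fintype.card_subtype]
    · rw [← card_Lam haK, Nat.card_eq_fintype_card, Fintype.card_subtype]
  · intro γ hγ
    simp only [Finset.mem_filter, Finset.mem_univ, true_and] at hγ ⊢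
    exact Lam_le_LamP K a hγ

end P199H
end
end

section

section

/-!
P199, Blueprint H: iterated cuts (rho-version and 2-adic version).
-/

namespace P199H

open MvPolynomial

variable {ι : Type}

open Classical in
/-- Reduction mod 2 and `Theta_i ↦ 0` for `i ∈ I`. -/
noncomputable def rho (I : Set ι) : MvPolynomial ι ℤ →+* MvPolynomial ι (ZMod 2) :=
  eval₂Hom (Int.castRingHom _) fun i => if i ∈ I then 0 else X i

lemma rho_two (I : Set ι) : rho I 2 = 0 := by
  rw [map_ofNat]
  exact CharTwo.two_eq_zero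

open Classical in
lemma rho_X (I : Set ι) (i : ι) : rho I (X i) = if i ∈ I then 0 else X i := by
  simp [rho]

lemma rho_natCast (I : Set ι) (n : ℕ) : rho I (n : MvPolynomial ι ℤ) = C (n : ZMod 2) := by
  rw [map_natCast]; simp

lemma not_dvd_of_rho {I : Set ι} {x : MvPolynomial ι ℤ} (h : rho I x ≠ 0) : ¬ (2 ∣ x) := by
  rintro ⟨y, rfl⟩
  rw [map_mul, rho_two, zero_mul] at h
  exact h rfl

lemma rho_dotTh_ne_zero {I : Set ι} {χ : ι →₀ ℕ} {i : ι} (hi : i ∉ I) (hodd : Odd (χ i)) :
    rho I (dotTh χ) ≠ 0 := by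
  classical
  intro h0
  have h1 : coeff (Finsupp.single i 1) (rho I (dotTh χ)) = (χ i : ZMod 2) := by
    unfold dotTh
    rw [Finsupp.sum, map_sum, coeff_sum]
    have : ∀ j ∈ χ.support, coeff (Finsupp.single i 1)
        (rho I (((χ j : ℕ) : MvPolynomial ι ℤ) * X j)) = if j = i then (χ i : ZMod 2) else 0 := by
      intro j _
      rw [map_mul, rho_natCast, rho_X, coeff_C_mul]
      by_cases hj : j = i
      · subst hj; simp [hi]
      · by_cases hjI : j ∈ I
        · simp [hj, hjI]
        · have : ¬ (Finsupp.single j 1 = (Finsupp.single i 1 : ι →₀ ℕ)) := by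
            intro h; exact hj (Finsupp.single_left_injective one_ne_zero h)
          simp [hj, hjI, coeff_X, this]
    rw [Finset.sum_congr rfl this, Finset.sum_ite_eq']
    split_ifs with h
    · rfl
    · simp [Finsupp.notMem_support_iff.mp h]
  rw [h0, coeff_zero] at h1
  have h2 : ((χ i : ℕ) : ZMod 2) = 1 := ZMod.natCast_eq_one_iff_odd.mpr hodd
  rw [h2] at h1
  exact zero_ne_one h1

namespace HSys

variable {R : Type} [CommRing R] (H : HSys R ι)

/-- One rho-cut. -/
theorem rho_cut [IsNoetherianRing R] (I : Set ι) {P : Ideal R}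
    (hP : P.IsPrime) (hH : H.HI P) {f : R} {χ : ι →₀ ℕ} (hf : H.Hom f χ)
    (hχ : ∃ i, i ∉ I ∧ Odd (χ i)) (hD : rho I (H.LC P) ≠ 0) :
    ∃ Q : Ideal R, Q.IsPrime ∧ H.HI Q ∧ P ≤ Q ∧ f ∈ Q ∧ H.c Q ≤ H.c P + 1 ∧
      rho I (H.LC Q) ≠ 0 := by
  obtain ⟨i, hi, hodd⟩ := hχ
  obtain ⟨Q, h1, h2, h3, h4, h5, h6⟩ := H.L4 (RingHom.ker (rho I)) hP hH hf (by
    intro x hx
    rw [RingHom.mem_ker, map_mul] at hx
    exact (RingHom.mem_ker).mpr ((mul_eq_zero.mp hx).resolve_left (rho_dotTh_ne_zero hi hodd)))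
    (by rwa [RingHom.mem_ker])
  exact ⟨Q, h1, h2, h3, h4, h5, by rwa [RingHom.mem_ker] at h6⟩

/-- Iterated rho-cut. -/
theorem rho_cuts [IsNoetherianRing R] (I : Set ι) {α : Type} (s : Finset α) (f : α → R)
    (χ : α → ι →₀ ℕ) (hf : ∀ a ∈ s, H.Hom (f a) (χ a)) (hχ : ∀ a ∈ s, ∃ i, i ∉ I ∧ Odd (χ a i))
    {P : Ideal R} (hP : P.IsPrime) (hH : H.HI P) (hD : rho I (H.LC P) ≠ 0) :
    ∃ Q : Ideal R, Q.IsPrime ∧ H.HI Q ∧ P ≤ Q ∧ (∀ a ∈ s, f a ∈ Q) ∧
      H.c Q ≤ H.c P + s.card ∧ rho I (H.LC Q) ≠ 0 := by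
  classical
  induction s using Finset.induction_on with
  | empty => exact ⟨P, hP, hH, le_rfl, by simp, by simp, hD⟩
  | insert a s ha ih =>
    obtain ⟨Q, h1, h2, h3, h4, h5, h6⟩ := ih (fun b hb => hf b (Finset.mem_insert_of_mem hb))
      (fun b hb => hχ b (Finset.mem_insert_of_mem hb))
    obtain ⟨Q', g1, g2, g3, g4, g5, g6⟩ := H.rho_cut I h1 h2 (hf a (Finset.mem_insert_self a s))
      (hχ a (Finset.mem_insert_self a s)) h6
    refine ⟨Q', g1, g2, h3.trans g3, ?_, ?_, g6⟩
    · intro b hb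
      rcases Finset.mem_insert.mp hb with rfl | hb
      · exact g4
      · exact g3 (h4 b hb)
    · rw [Finset.card_insert_of_notMem ha]; omega

end HSys

end P199H
end
end

section

section

/-!
# P199-H: the parity lemma (used in L6, (B1))

`phi : ℤ[t] → ℤ[Θ][ε]`, `t i ↦ 1 - Θ i ε`.  If all exponents of `F` in the variables outside `I`
are even, `q ≥ 1` and `ε ^ q ∣ phi F`, then the coefficient of `ε ^ q` in `phi F` vanishes under
every ring hom `rho` from `ℤ[Θ]` with `rho 2 = 0` and `rho (Θ i) = 0` for `i ∈ I`.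
-/

namespace P199H.Parity

open MvPolynomial

variable {σ : Type*}

/-- for a homogeneous polynomial of degree `k` a common factor can be pulled out -/
theorem aeval_mul_of_homogeneous {R S : Type*} [CommSemiring R] [CommSemiring S] [Algebra R S]
    {p : MvPolynomial σ R} {k : ℕ} (hp : p.IsHomogeneous k) (x : S) (u : σ → S) :
    aeval (fun i => x * u i) p = x ^ k * aeval u p := by
  classical
  rw [aeval_def, aeval_def, eval₂_eq, eval₂_eq, Finset.mul_sum]
  refine Finset.sum_congr rfl fun m hm => ?_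
  have hk : ∑ i ∈ m.support, m i = k := by
    have := hp (mem_support_iff.mp hm)
    rw [← this, Finsupp.weight_apply, Finsupp.sum]
    simp
  simp only [mul_pow]
  rw [Finset.prod_mul_distrib, Finset.prod_pow_eq_pow_sum, hk]
  ring

/-- Main computation: a polynomial in `(1 - Θ j ε) ^ 2`, of order at least `q` in `ε`, has its
`ε ^ q` coefficient divisible by `2 ^ q`. -/
theorem coeff_of_sq {τ : Type*} [Fintype τ] {σ : Type*} (ι : τ → σ) (hι : Function.Injective ι)
    (G : MvPolynomial τ ℤ) (q : ℕ)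
    (h : ∀ k < q, (aeval (fun j => (1 - Polynomial.C (X (ι j) : MvPolynomial σ ℤ) *
      Polynomial.X) ^ 2) G).coeff k = 0) :
    ∃ a : MvPolynomial σ ℤ, (aeval (fun j => (1 - Polynomial.C (X (ι j) : MvPolynomial σ ℤ) *
      Polynomial.X) ^ 2) G).coeff q = 2 ^ q * a := by
  classical
  set w : τ → Polynomial (MvPolynomial σ ℤ) := fun j =>
    (1 - Polynomial.C (X (ι j) : MvPolynomial σ ℤ) * Polynomial.X) ^ 2 with hw
  set u : τ → Polynomial (MvPolynomial σ ℤ) := fun j =>
    Polynomial.C (X (ι j)) * (2 - Polynomial.C (X (ι j)) * Polynomial.X) with hu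
  set G' : MvPolynomial τ ℤ := aeval (fun j => 1 - X j) G with hG'
  have h1 : aeval w G = aeval (fun j => Polynomial.X * u j) G' := by
    rw [hG', ← AlgHom.comp_apply, comp_aeval]
    congr 2
    funext j
    simp only [map_sub, map_one, aeval_X, hw, hu]
    ring
  have h2 : ∀ k, (aeval w G).coeff k =
      ∑ i ∈ Finset.range (G'.totalDegree + 1),
        (Polynomial.X ^ i * aeval u (homogeneousComponent i G')).coeff k := by
    intro k
    rw [h1]
    conv_lhs => rw [← sum_homogeneousComponent G']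
    rw [map_sum, Polynomial.finsetSum_coeff]
    refine Finset.sum_congr rfl fun i _ => ?_
    rw [aeval_mul_of_homogeneous (homogeneousComponent_isHomogeneous i G')]
  have h3 : ∀ k, (aeval u (homogeneousComponent k G')).coeff 0 =
      2 ^ k * rename ι (homogeneousComponent k G') := by
    intro k
    rw [Polynomial.coeff_zero_eq_eval_zero]
    have e1 : Polynomial.eval 0 (aeval u (homogeneousComponent k G')) =
        aeval (fun j => (2 : MvPolynomial σ ℤ) * X (ι j)) (homogeneousComponent k G') := by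
      have := DFunLike.congr_fun (comp_aeval (φ := (Polynomial.evalRingHom
        (0 : MvPolynomial σ ℤ)).toIntAlgHom) (f := u)) (homogeneousComponent k G')
      simp only [AlgHom.comp_apply] at this
      refine this.trans ?_
      congr 2
      funext j
      simp only [hu, RingHom.toIntAlgHom_apply, Polynomial.coe_evalRingHom, Polynomial.eval_mul,
        Polynomial.eval_C, Polynomial.eval_sub, Polynomial.eval_X, mul_zero, sub_zero,
        Polynomial.eval_ofNat]
      ring
    rw [e1, aeval_mul_of_homogeneous (homogeneousComponent_isHomogeneous k G')]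
    congr 1
    have e2 : (aeval fun j => (X (ι j) : MvPolynomial σ ℤ)) = (rename ι : _ →ₐ[ℤ] _) := by
      ext j
      simp
    rw [← e2]
  have h4 : ∀ k, (∀ j < k, homogeneousComponent j G' = 0) →
      (aeval w G).coeff k = 2 ^ k * rename ι (homogeneousComponent k G') := by
    intro k hk
    rw [h2]
    by_cases hkd : k ∈ Finset.range (G'.totalDegree + 1)
    · rw [Finset.sum_eq_single_of_mem k hkd]
      · rw [Polynomial.coeff_X_pow_mul', if_pos le_rfl, Nat.sub_self, h3]
      · intro i _ hik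
        rcases lt_or_gt_of_ne hik with hlt | hgt
        · rw [hk i hlt, map_zero, mul_zero, Polynomial.coeff_zero]
        · rw [Polynomial.coeff_X_pow_mul', if_neg (by omega)]
    · have hz : homogeneousComponent k G' = 0 := by
        apply homogeneousComponent_eq_zero
        simp only [Finset.mem_range, not_lt] at hkd
        omega
      rw [hz, map_zero, mul_zero]
      refine Finset.sum_eq_zero fun i hi => ?_
      have : i < k := by
        simp only [Finset.mem_range, not_lt] at hkd hi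
        omega
      rw [hk i this, map_zero, mul_zero, Polynomial.coeff_zero]
  have h5 : ∀ k < q, homogeneousComponent k G' = 0 := by
    intro k
    induction k using Nat.strong_induction_on with
    | _ k ih =>
      intro hkq
      have h6 := h4 k (fun j hj => ih j hj (hj.trans hkq))
      rw [h k hkq] at h6
      have h7 : rename ι (homogeneousComponent k G') = 0 := by
        have h2' : (2 : MvPolynomial σ ℤ) ^ k ≠ 0 := pow_ne_zero _ two_ne_zero
        exact (mul_eq_zero.mp h6.symm).resolve_left h2'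
      exact (rename_injective ι hι) (by rw [h7, map_zero])
  exact ⟨_, h4 q h5⟩

/-- the substitution `t i ↦ 1 - Θ i ε` with `Θ i = 0` for `i ∈ I` of a polynomial with even
exponents outside `I` is a polynomial in the `(1 - Θ j ε) ^ 2`, `j ∉ I` -/
theorem exists_sq {σ : Type*} [Fintype σ] (I : Set σ) [DecidablePred (· ∈ I)]
    (F : MvPolynomial σ ℤ) (hF : ∀ m ∈ F.support, ∀ i ∉ I, Even (m i)) :
    ∃ G : MvPolynomial {i // i ∉ I} ℤ,
      aeval (fun i => 1 - Polynomial.C (if i ∈ I then 0 else X i : MvPolynomial σ ℤ) *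
        Polynomial.X) F =
      aeval (fun j : {i // i ∉ I} => (1 - Polynomial.C (X (j : σ) : MvPolynomial σ ℤ) *
        Polynomial.X) ^ 2) G := by
  classical
  let half : (σ →₀ ℕ) → ({i // i ∉ I} →₀ ℕ) := fun m =>
    Finsupp.equivFunOnFinite.symm fun j => m j / 2
  refine ⟨∑ m ∈ F.support, monomial (half m) (F.coeff m), ?_⟩
  conv_lhs => rw [F.as_sum]
  rw [map_sum, map_sum]
  refine Finset.sum_congr rfl fun m hm => ?_
  rw [aeval_monomial, aeval_monomial]
  congr 1
  rw [Finsupp.prod_fintype _ _ (fun i => pow_zero _), Finsupp.prod_fintype _ _ (fun i => pow_zero _),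
    ← Fintype.prod_subtype_mul_prod_subtype (fun i => i ∈ I)]
  have h1 : ∏ i : {i // i ∈ I}, (1 - Polynomial.C (if (i : σ) ∈ I then 0 else X (i : σ) :
      MvPolynomial σ ℤ) * Polynomial.X) ^ m i = 1 := by
    refine Finset.prod_eq_one fun i _ => ?_
    rw [if_pos i.2]
    simp
  rw [h1, one_mul]
  refine Finset.prod_congr rfl fun i _ => ?_
  rw [if_neg i.2, ← pow_mul]
  congr 1
  change m i = 2 * (m i / 2)
  exact (Nat.mul_div_cancel' (hF m hm i i.2).two_dvd).symm

/-- **Parity lemma.** -/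
theorem parity {σ : Type*} [Fintype σ] (I : Set σ)
    (F : MvPolynomial σ ℤ) (hF : ∀ m ∈ F.support, ∀ i ∉ I, Even (m i))
    (φ : MvPolynomial σ ℤ →+* Polynomial (MvPolynomial σ ℤ))
    (hφ : ∀ i, φ (X i) = 1 - Polynomial.C (X i) * Polynomial.X)
    (q : ℕ) (hq : 1 ≤ q) (hd : Polynomial.X ^ q ∣ φ F)
    {Ω : Type*} [CommRing Ω] (ρ : MvPolynomial σ ℤ →+* Ω) (h2 : ρ 2 = 0)
    (hρ : ∀ i ∈ I, ρ (X i) = 0) : ρ ((φ F).coeff q) = 0 := by
  classical
  set κ : MvPolynomial σ ℤ →ₐ[ℤ] MvPolynomial σ ℤ :=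
    aeval fun i => if i ∈ I then 0 else X i with hκ
  have hρκ : ∀ a, ρ (κ a) = ρ a := by
    intro a
    have : ρ.comp κ.toRingHom = ρ := by
      apply MvPolynomial.ringHom_ext
      · intro r
        simp [hκ]
      · intro i
        simp only [hκ, AlgHom.toRingHom_eq_coe, RingHom.coe_comp, RingHom.coe_coe,
          Function.comp_apply, aeval_X]
        split_ifs with h
        · rw [map_zero, hρ i h]
        · rfl
    exact DFunLike.congr_fun this a
  have hφκ : (φ F).map κ.toRingHom =
      aeval (fun i => 1 - Polynomial.C (if i ∈ I then 0 else X i : MvPolynomial σ ℤ) *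
        Polynomial.X) F := by
    have : (Polynomial.mapRingHom κ.toRingHom).comp φ =
        (aeval (fun i => 1 - Polynomial.C (if i ∈ I then 0 else X i : MvPolynomial σ ℤ) *
        Polynomial.X) : MvPolynomial σ ℤ →ₐ[ℤ] Polynomial (MvPolynomial σ ℤ)).toRingHom := by
      apply MvPolynomial.ringHom_ext
      · intro r
        simp
      · intro i
        simp only [AlgHom.toRingHom_eq_coe, RingHom.coe_comp, RingHom.coe_coe,
          Function.comp_apply, aeval_X, hφ, Polynomial.coe_mapRingHom, Polynomial.map_sub,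
          Polynomial.map_one, Polynomial.map_mul, Polynomial.map_C, Polynomial.map_X, hκ]
    exact DFunLike.congr_fun this F
  obtain ⟨G, hG⟩ := exists_sq I F hF
  obtain ⟨a, ha⟩ := coeff_of_sq (fun j : {i // i ∉ I} => (j : σ)) Subtype.val_injective G q (by
    intro k hk
    rw [← hG, ← hφκ, Polynomial.coeff_map, Polynomial.X_pow_dvd_iff.mp hd k hk, map_zero])
  rw [← hρκ]
  have h3 : κ ((φ F).coeff q) = ((φ F).map κ.toRingHom).coeff q := by
    rw [Polynomial.coeff_map]
    rfl
  rw [h3, hφκ, hG, ha, map_mul, map_pow, h2, zero_pow (by omega), zero_mul]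

end P199H.Parity
end
end

section

section

/-!
# P199-H: L6, (B1)
-/

namespace P199H

open MvPolynomial

/-- Abstract form of (B1): if `P` contains `#J1` variables of weights `w j` and the `K`-polynomial of
`P` is `F ∏ (1 - t ^ w j)` with `F` even in the variables outside `I`, and the codimension of `P` is
larger than `#J1`, then `LC P` vanishes under `ρ`. -/
theorem HSys.B1_abs {R : Type} [CommRing R] [IsNoetherianRing R] {ι : Type} [Fintype ι]
    (H : HSys R ι) (I : Set ι) {P : Ideal R} (hP : P.IsPrime) (hH : H.HI P)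
    {J1 : Type*} [Fintype J1] (w : J1 → ι →₀ ℕ) (hw : ∀ j, w j ≠ 0)
    (F : MvPolynomial ι ℤ) (hF : ∀ m ∈ F.support, ∀ i ∉ I, Even (m i))
    (hK : H.K P = F * ∏ j, (1 - monomial (w j) 1)) (hc : Fintype.card J1 < H.c P)
    {Ω : Type*} [CommRing Ω] (ρ : MvPolynomial ι ℤ →+* Ω) (h2 : ρ 2 = 0)
    (hρ : ∀ i ∈ I, ρ (X i) = 0) : ρ (H.LC P) = 0 := by
  classical
  -- each factor is `ε` times something with nonzero constant term
  have h1 : ∀ j, ∃ a : Polynomial (MvPolynomial ι ℤ),
      phi (1 - monomial (w j) (1 : ℤ)) = Polynomial.X * a ∧ a.coeff 0 = dotTh (w j) := by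
    intro j
    have hd : Polynomial.X ∣ phi (1 - monomial (w j) (1 : ℤ)) :=
      Polynomial.X_dvd_iff.mpr (HSys.phi_one_sub_coeff_zero (w j))
    obtain ⟨a, ha⟩ := hd
    refine ⟨a, ha, ?_⟩
    have h3 := HSys.phi_one_sub_coeff_one (w j)
    rw [ha] at h3
    have h4 := Polynomial.coeff_X_mul a 0
    rw [← h4]
    exact h3
  choose a ha ha0 using h1
  set A : Polynomial (MvPolynomial ι ℤ) := ∏ j, a j with hA
  have hA0 : A.coeff 0 ≠ 0 := by
    rw [hA, Polynomial.coeff_zero_prod]
    exact Finset.prod_ne_zero_iff.mpr fun j _ => by rw [ha0]; exact dotTh_ne_zero (hw j)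
  have hphi : phi (H.K P) = Polynomial.X ^ Fintype.card J1 * (phi F * A) := by
    rw [hK, map_mul, map_prod]
    simp only [ha, Finset.prod_mul_distrib, Finset.prod_const, Finset.card_univ]
    ring
  obtain ⟨q, hq⟩ := Nat.exists_eq_add_of_lt hc
  have hdvd : Polynomial.X ^ (q + 1) ∣ phi F := by
    have h3 := H.X_pow_dvd_prime hP hH
    rw [hphi, hq, add_assoc, pow_add] at h3
    have h4 : Polynomial.X ^ (q + 1) ∣ phi F * A :=
      (mul_dvd_mul_iff_left (pow_ne_zero _ Polynomial.X_ne_zero)).mp h3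
    refine (Polynomial.prime_X.pow_dvd_of_dvd_mul_right _ ?_ h4)
    rw [Polynomial.X_dvd_iff]
    exact hA0
  have hpar := Parity.parity I F hF phi (by intro i; simp [phi]) (q + 1) (by omega) hdvd ρ h2 hρ
  have hLC : H.LC P = (phi F).coeff (q + 1) * A.coeff 0 := by
    unfold HSys.LC
    rw [hphi, hq, add_assoc, Polynomial.coeff_X_pow_mul', if_pos (by omega)]
    rw [Nat.add_sub_cancel_left, Polynomial.coeff_mul,
      Finset.Nat.sum_antidiagonal_eq_sum_range_succ (fun i j => (phi F).coeff i * A.coeff j),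
      Finset.sum_eq_single (q + 1)]
    · rw [Nat.sub_self]
    · intro b hb hb1
      have := Finset.mem_range.mp hb
      rw [Polynomial.X_pow_dvd_iff.mp hdvd b (by omega), zero_mul]
    · intro h7
      exact absurd (Finset.mem_range.mpr (by omega)) h7
  rw [hLC, map_mul, hpar, zero_mul]

/-- the ideal of the variables in `s` -/
noncomputable def vI {k J : Type} [Field k] (s : Finset J) : Ideal (MvPolynomial J k) :=
  Ideal.span (X '' (s : Set J))

section vI

variable {k J : Type} [Field k]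

theorem X_mem_vI {s : Finset J} {j : J} (hj : j ∈ s) : (X j : MvPolynomial J k) ∈ vI s :=
  Ideal.subset_span ⟨j, hj, rfl⟩

theorem vI_empty : (vI ∅ : Ideal (MvPolynomial J k)) = ⊥ := by
  simp [vI]

theorem vI_insert [DecidableEq J] (s : Finset J) (j : J) :
    (vI (insert j s) : Ideal (MvPolynomial J k)) = vI s ⊔ Ideal.span {X j} := by
  unfold vI
  rw [Finset.coe_insert, Set.image_insert_eq, Ideal.span_insert, sup_comm]

/-- kill the variables in `s` -/
noncomputable def killV [DecidableEq J] (s : Finset J) : MvPolynomial J k →ₐ[k] MvPolynomial J k :=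
  aeval fun j => if j ∈ s then 0 else X j

theorem vI_eq_ker [DecidableEq J] (s : Finset J) :
    (vI s : Ideal (MvPolynomial J k)) = RingHom.ker (killV s : MvPolynomial J k →ₐ[k] _) := by
  apply le_antisymm
  · rw [vI, Ideal.span_le]
    rintro _ ⟨j, hj, rfl⟩
    rw [SetLike.mem_coe, RingHom.mem_ker, killV, aeval_X, if_pos (Finset.mem_coe.mp hj)]
  · intro x hx
    rw [RingHom.mem_ker] at hx
    have h : ∀ y : MvPolynomial J k, y - killV s y ∈ (vI s : Ideal (MvPolynomial J k)) := by
      intro y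
      induction y using MvPolynomial.induction_on with
      | C a => simp [killV]
      | add p q hp hq =>
        have := Ideal.add_mem _ hp hq
        rw [map_add]
        convert this using 1
        ring
      | mul_X p j hp =>
        rw [map_mul]
        have e : killV s (X j : MvPolynomial J k) = if j ∈ s then 0 else X j := by
          simp [killV]
        by_cases hj : j ∈ s
        · rw [e, if_pos hj, mul_zero, sub_zero]
          exact Ideal.mul_mem_left _ _ (X_mem_vI hj)
        · rw [e, if_neg hj, ← sub_mul]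
          exact Ideal.mul_mem_right _ _ hp
    have := h x
    rwa [hx, sub_zero] at this

theorem vI_isPrime (s : Finset J) : (vI s : Ideal (MvPolynomial J k)).IsPrime := by
  classical
  rw [vI_eq_ker]
  exact RingHom.ker_isPrime _

theorem X_notMem_vI {s : Finset J} {j : J} (hj : j ∉ s) :
    (X j : MvPolynomial J k) ∉ (vI s : Ideal (MvPolynomial J k)) := by
  classical
  rw [vI_eq_ker, RingHom.mem_ker]
  simp only [killV, aeval_X, if_neg hj]
  exact X_ne_zero j

end vI

/-- **(B1)** in abstract form. -/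
theorem HSys.B1 {k J ι : Type} [Field k] [Fintype J] [Fintype ι]
    (H : HSys (MvPolynomial J k) ι) (w : J → ι →₀ ℕ)
    (hbot : H.HI ⊥) (hX : ∀ j, H.Hom (X j) (w j)) (I : Set ι) (s : Finset J)
    (hkey : ∀ P : Ideal (MvPolynomial J k), P.IsPrime → H.HI P → (∀ j ∈ s, X j ∈ P) →
      ∃ F : MvPolynomial ι ℤ, (∀ m ∈ F.support, ∀ i ∉ I, Even (m i)) ∧
        H.K P = F * ∏ j : s, (1 - monomial (w j) 1))
    {Ω : Type*} [CommRing Ω] [IsDomain Ω] (ρ : MvPolynomial ι ℤ →+* Ω) (h2 : ρ 2 = 0)
    (hρ : ∀ i ∈ I, ρ (X i) = 0) (hodd : ∀ j ∈ s, ρ (dotTh (w j)) ≠ 0)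
    {P : Ideal (MvPolynomial J k)} (hP : P.IsPrime) (hH : H.HI P) (hLC : ρ (H.LC P) ≠ 0) :
    P ≤ vI s := by
  classical
  -- cut by all variables in `s`
  have hcut : ∀ t : Finset J, t ⊆ s → ∃ Q : Ideal (MvPolynomial J k), Q.IsPrime ∧ H.HI Q ∧
      P ≤ Q ∧ (∀ j ∈ t, X j ∈ Q) ∧ ρ (H.LC Q) ≠ 0 := by
    intro t
    induction t using Finset.induction_on with
    | empty => exact fun _ => ⟨P, hP, hH, le_rfl, by simp, hLC⟩
    | insert j t hj ih =>
      intro ht
      obtain ⟨Q, hQ1, hQ2, hQ3, hQ4, hQ5⟩ := ih ((Finset.subset_insert _ _).trans ht)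
      obtain ⟨Q', h1, h3, h4, h5, _, h7⟩ := H.L4 (RingHom.ker ρ) hQ1 hQ2 (hX j) (by
        intro x hx
        rw [RingHom.mem_ker, map_mul] at hx
        exact (mul_eq_zero.mp hx).resolve_left (hodd j (ht (Finset.mem_insert_self _ _))))
        (by rwa [RingHom.mem_ker])
      refine ⟨Q', h1, h3, hQ3.trans h4, ?_, by rwa [RingHom.mem_ker] at h7⟩
      intro i hi
      rcases Finset.mem_insert.mp hi with rfl | hi
      · exact h5
      · exact h4 (hQ4 i hi)
  obtain ⟨Q, hQ1, hQ2, hQ3, hQ4, hQ5⟩ := hcut s (Finset.Subset.refl _)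
  -- the codimension of `vI s`
  have hvI : ∀ t : Finset J, H.HI (vI t) ∧ t.card ≤ H.c (vI t) := by
    intro t
    induction t using Finset.induction_on with
    | empty => rw [vI_empty]; exact ⟨hbot, by simp⟩
    | insert j t hj ih =>
      have h1 : H.HI (vI (insert j t)) := by
        rw [vI_insert]
        exact H.sup_HI ih.1 (hX j)
      refine ⟨h1, ?_⟩
      rw [Finset.card_insert_of_notMem hj]
      have h3 : (vI t : Ideal (MvPolynomial J k)) < vI (insert j t) := by
        rw [vI_insert]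
        exact HSys.lt_sup (X_notMem_vI hj)
      have := H.c_lt ih.1 h1 (vI_isPrime t) (vI_isPrime _) h3
      omega
  by_contra hcon
  have hle : vI s ≤ Q := by
    rw [vI, Ideal.span_le]
    rintro _ ⟨j, hj, rfl⟩
    exact hQ4 j hj
  have hlt : vI s < Q := by
    refine lt_of_le_of_ne hle ?_
    rintro h
    exact hcon (h ▸ hQ3)
  have hc := H.c_lt (hvI s).1 hQ2 (vI_isPrime s) hQ1 hlt
  obtain ⟨F, hF1, hF2⟩ := hkey Q hQ1 hQ2 hQ4
  apply hQ5
  refine H.B1_abs I hQ1 hQ2 (fun j : s => w j) ?_ F hF1 hF2 ?_ ρ h2 hρ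
  · intro j h
    apply hodd j j.2
    rw [h]
    simp [dotTh]
  · have := (hvI s).2
    rw [Fintype.card_coe]
    omega

end P199H
end
end

section

section

/-!
# P199, blueprint H, lemma L6: the ideal part

* `P199H.HSys.K_vI`, `c_vI`, `LC_vI`: the ideal generated by a set of variables;
* `P199H.sL K a`: the variables `z_g`, `g ∉ Lam K a`;
* `P199H.IL K a`: the indices `inl i`, `i < a`;
* `P199H.exists_Pstar_abs`: the good prime `P*` (for an abstract system).
-/

set_option linter.all false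

namespace P199H

open MvPolynomial

section vI

variable {k J ι : Type} [Field k] [Fintype J]

theorem HSys.HI_vI (H : HSys (MvPolynomial J k) ι) (w : J → ι →₀ ℕ)
    (hbot : H.HI ⊥) (hX : ∀ j, H.Hom (X j) (w j)) (t : Finset J) : H.HI (vI t) := by
  classical
  induction t using Finset.induction_on with
  | empty => rw [vI_empty]; exact hbot
  | insert j t hj ih =>
    rw [vI_insert]
    exact H.sup_HI ih (hX j)

theorem HSys.K_vI (H : HSys (MvPolynomial J k) ι) (w : J → ι →₀ ℕ)
    (hbot : H.HI ⊥) (hX : ∀ j, H.Hom (X j) (w j)) (hK : H.K ⊥ = 1) (t : Finset J) :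
    H.K (vI t) = ∏ j ∈ t, (1 - monomial (w j) 1) := by
  classical
  induction t using Finset.induction_on with
  | empty => rw [vI_empty, hK, Finset.prod_empty]
  | insert j t hj ih =>
    rw [vI_insert, H.K_sup_prime (vI_isPrime t) (H.HI_vI w hbot hX t) (hX j) (X_notMem_vI hj), ih,
      Finset.prod_insert hj]

theorem phi_prod_one_sub (w : J → ι →₀ ℕ) (t : Finset J) :
    ∃ A : Polynomial (MvPolynomial ι ℤ),
      phi (∏ j ∈ t, (1 - monomial (w j) (1 : ℤ))) = Polynomial.X ^ t.card * A ∧
        A.coeff 0 = ∏ j ∈ t, dotTh (w j) := by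
  classical
  induction t using Finset.induction_on with
  | empty => exact ⟨1, by simp, by simp⟩
  | insert j t hj ih =>
    obtain ⟨A, hA, hA0⟩ := ih
    have hd : Polynomial.X ∣ phi (1 - monomial (w j) (1 : ℤ)) :=
      Polynomial.X_dvd_iff.mpr (HSys.phi_one_sub_coeff_zero (w j))
    obtain ⟨a, ha⟩ := hd
    have h3 := HSys.phi_one_sub_coeff_one (w j)
    rw [ha] at h3
    have h4 : a.coeff 0 = dotTh (w j) := by
      rw [← h3]
      exact (Polynomial.coeff_X_mul a 0).symm
    refine ⟨a * A, ?_, ?_⟩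
    · rw [Finset.prod_insert hj, map_mul, ha, hA, Finset.card_insert_of_notMem hj, pow_succ]
      ring
    · rw [Polynomial.mul_coeff_zero, h4, hA0, Finset.prod_insert hj]

theorem HSys.c_vI (H : HSys (MvPolynomial J k) ι) (w : J → ι →₀ ℕ) (hw : ∀ j, w j ≠ 0)
    (hbot : H.HI ⊥) (hX : ∀ j, H.Hom (X j) (w j)) (hK : H.K ⊥ = 1) (t : Finset J) :
    H.c (vI t) = t.card := by
  classical
  apply le_antisymm
  · have h1 := H.X_pow_dvd_prime (vI_isPrime t) (H.HI_vI w hbot hX t)
    rw [H.K_vI w hbot hX hK] at h1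
    obtain ⟨A, hA, hA0⟩ := phi_prod_one_sub w t
    rw [hA] at h1
    by_contra hcon
    obtain ⟨q, hq⟩ := Nat.exists_eq_add_of_lt (not_le.mp hcon)
    rw [hq, add_assoc, pow_add, mul_dvd_mul_iff_left (pow_ne_zero _ Polynomial.X_ne_zero),
      pow_succ'] at h1
    have h2 : Polynomial.X ∣ A := (dvd_mul_right _ _).trans h1
    rw [Polynomial.X_dvd_iff, hA0] at h2
    exact (Finset.prod_ne_zero_iff.mpr fun j _ => dotTh_ne_zero (hw j)) h2
  · induction t using Finset.induction_on with
    | empty => simp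
    | insert j t hj ih =>
      rw [Finset.card_insert_of_notMem hj]
      have h3 : (vI t : Ideal (MvPolynomial J k)) < vI (insert j t) := by
        rw [vI_insert]
        exact HSys.lt_sup (X_notMem_vI hj)
      have := H.c_lt (H.HI_vI w hbot hX t) (H.HI_vI w hbot hX (insert j t)) (vI_isPrime t)
        (vI_isPrime _) h3
      omega

theorem HSys.LC_vI (H : HSys (MvPolynomial J k) ι) (w : J → ι →₀ ℕ) (hw : ∀ j, w j ≠ 0)
    (hbot : H.HI ⊥) (hX : ∀ j, H.Hom (X j) (w j)) (hK : H.K ⊥ = 1) (t : Finset J) :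
    H.LC (vI t) = ∏ j ∈ t, dotTh (w j) := by
  unfold HSys.LC
  rw [H.c_vI w hw hbot hX hK, H.K_vI w hbot hX hK]
  obtain ⟨A, hA, hA0⟩ := phi_prod_one_sub w t
  rw [hA, Polynomial.coeff_X_pow_mul', if_pos le_rfl, Nat.sub_self, hA0]

end vI

section Lam

variable {K : ℕ}

open Classical in
/-- the variables `z_g`, `g ∉ Lam K a` -/
noncomputable def sL (K a : ℕ) : Finset (Jz K) :=
  Finset.univ.filter fun j => ∃ g : {g : Gam K // g ≠ 0}, g.1 ∉ Lam K a ∧ j = Sum.inl g

theorem mem_sL {a : ℕ} {j : Jz K} :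
    j ∈ sL K a ↔ ∃ g : {g : Gam K // g ≠ 0}, g.1 ∉ Lam K a ∧ j = Sum.inl g := by
  classical
  simp [sL]

theorem inl_mem_sL {a : ℕ} {g : {g : Gam K // g ≠ 0}} :
    (Sum.inl g : Jz K) ∈ sL K a ↔ g.1 ∉ Lam K a := by
  rw [mem_sL]
  constructor
  · rintro ⟨g', h, e⟩
    rw [Sum.inl.inj e]
    exact h
  · intro h
    exact ⟨g, h, rfl⟩

theorem inr_notMem_sL {a : ℕ} {i : Ix K} : (Sum.inr i : Jz K) ∉ sL K a := by
  rw [mem_sL]
  rintro ⟨g', h, e⟩
  exact absurd e (by simp)

/-- the indices `inl i`, `i < a` -/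
def IL (K a : ℕ) : Set (Ix K) := {i | ∃ l : Fin K, (l : ℕ) < a ∧ i = Sum.inl l}

theorem exists_one_of_notMem_Lam {a : ℕ} {g : Gam K} (hg : g ∉ Lam K a) :
    ∃ i, i ∉ IL K a ∧ gval g i = 1 := by
  rw [mem_Lam] at hg
  by_cases h1 : ∀ i : Fin K, g (Sum.inr i) = 0
  · have h2 : ¬ ∀ i : Fin K, a ≤ (i : ℕ) → g (Sum.inl i) = 0 := fun h => hg ⟨h1, h⟩
    push Not at h2
    obtain ⟨i, hi, hgi⟩ := h2
    refine ⟨Sum.inl i, ?_, ?_⟩
    · rintro ⟨l, hl, e⟩
      rw [← Sum.inl.inj e] at hl
      omega
    · rw [gval_apply]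
      rcases z2 (g (Sum.inl i)) with h | h
      · exact absurd h hgi
      · rw [h]; rfl
  · push Not at h1
    obtain ⟨i, hgi⟩ := h1
    refine ⟨Sum.inr i, ?_, ?_⟩
    · rintro ⟨l, hl, e⟩
      exact absurd e (by simp)
    · rw [gval_apply]
      rcases z2 (g (Sum.inr i)) with h | h
      · exact absurd h hgi
      · rw [h]; rfl

theorem gval_eq_zero_of_mem_Lam {a : ℕ} {g : Gam K} (hg : g ∈ Lam K a) {i : Ix K}
    (hi : i ∉ IL K a) : gval g i = 0 := by
  rw [gval_apply]
  rcases i with i | i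
  · have h : a ≤ (i : ℕ) := by
      by_contra h
      exact hi ⟨i, not_le.mp h, rfl⟩
    rw [hg.2 i h]; rfl
  · rw [hg.1 i]; rfl

theorem wz_even {a r : ℕ} (j : Jz K) (hj : j ∉ sL K a) (i : Ix K) (hi : i ∉ IL K a) :
    Even (wz r j i) := by
  classical
  rcases j with g | l
  · rw [inl_mem_sL, not_not] at hj
    rw [wz_inl, Finsupp.tsub_apply, gval_eq_zero_of_mem_Lam hj hi, Finsupp.smul_apply, D0_apply,
      smul_eq_mul, Nat.sub_zero]
    exact even_two.mul_left r
  · rw [wz_inr, Finsupp.single_apply]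
    split_ifs
    · exact even_two
    · exact ⟨0, rfl⟩

theorem rho_wz {a r : ℕ} (hr : 1 ≤ r) (j : Jz K) (hj : j ∈ sL K a) :
    rho (IL K a) (dotTh (wz r j)) ≠ 0 := by
  obtain ⟨g, hg, rfl⟩ := mem_sL.mp hj
  obtain ⟨i, hi, h1⟩ := exists_one_of_notMem_Lam hg
  refine rho_dotTh_ne_zero hi ?_
  rw [wz_inl, Finsupp.tsub_apply, h1, Finsupp.smul_apply, D0_apply, smul_eq_mul]
  refine ⟨r - 1, ?_⟩
  omega

/-- the ideal generated by the `z_g`, `g ∉ Lam K a`, is good -/
theorem LC_nn (H : HSys (MvPolynomial (Jz K) ℚ) (Ix K)) {a r : ℕ} (hr : 1 ≤ r)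
    (hbot : H.HI ⊥) (hX : ∀ j, H.Hom (X j) (wz r j)) (hK : H.K ⊥ = 1) :
    rho (IL K a) (H.LC (vI (sL K a))) ≠ 0 := by
  rw [H.LC_vI (wz r) (wz_ne_zero hr) hbot hX hK, map_prod, Finset.prod_ne_zero_iff]
  exact fun j hj => rho_wz hr j hj

/-- **the good prime `P*`** -/
theorem exists_Pstar_abs (H : HSys (MvPolynomial (Jz K) ℚ) (Ix K)) {a r : ℕ} (haK : a ≤ K)
    (hr : 1 ≤ r) (hbot : H.HI ⊥) (hK : H.K ⊥ = 1) (hc : H.c ⊥ = 0)
    (hB1 : ∀ P : Ideal (MvPolynomial (Jz K) ℚ), P.IsPrime → H.HI P →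
      rho (IL K a) (H.LC P) ≠ 0 → P ≤ vI (sL K a))
    (Q : Gam K → MvPolynomial (Jz K) ℚ) (e : Ix K →₀ ℕ) (he : ∀ i, Even (e i) ∧ e i ≠ 0)
    (hQ : ∀ g, g ∉ Lam K a → H.Hom (Q g) (e - gval g)) :
    ∃ P : Ideal (MvPolynomial (Jz K) ℚ), P.IsPrime ∧ H.HI P ∧
      H.c P + 2 ^ a ≤ 2 ^ (2 * K - a) ∧ rho (IL K a) (H.LC P) ≠ 0 ∧
      (∀ g, g ∈ LamP K a → g ∉ Lam K a → Q g ∈ P) ∧ P ≤ vI (sL K a) := by
  classical
  have hLC : H.LC ⊥ = 1 := by
    unfold HSys.LC
    rw [hK, hc]
    simp
  obtain ⟨P, h1, h2, h3, h4, h5, h6⟩ := H.rho_cuts (IL K a)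
    (Finset.univ.filter fun γ : Gam K => γ ∈ LamP K a ∧ γ ∉ Lam K a) Q (fun g => e - gval g)
    (fun g hg => hQ g (Finset.mem_filter.mp hg).2.2)
    (fun g hg => by
      obtain ⟨i, hi, hi1⟩ := exists_one_of_notMem_Lam (Finset.mem_filter.mp hg).2.2
      refine ⟨i, hi, ?_⟩
      rw [Finsupp.tsub_apply, hi1]
      obtain ⟨⟨m, hm⟩, h0⟩ := he i
      refine ⟨m - 1, ?_⟩
      omega)
    (P := ⊥) Ideal.isPrime_bot hbot (by rw [hLC, map_one]; exact one_ne_zero)
  refine ⟨P, h1, h2, ?_, h6, ?_, hB1 P h1 h2 h6⟩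
  · rw [hc, zero_add, card_diff haK] at h5
    have h7 : 2 ^ a ≤ 2 ^ (2 * K - a) := Nat.pow_le_pow_right (by norm_num) (by omega)
    omega
  · intro g hg hg'
    exact h4 g (Finset.mem_filter.mpr ⟨Finset.mem_univ _, hg, hg'⟩)

end Lam

end P199H
end
end

section

section

/-!
# P199-H: the K-polynomial of an ideal containing variables (`kp_vars`), parity of exponents
(`kp_even`)
-/

set_option linter.all false

namespace P199H

open MvPolynomial

section EvenOut

variable {σ : Type}

/-- only exponents which are even outside `I` -/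
def EvenOut (I : Set σ) (f : MvPowerSeries σ ℤ) : Prop :=
  ∀ m, MvPowerSeries.coeff m f ≠ 0 → ∀ i ∉ I, Even (m i)

theorem EvenOut.sub {I : Set σ} {f g : MvPowerSeries σ ℤ} (hf : EvenOut I f)
    (hg : EvenOut I g) : EvenOut I (f - g) := by
  intro m hm
  by_cases h : MvPowerSeries.coeff m f = 0
  · refine hg m ?_
    intro h'
    exact hm (by rw [map_sub, h, h', sub_zero])
  · exact hf m h

theorem EvenOut.one {I : Set σ} : EvenOut I 1 := by
  classical
  intro m hm i _
  rw [MvPowerSeries.coeff_one] at hm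
  have : m = 0 := by
    by_contra h
    exact hm (if_neg h)
  rw [this]
  simp

theorem EvenOut.tp {I : Set σ} {d : Dg σ} (hd : ∀ i ∉ I, Even (d i)) :
    EvenOut I (tp d) := by
  classical
  intro m hm i hi
  rw [MvPowerSeries.coeff_monomial] at hm
  have : m = d := by
    by_contra h
    exact hm (if_neg h)
  rw [this]
  exact hd i hi

theorem EvenOut.mul {I : Set σ} {f g : MvPowerSeries σ ℤ} (hf : EvenOut I f)
    (hg : EvenOut I g) : EvenOut I (f * g) := by
  classical
  intro m hm i hi
  rw [MvPowerSeries.coeff_mul] at hm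
  obtain ⟨p, hp, hne⟩ := Finset.exists_ne_zero_of_sum_ne_zero hm
  have h1 := hf p.1 (left_ne_zero_of_mul hne) i hi
  have h2 := hg p.2 (right_ne_zero_of_mul hne) i hi
  rw [Finset.HasAntidiagonal.mem_antidiagonal] at hp
  rw [← hp, Finsupp.add_apply]
  exact h1.add h2

theorem EvenOut.prod {I : Set σ} {α : Type*} (s : Finset α)
    (f : α → MvPowerSeries σ ℤ) (hf : ∀ a ∈ s, EvenOut I (f a)) :
    EvenOut I (∏ a ∈ s, f a) := by
  classical
  induction s using Finset.induction_on with
  | empty => rw [Finset.prod_empty]; exact EvenOut.one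
  | insert a s ha ih =>
    rw [Finset.prod_insert ha]
    exact (hf a (Finset.mem_insert_self _ _)).mul
      (ih fun b hb => hf b (Finset.mem_insert_of_mem hb))

theorem EvenOut.hs {k : Type*} [Field k] {J : Type*} [Finite J] {I : Set σ} (w : J → Dg σ)
    (hw : ∀ j, w j ≠ 0) (hI : ∀ j, ∀ i ∉ I, Even (w j i))
    (V : Submodule k (MvPolynomial J k)) : EvenOut I ((grPoly k w hw).hs V) := by
  classical
  intro m hm i hi
  rw [Gr.coeff_hs] at hm
  by_contra hodd
  apply hm
  have : V.map ((grPoly k w hw).π m) = ⊥ := by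
    rw [eq_bot_iff]
    rintro _ ⟨x, _, rfl⟩
    rw [Submodule.mem_bot]
    change MvPolynomial.weightedHomogeneousComponent w m x = 0
    rw [MvPolynomial.weightedHomogeneousComponent_apply]
    refine Finset.sum_eq_zero fun e he => ?_
    exfalso
    apply hodd
    have he' := (Finset.mem_filter.mp he).2
    rw [← he', Finsupp.weight_apply, Finsupp.sum, Finsupp.finsetSum_apply]
    refine Finset.even_sum _ fun j _ => ?_
    rw [Finsupp.smul_apply, smul_eq_mul]
    exact (hI j i hi).mul_left _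
  rw [this]
  simp

end EvenOut

section Vars

variable {k : Type*} [Field k] {σ : Type} {J : Type*} [Finite J]

theorem isHom_of_homI (w : J → Dg σ) (hw : ∀ j, w j ≠ 0) {I : Ideal (MvPolynomial J k)}
    (hI : HomI w I) : (grPoly k w hw).IsHom (I.restrictScalars k) := fun m x hx => hI x hx m


omit [Finite J] in
theorem rename_weightedHomogeneousComponent {J0 : Type*} (ι : J0 → J) (w : J → Dg σ) (m : Dg σ)
    (x : MvPolynomial J0 k) :
    rename ι (weightedHomogeneousComponent (fun j => w (ι j)) m x) =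
      weightedHomogeneousComponent w m (rename ι x) := by
  classical
  induction x using MvPolynomial.induction_on' with
  | monomial e a =>
    rw [rename_monomial]
    have h : Finsupp.weight w (e.mapDomain ι) = Finsupp.weight (fun j => w (ι j)) e := by
      rw [Finsupp.weight_apply, Finsupp.weight_apply, Finsupp.sum_mapDomain_index]
      · intro b; simp
      · intro b m₁ m₂; rw [add_smul]
    have h1 : (monomial e a).IsWeightedHomogeneous (fun j => w (ι j))
        (Finsupp.weight (fun j => w (ι j)) e) := isWeightedHomogeneous_monomial _ _ _ rfl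
    have h2 : (monomial (e.mapDomain ι) a).IsWeightedHomogeneous w
        (Finsupp.weight (fun j => w (ι j)) e) := isWeightedHomogeneous_monomial _ _ _ h
    by_cases hm : m = Finsupp.weight (fun j => w (ι j)) e
    · rw [hm, h1.weightedHomogeneousComponent_same, h2.weightedHomogeneousComponent_same,
        rename_monomial]
    · rw [h1.weightedHomogeneousComponent_ne _ hm, h2.weightedHomogeneousComponent_ne _ hm, map_zero]
  | add p q hp hq => rw [map_add, map_add, hp, hq, map_add, map_add]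

/-- killing the variables outside `J0`: the series of `S / P` is that of `S0 / P ∩ S0` -/
theorem hs_comap_rename {J0 : Type*} [Finite J0] (ι : J0 → J)
    (w : J → Dg σ) (hw : ∀ j, w j ≠ 0) {P : Ideal (MvPolynomial J k)} (hP : HomI w P)
    (hX : ∀ j, j ∉ Set.range ι → X j ∈ P) :
    (grPoly k w hw).hs ⊤ - (grPoly k w hw).hs (P.restrictScalars k) =
      (grPoly k (fun j => w (ι j)) (fun _ => hw _)).hs ⊤ -
      (grPoly k (fun j => w (ι j)) (fun _ => hw _)).hs
        ((P.comap (rename ι : MvPolynomial J0 k →ₐ[k] MvPolynomial J k)).restrictScalars k) := by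
  classical
  have hdeg : IsDeg (grPoly k (fun j => w (ι j)) (fun j => hw _)) (grPoly k w hw) 0
      (rename ι : MvPolynomial J0 k →ₐ[k] MvPolynomial J k).toLinearMap := by
    intro m x
    rw [add_zero]
    exact rename_weightedHomogeneousComponent ι w m x
  have h := hs_shift hdeg (V := ⊤) (Gr.isHom_top _) (isHom_of_homI w hw hP)
  rw [tp_zero, one_mul, top_inf_eq] at h
  have htop : (⊤ : Submodule k (MvPolynomial J0 k)).map
      (rename ι : MvPolynomial J0 k →ₐ[k] MvPolynomial J k).toLinearMap ⊔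
      P.restrictScalars k = ⊤ := by
    rw [eq_top_iff]
    rintro x -
    induction x using MvPolynomial.induction_on with
    | C a =>
      exact Submodule.mem_sup_left ⟨C a, Submodule.mem_top, by simp⟩
    | add p q hp hq => exact Submodule.add_mem _ (hp) (hq)
    | mul_X p j hp =>
      by_cases hj : j ∈ Set.range ι
      · obtain ⟨j0, rfl⟩ := hj
        obtain ⟨a, ⟨b, -, rfl⟩, c, hc, rfl⟩ := Submodule.mem_sup.1 hp
        rw [add_mul]
        refine Submodule.add_mem_sup ⟨b * X j0, Submodule.mem_top, by simp⟩ ?_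
        exact Ideal.mul_mem_right _ _ hc
      · exact Submodule.mem_sup_right (Ideal.mul_mem_left _ _ (hX j hj))
  rw [htop] at h
  exact h

theorem kp_vars [Fintype J] (p : J → Prop) [DecidablePred p]
    (w : J → Dg σ) (hw : ∀ j, w j ≠ 0) {P : Ideal (MvPolynomial J k)} (hP : HomI w P)
    (hX : ∀ j, ¬ p j → X j ∈ P) :
    kp w hw P = kp (fun j : {j // p j} => w j) (fun _ => hw _)
        (P.comap (rename (Subtype.val : {j // p j} → J) :
          MvPolynomial {j // p j} k →ₐ[k] MvPolynomial J k)) *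
      ∏ j : {j // ¬ p j}, (1 - monomial (w j) 1) := by
  classical
  have hI : HomI (fun j : {j // p j} => w j) (P.comap (rename (Subtype.val : {j // p j} → J) :
      MvPolynomial {j // p j} k →ₐ[k] MvPolynomial J k)) := by
    intro x hx m
    rw [Ideal.mem_comap] at hx ⊢
    have := rename_weightedHomogeneousComponent (k := k) (Subtype.val : {j // p j} → J) w m x
    change rename _ _ ∈ P
    rw [this]
    exact hP _ hx m
  apply kp_unique w hw hP
  have h1 := hs_comap_rename (Subtype.val : {j // p j} → J) w hw hP (by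
    intro j hj
    exact hX j fun h => hj ⟨⟨j, h⟩, rfl⟩)
  rw [h1, MvPolynomial.coe_mul, coe_kp _ _ hI, mul_assoc]
  congr 1
  rw [← Fintype.prod_subtype_mul_prod_subtype p (fun j => (1 - tp (w j) : MvPowerSeries σ ℤ))]
  congr 1
  rw [← MvPolynomial.coeToMvPowerSeries.ringHom_apply, map_prod]
  refine Finset.prod_congr rfl fun j _ => ?_
  rw [map_sub, map_one, MvPolynomial.coeToMvPowerSeries.ringHom_apply, coe_monomial_tp]

theorem kp_even [Fintype J] {I : Set σ} (w : J → Dg σ) (hw : ∀ j, w j ≠ 0)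
    (hI : ∀ j, ∀ i ∉ I, Even (w j i)) {P : Ideal (MvPolynomial J k)} (hP : HomI w P) :
    ∀ m ∈ (kp w hw P).support, ∀ i ∉ I, Even (m i) := by
  intro m hm
  have h1 : EvenOut I (kp w hw P : MvPowerSeries σ ℤ) := by
    rw [coe_kp w hw hP]
    refine ((EvenOut.hs w hw hI _).sub (EvenOut.hs w hw hI _)).mul (EvenOut.prod _ _ ?_)
    intro j _
    exact EvenOut.one.sub (EvenOut.tp (hI j))
  refine h1 m ?_
  rw [MvPolynomial.coeff_coe]
  exact mem_support_iff.mp hm

end Vars

end P199H
end
end

section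

section

set_option linter.all false

/-!
# P199, blueprint H, lemma L6: the element `Q(z)` and the global step of (B2)

Exported:
* `P199H.inj_of_inj_mod`: a matrix over a domain whose reduction modulo a prime is injective, is
  injective;
* `P199H.hank τ z d` the `(d+1) × (d+1)` Hankel matrix `τ (z ^ (i + j))`, `P199H.Nco τ z d j` its
  cofactors in the last row, `P199H.Qel τ z d = ∑ j, Nco j • z ^ j`;
* `P199H.Qel_eq_zero`: the global step.
-/

namespace P199H

open Module

/-- a matrix over a domain whose image in another domain is injective is injective -/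
theorem inj_of_inj_mod {R B : Type*} [CommRing R] [IsDomain R] [CommRing B] [IsDomain B]
    (f : R →+* B) (hf : Function.Surjective f) {m n : Type*} [Fintype m] [Fintype n]
    (A : Matrix m n R) (h : ∀ v : n → B, (A.map f).mulVec v = 0 → v = 0)
    (v : n → R) (hv : A.mulVec v = 0) : v = 0 := by
  classical
  let κ := FractionRing B
  let i := algebraMap B κ
  have hi : Function.Injective i := IsFractionRing.injective B κ
  let A' : Matrix m n κ := (A.map f).map i
  -- injectivity over the fraction field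
  have hA' : ∀ w : n → κ, A'.mulVec w = 0 → w = 0 := by
    intro w hw
    obtain ⟨b, hb⟩ := IsLocalization.exist_integer_multiples_of_finite (nonZeroDivisors B) w
    choose w' hw' using hb
    have hb0 : (b : B) ≠ 0 := nonZeroDivisors.ne_zero b.2
    have h1 : (A.map f).mulVec w' = 0 := by
      ext j
      apply hi
      have h2 : i ((A.map f).mulVec w' j) = (A'.mulVec fun k => i (w' k)) j := by
        simp [Matrix.mulVec, dotProduct, A', i]
      rw [h2]
      have h3 : (fun k => i (w' k)) = (b : B) • w := by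
        ext k
        exact hw' k
      rw [h3, Matrix.mulVec_smul, hw]
      simp
    have h4 := h w' h1
    ext k
    have h5 := hw' k
    rw [h4] at h5
    simp only [Pi.zero_apply, map_zero] at h5
    rw [Algebra.smul_def] at h5
    rcases mul_eq_zero.1 h5.symm with h6 | h6
    · exact absurd (hi (by rw [h6, map_zero])) hb0
    · exact h6
  -- left inverse
  obtain ⟨L, hL⟩ : ∃ L : Matrix n m κ, L * A' = 1 := by
    have hinj : LinearMap.ker (Matrix.toLin' A') = ⊥ := by
      rw [LinearMap.ker_eq_bot']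
      intro w hw
      exact hA' w (by simpa using hw)
    obtain ⟨g, hg⟩ := LinearMap.exists_leftInverse_of_injective _ hinj
    refine ⟨LinearMap.toMatrix' g, ?_⟩
    have h1 : LinearMap.toMatrix' (g.comp (Matrix.toLin' A')) = 1 := by
      rw [hg]; exact LinearMap.toMatrix'_id
    rwa [LinearMap.toMatrix'_comp, LinearMap.toMatrix'_toLin'] at h1
  obtain ⟨b, hb⟩ := IsLocalization.exist_integer_multiples_of_finite (nonZeroDivisors B)
    (fun p : n × m => L p.1 p.2)
  choose L' hL' using hb
  have hb0 : (b : B) ≠ 0 := nonZeroDivisors.ne_zero b.2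
  choose s hs using hf
  let L'' : Matrix n m R := fun j k => s (L' (j, k))
  have hprod : (L'' * A).map f = (b : B) • (1 : Matrix n n B) := by
    ext j k
    apply hi
    have h1 : i (((L'' * A).map f) j k) = ((b : B) • (L * A')) j k := by
      rw [Matrix.smul_apply, Matrix.map_apply, Matrix.mul_apply, Matrix.mul_apply, map_sum,
        map_sum, Finset.smul_sum]
      refine Finset.sum_congr rfl fun l _ => ?_
      rw [map_mul, map_mul]
      have h2 : i (f (L'' j l)) = (b : B) • L j l := by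
        have : f (L'' j l) = L' (j, l) := hs _
        rw [this]
        exact hL' (j, l)
      rw [h2]
      simp [A', i]
    rw [h1, hL]
    rw [Matrix.smul_apply, Matrix.smul_apply, Matrix.one_apply, Matrix.one_apply]
    split_ifs
    · rw [smul_eq_mul, mul_one, Algebra.smul_def, mul_one]
    · simp
  have hdet : (L'' * A).det ≠ 0 := by
    intro h0
    have h1 : ((L'' * A).map f).det = 0 := by
      have := RingHom.map_det f (L'' * A)
      rw [h0, map_zero] at this
      exact this.symm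
    rw [hprod, Matrix.det_smul, Matrix.det_one, mul_one] at h1
    exact pow_ne_zero _ hb0 h1
  apply Matrix.eq_zero_of_mulVec_eq_zero hdet
  rw [← Matrix.mulVec_mulVec, hv, Matrix.mulVec_zero]

section Q

variable {R A : Type*} [CommRing R] [Ring A] [Algebra R A]

/-- the Hankel matrix -/
def hank (τ : A →ₗ[R] R) (z : A) (d : ℕ) : Matrix (Fin (d + 1)) (Fin (d + 1)) R :=
  Matrix.of fun i j => τ (z ^ ((i : ℕ) + (j : ℕ)))

/-- cofactors of the Hankel matrix in the last row -/
def Nco (τ : A →ₗ[R] R) (z : A) (d : ℕ) (j : Fin (d + 1)) : R :=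
  (hank τ z d).adjugate j (Fin.last d)

/-- the element `Q(z)` -/
def Qel (τ : A →ₗ[R] R) (z : A) (d : ℕ) : A := ∑ j, Nco τ z d j • z ^ (j : ℕ)

theorem Qel_comm (τ : A →ₗ[R] R) (z : A) (d : ℕ) : z * Qel τ z d = Qel τ z d * z := by
  unfold Qel
  rw [Finset.mul_sum, Finset.sum_mul]
  refine Finset.sum_congr rfl fun j _ => ?_
  rw [mul_smul_comm, smul_mul_assoc, ← pow_succ', ← pow_succ]

theorem tau_Qel (τ : A →ₗ[R] R) (z : A) (d : ℕ) (i : ℕ) (hi : i < d) :
    τ (z ^ i * Qel τ z d) = 0 := by
  have h1 := Matrix.mul_adjugate (hank τ z d)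
  have h2 := congrFun (congrFun h1 ⟨i, by omega⟩) (Fin.last d)
  rw [Matrix.mul_apply, Matrix.smul_apply, Matrix.one_apply_ne, smul_zero] at h2
  · unfold Qel
    rw [Finset.mul_sum, map_sum, ← h2]
    refine Finset.sum_congr rfl fun j _ => ?_
    rw [mul_smul_comm, map_smul, ← pow_add, smul_eq_mul, mul_comm]
    rfl
  · intro h
    have := congrArg Fin.val h
    simp at this
    omega

theorem Nco_last (τ : A →ₗ[R] R) (z : A) (d : ℕ) :
    Nco τ z d (Fin.last d) =
      (Matrix.of fun i j : Fin d => τ (z ^ ((i : ℕ) + (j : ℕ)))).det := by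
  unfold Nco
  rw [Matrix.adjugate_fin_succ_eq_det_submatrix]
  have h1 : (-1 : R) ^ ((Fin.last d : ℕ) + (Fin.last d : ℕ)) = 1 := by
    rw [← two_mul, pow_mul]; simp
  rw [h1, one_mul]
  congr 1
  ext i j
  simp [hank, Matrix.submatrix_apply]

end Q

section hom

variable {R B A A' : Type*} [CommRing R] [CommRing B] [Ring A] [Ring A'] [Algebra R A]
  [Algebra B A']

theorem map_Nco (f : R →+* B) (F : A →+* A') (τ : A →ₗ[R] R) (τ' : A' →ₗ[B] B)
    (hτ : ∀ x, τ' (F x) = f (τ x)) (z : A) (d : ℕ) (j : Fin (d + 1)) :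
    f (Nco τ z d j) = Nco τ' (F z) d j := by
  have h1 : hank τ' (F z) d = f.mapMatrix (hank τ z d) := by
    ext i j
    simp [hank, ← map_pow, hτ]
  unfold Nco
  rw [h1, ← RingHom.map_adjugate]
  rfl

/-- **The global step of (B2).** -/
theorem Qel_eq_zero [IsDomain R] [IsDomain B] {Γ : Type*} [Fintype Γ]
    (f : R →+* B) (hf : Function.Surjective f) (b : Basis Γ R A) (b' : Basis Γ B A')
    (F : A →+* A') (hF : ∀ x g, b'.repr (F x) g = f (b.repr x g))
    (τ : A →ₗ[R] R) (τ' : A' →ₗ[B] B)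
    (hτ : ∀ x, τ' (F x) = f (τ x)) (z : A) (d : ℕ) (T : Set Γ)
    (hK : ∀ q : A', F z * q = q * F z → (∀ g ∈ T, b'.repr q g = 0) →
      (∀ i < d, τ' (F z ^ i * q) = 0) → q = 0)
    (hQ : ∀ g ∈ T, b.repr (Qel τ z d) g = 0) : Qel τ z d = 0 := by
  classical
  -- the linear maps
  have hFb : ∀ g, F (b g) = b' g := by
    intro g
    apply b'.repr.injective
    ext h
    rw [hF, Basis.repr_self, Basis.repr_self, Finsupp.single_apply, Finsupp.single_apply]
    split_ifs <;> simp
  have hFsmul : ∀ (r : R) (x : A), F (r • x) = f r • F x := by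
    intro r x
    apply b'.repr.injective
    ext h
    rw [hF, map_smul, map_smul, Finsupp.smul_apply, Finsupp.smul_apply, smul_eq_mul,
      smul_eq_mul, map_mul, hF]
  let M := Γ ⊕ (Γ ⊕ Fin d)
  let ψ : A →ₗ[R] (M → R) := LinearMap.pi fun m => Sum.elim
    (fun g => (b.coord g).comp (LinearMap.mulLeft R z - LinearMap.mulRight R z))
    (Sum.elim (fun g => if g ∈ T then b.coord g else 0)
      (fun i : Fin d => τ.comp (LinearMap.mulLeft R (z ^ (i : ℕ))))) m
  let ψ' : A' →ₗ[B] (M → B) := LinearMap.pi fun m => Sum.elim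
    (fun g => (b'.coord g).comp (LinearMap.mulLeft B (F z) - LinearMap.mulRight B (F z)))
    (Sum.elim (fun g => if g ∈ T then b'.coord g else 0)
      (fun i : Fin d => τ'.comp (LinearMap.mulLeft B (F z ^ (i : ℕ))))) m
  have hψ : ∀ x m, ψ' (F x) m = f (ψ x m) := by
    intro x m
    rcases m with g | g | i
    · change b'.repr (F z * F x - F x * F z) g = f (b.repr (z * x - x * z) g)
      rw [← hF, map_sub F, map_mul F, map_mul F]
    · change (if g ∈ T then b'.coord g else 0) (F x) = f ((if g ∈ T then b.coord g else 0) x)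
      split_ifs
      · exact hF x g
      · simp
    · change τ' (F z ^ (i : ℕ) * F x) = f (τ (z ^ (i : ℕ) * x))
      rw [← hτ, map_mul F, map_pow F]
  let Mat : Matrix M Γ R := Matrix.of fun m g => ψ (b g) m
  have hMat : ∀ x : A, Mat.mulVec (fun g => b.repr x g) = ψ x := by
    intro x
    ext m
    have h1 : ψ x = ∑ g, b.repr x g • ψ (b g) := by
      conv_lhs => rw [← b.sum_repr x, map_sum]
      exact Finset.sum_congr rfl fun g _ => map_smul _ _ _
    rw [h1, Finset.sum_apply]
    simp only [Matrix.mulVec, dotProduct, Mat, Matrix.of_apply, Pi.smul_apply, smul_eq_mul]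
    exact Finset.sum_congr rfl fun g _ => mul_comm _ _
  have hMat' : ∀ x : A', (Mat.map f).mulVec (fun g => b'.repr x g) = ψ' x := by
    intro x
    ext m
    have h1 : ψ' x = ∑ g, b'.repr x g • ψ' (b' g) := by
      conv_lhs => rw [← b'.sum_repr x, map_sum]
      exact Finset.sum_congr rfl fun g _ => map_smul _ _ _
    rw [h1, Finset.sum_apply]
    simp only [Matrix.mulVec, dotProduct, Pi.smul_apply, smul_eq_mul, Matrix.map_apply]
    refine Finset.sum_congr rfl fun g _ => ?_
    rw [mul_comm]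
    congr 1
    rw [← hFb g, hψ]
    rfl
  have hinj : ∀ v : Γ → B, (Mat.map f).mulVec v = 0 → v = 0 := by
    intro v hv
    let q : A' := ∑ g, v g • b' g
    have hq : ∀ g, b'.repr q g = v g := by
      intro g
      simp only [q, map_sum, map_smul, Basis.repr_self, Finsupp.coe_finset_sum,
        Finset.sum_apply, Finsupp.smul_apply, smul_eq_mul]
      rw [Finset.sum_eq_single g]
      · simp
      · intro h _ hne
        simp [Finsupp.single_apply, hne]
      · intro h; exact absurd (Finset.mem_univ _) h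
    have h1 : (fun g => b'.repr q g) = v := funext hq
    have h2 : ψ' q = 0 := by rw [← hMat', h1]; exact hv
    have h3 : q = 0 := by
      apply hK
      · apply b'.repr.injective
        ext g
        have h4 := congrFun h2 (Sum.inl g)
        change b'.repr (F z * q - q * F z) g = 0 at h4
        rw [map_sub, Finsupp.sub_apply] at h4
        exact sub_eq_zero.1 h4
      · intro g hg
        have h4 := congrFun h2 (Sum.inr (Sum.inl g))
        change (if g ∈ T then b'.coord g else 0) q = 0 at h4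
        rw [if_pos hg] at h4
        exact h4
      · intro i hi
        exact congrFun h2 (Sum.inr (Sum.inr ⟨i, hi⟩))
    rw [← h1, h3]
    ext g
    simp
  have hψQ : ψ (Qel τ z d) = 0 := by
    ext m
    rcases m with g | g | i
    · change b.repr (z * Qel τ z d - Qel τ z d * z) g = 0
      rw [Qel_comm, sub_self]; simp
    · change (if g ∈ T then b.coord g else 0) (Qel τ z d) = 0
      split_ifs with h
      · exact hQ g h
      · simp
    · exact tau_Qel τ z d i i.2
  have h5 := inj_of_inj_mod f hf Mat hinj (fun g => b.repr (Qel τ z d) g) (by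
    rw [hMat, hψQ])
  apply b.repr.injective
  ext g
  rw [map_zero, Finsupp.zero_apply]
  exact congrFun h5 g

end hom

end P199H
end
end

section

section

set_option linter.all false

/-!
# P199, blueprint H: homogeneous elements of `Tw K (MvPolynomial J k) s`

Exported:
* `P199H.Wt w p c e`: every monomial `d` of `p` satisfies `weight w d + c = e`
  (`p` is homogeneous of degree `e - c`), with closure lemmas, `Wt.det`;
* `P199H.vl g : Ix K →₀ ℕ`, the degree of `X ^ g`;
* `P199H.HomTw w D f`: `f` is homogeneous of degree `D`; `HomTw.mul`, `HomTw.pow`, `HomTw.tau`, ...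
* `P199H.wt_Qel`: the coefficients of `Q(z)` are homogeneous.
-/

namespace P199H

open MvPolynomial

section Wt

variable {k J ι : Type*} [CommRing k] (w : J → (ι →₀ ℕ))

/-- `p` is homogeneous of degree `e - c` -/
def Wt (p : MvPolynomial J k) (c e : ι →₀ ℕ) : Prop :=
  ∀ d, coeff d p ≠ 0 → Finsupp.weight w d + c = e

variable {w}

theorem Wt.isWH {p : MvPolynomial J k} {c e : ι →₀ ℕ} (h : Wt w p c e) :
    IsWeightedHomogeneous w p (e - c) := by
  intro d hd
  rw [← h d hd, add_tsub_cancel_right]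

theorem Wt.of_isWH {p : MvPolynomial J k} {m c e : ι →₀ ℕ} (h : IsWeightedHomogeneous w p m)
    (hm : m + c = e) : Wt w p c e := by
  intro d hd
  rw [h hd, hm]

theorem Wt.zero (c e : ι →₀ ℕ) : Wt w (0 : MvPolynomial J k) c e := by
  intro d hd
  exact absurd (coeff_zero d) hd

theorem Wt.add {p q : MvPolynomial J k} {c e : ι →₀ ℕ} (hp : Wt w p c e) (hq : Wt w q c e) :
    Wt w (p + q) c e := by
  intro d hd
  rw [coeff_add] at hd
  by_cases h : coeff d p = 0
  · rw [h, zero_add] at hd
    exact hq d hd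
  · exact hp d h

theorem Wt.neg {p : MvPolynomial J k} {c e : ι →₀ ℕ} (hp : Wt w p c e) : Wt w (-p) c e := by
  intro d hd
  rw [coeff_neg, neg_ne_zero] at hd
  exact hp d hd

theorem Wt.sum {α : Type*} (s : Finset α) {f : α → MvPolynomial J k} {c e : ι →₀ ℕ}
    (h : ∀ a ∈ s, Wt w (f a) c e) : Wt w (∑ a ∈ s, f a) c e := by
  classical
  induction s using Finset.induction_on with
  | empty => rw [Finset.sum_empty]; exact Wt.zero _ _
  | insert a s ha ih =>
    rw [Finset.sum_insert ha]
    exact (h a (Finset.mem_insert_self _ _)).add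
      (ih fun b hb => h b (Finset.mem_insert_of_mem hb))

theorem Wt.mul {p q : MvPolynomial J k} {c e c' e' : ι →₀ ℕ} (hp : Wt w p c e)
    (hq : Wt w q c' e') : Wt w (p * q) (c + c') (e + e') := by
  classical
  intro d hd
  rw [coeff_mul] at hd
  obtain ⟨⟨a, b⟩, hab, hne⟩ := Finset.exists_ne_zero_of_sum_ne_zero hd
  rw [Finset.HasAntidiagonal.mem_antidiagonal] at hab
  simp only at hab hne
  have h1 := hp a (left_ne_zero_of_mul hne)
  have h2 := hq b (right_ne_zero_of_mul hne)
  rw [← hab, map_add, ← h1, ← h2]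
  abel

theorem Wt.one (c : ι →₀ ℕ) : Wt w (1 : MvPolynomial J k) c c := by
  classical
  intro d hd
  rw [coeff_one] at hd
  have : d = 0 := by
    by_contra h
    exact hd (if_neg (Ne.symm h))
  rw [this, map_zero, zero_add]

theorem Wt.prod {α : Type*} (s : Finset α) {f : α → MvPolynomial J k} {c e : α → (ι →₀ ℕ)}
    (h : ∀ a ∈ s, Wt w (f a) (c a) (e a)) :
    Wt w (∏ a ∈ s, f a) (∑ a ∈ s, c a) (∑ a ∈ s, e a) := by
  classical
  induction s using Finset.induction_on with
  | empty => simp only [Finset.prod_empty, Finset.sum_empty]; exact Wt.one _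
  | insert a s ha ih =>
    rw [Finset.prod_insert ha, Finset.sum_insert ha, Finset.sum_insert ha]
    exact (h a (Finset.mem_insert_self _ _)).mul
      (ih fun b hb => h b (Finset.mem_insert_of_mem hb))

theorem Wt.cancel {p : MvPolynomial J k} {c e x : ι →₀ ℕ} (hp : Wt w p (c + x) (e + x)) :
    Wt w p c e := by
  intro d hd
  have h := hp d hd
  rw [← add_assoc] at h
  exact add_right_cancel h

theorem Wt.congr {p : MvPolynomial J k} {c e c' e' : ι →₀ ℕ} (hp : Wt w p c e) (hc : c = c')
    (he : e = e') : Wt w p c' e' := by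
  subst hc he
  exact hp

theorem Wt.X (j : J) : Wt w (X j : MvPolynomial J k) 0 (w j) :=
  Wt.of_isWH (isWeightedHomogeneous_X k w j) (add_zero _)

/-- determinants of homogeneous matrices -/
theorem Wt.det {n : Type*} [Fintype n] [DecidableEq n] {M : Matrix n n (MvPolynomial J k)}
    {c e e' : n → (ι →₀ ℕ)} (h : ∀ i j, Wt w (M i j) (c i) (e i + e' j)) :
    Wt w M.det (∑ i, c i) (∑ i, e i + ∑ i, e' i) := by
  rw [Matrix.det_apply]
  apply Wt.sum
  intro σ _
  have h1 : Wt w (∏ i, M (σ i) i) (∑ i, c (σ i)) (∑ i, (e (σ i) + e' i)) :=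
    Wt.prod _ fun i _ => h _ _
  have h2 : Wt w (∏ i, M (σ i) i) (∑ i, c i) (∑ i, e i + ∑ i, e' i) := by
    refine h1.congr (Equiv.sum_comp σ c) ?_
    rw [Finset.sum_add_distrib, Equiv.sum_comp σ e]
  rcases Int.units_eq_one_or (Equiv.Perm.sign σ) with hs | hs
  · rw [hs, one_smul]; exact h2
  · rw [hs, Units.neg_smul, one_smul]; exact h2.neg

end Wt

section Tw

variable {K : ℕ}

/-- the degree of `X ^ g` -/
noncomputable def vl (g : Gam K) : Ix K →₀ ℕ := Finsupp.equivFunOnFinite.symm fun i => (g i).val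

theorem vl_apply (g : Gam K) (i : Ix K) : vl g i = (g i).val := rfl

@[simp] theorem vl_zero : vl (0 : Gam K) = 0 := by
  ext i; simp [vl_apply]

theorem vl_eq_sum (g : Gam K) : vl g = ∑ i, Finsupp.single i (g i).val := by
  classical
  ext j
  rw [vl_apply, Finsupp.finset_sum_apply, Finset.sum_eq_single j]
  · simp
  · intro b _ hb; simp [Finsupp.single_apply, hb]
  · intro h; exact absurd (Finset.mem_univ _) h

variable {k J : Type*} [CommRing k] {w : J → (Ix K →₀ ℕ)}
  {s : Ix K → MvPolynomial J k}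

theorem wt_coc (hs : ∀ i, Wt w (s i) 0 (Finsupp.single i 2)) (g h : Gam K) :
    Wt w (coc s g h) (vl (g + h)) (vl g + vl h) := by
  have h1 : ∀ j : Ix K, Wt w (sqp (s j) (g j) (h j)) (Finsupp.single j ((g + h) j).val)
      (Finsupp.single j (g j).val + Finsupp.single j (h j).val) := by
    intro j
    rw [Pi.add_apply]
    rcases z2 (g j) with hg | hg <;> rcases z2 (h j) with hh | hh
    · simp only [hg, hh, sqp_zero_left]
      simp only [add_zero, ZMod.val_zero, Finsupp.single_zero]
      exact Wt.one _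
    · simp only [hg, hh, sqp_zero_left]
      simp only [zero_add, ZMod.val_zero, Finsupp.single_zero]
      exact Wt.one _
    · simp only [hg, hh, sqp_zero_right]
      simp only [add_zero, ZMod.val_zero, Finsupp.single_zero]
      exact Wt.one _
    · simp only [hg, hh, z2_11, sqp]
      simp only [and_self, if_true, ZMod.val_zero, Finsupp.single_zero]
      have h2 : (Finsupp.single j (ZMod.val (1 : ZMod 2)) : Ix K →₀ ℕ) +
          Finsupp.single j (ZMod.val (1 : ZMod 2)) = Finsupp.single j 2 := by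
        rw [← Finsupp.single_add]
        rfl
      rw [h2]
      exact hs j
  have h2 : Wt w (sqq s g h) (vl (g + h)) (vl g + vl h) := by
    have := Wt.prod (w := w) Finset.univ (f := fun j : Ix K => sqp (s j) (g j) (h j))
      (fun j _ => h1 j)
    refine this.congr (vl_eq_sum _).symm ?_
    rw [Finset.sum_add_distrib, ← vl_eq_sum, ← vl_eq_sum]
  have h3 : Wt w (sgn0 (MvPolynomial J k) g h) 0 0 := by
    have : ∀ i : Fin K, Wt w (sgp (MvPolynomial J k) (g (Sum.inr i)) (h (Sum.inl i))) 0 0 := by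
      intro i
      unfold sgp
      split_ifs
      · exact (Wt.one 0).neg
      · exact Wt.one 0
    have h4 := Wt.prod (w := w) Finset.univ (fun i _ => this i)
    simpa [sgn0] using h4
  have h4 := h3.mul h2
  rw [zero_add, zero_add] at h4
  exact h4

/-- homogeneous elements of `Tw` -/
def HomTw (w : J → (Ix K →₀ ℕ)) (D : Ix K →₀ ℕ) (f : Tw K (MvPolynomial J k) s) : Prop :=
  ∀ g, Wt w (f g) (vl g) D

theorem HomTw.X (g : Gam K) : HomTw w (vl g) (Tw.X g : Tw K (MvPolynomial J k) s) := by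
  intro a
  rw [Tw.X_apply]
  split_ifs with h
  · subst h; exact Wt.one _
  · exact Wt.zero _ _

theorem HomTw.one : HomTw w 0 (1 : Tw K (MvPolynomial J k) s) := by
  have := HomTw.X (w := w) (s := s) (0 : Gam K)
  rw [vl_zero] at this
  exact this

theorem HomTw.smul {D c : Ix K →₀ ℕ} {f : Tw K (MvPolynomial J k) s} {r : MvPolynomial J k}
    (hr : Wt w r 0 c) (hf : HomTw w D f) : HomTw w (c + D) (r • f) := by
  intro a
  rw [Tw.smul_apply]
  have := hr.mul (hf a)
  rwa [zero_add] at this

theorem HomTw.algebraMap {c : Ix K →₀ ℕ} {r : MvPolynomial J k} (hr : Wt w r 0 c) :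
    HomTw w c (algebraMap (MvPolynomial J k) (Tw K (MvPolynomial J k) s) r) := by
  rw [Tw.algebraMap_eq]
  have := HomTw.smul (s := s) hr HomTw.one
  rwa [add_zero] at this

theorem HomTw.mul (hs : ∀ i, Wt w (s i) 0 (Finsupp.single i 2)) {D D' : Ix K →₀ ℕ}
    {f g : Tw K (MvPolynomial J k) s} (hf : HomTw w D f) (hg : HomTw w D' g) :
    HomTw w (D + D') (f * g) := by
  intro a
  rw [Tw.mul_apply]
  refine Wt.sum _ fun d _ => ?_
  have h1 := wt_coc hs d (a + d)
  have h2 : d + (a + d) = a := by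
    rw [add_comm a d, ← add_assoc, Gam.add_self, zero_add]
  rw [h2] at h1
  have h3 := (h1.mul (hf d)).mul (hg (a + d))
  refine Wt.cancel (x := vl d + vl (a + d)) (h3.congr ?_ ?_)
  · abel
  · abel

theorem HomTw.pow (hs : ∀ i, Wt w (s i) 0 (Finsupp.single i 2)) {D : Ix K →₀ ℕ}
    {f : Tw K (MvPolynomial J k) s} (hf : HomTw w D f) (n : ℕ) :
    HomTw w (n • D) (f ^ n) := by
  induction n with
  | zero => rw [pow_zero, zero_smul]; exact HomTw.one
  | succ n ih =>
    rw [pow_succ, succ_nsmul]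
    exact ih.mul hs hf

theorem HomTw.tau {D : Ix K →₀ ℕ} {f : Tw K (MvPolynomial J k) s} (hf : HomTw w D f) :
    Wt w (Tw.tau f) 0 D := by
  have := hf 0
  rwa [vl_zero] at this

/-- the coefficients of `Q(z)` are homogeneous -/
theorem wt_Qel (hs : ∀ i, Wt w (s i) 0 (Finsupp.single i 2)) {D : Ix K →₀ ℕ}
    {z : Tw K (MvPolynomial J k) s} (hz : HomTw w D z) (d : ℕ) :
    HomTw w ((∑ i : Fin d, (i : ℕ) + ∑ j : Fin (d + 1), (j : ℕ)) • D)
      (Qel Tw.tau z d) := by
  intro g
  -- `Q(z)_g` is a determinant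
  let B : Matrix (Fin (d + 1)) (Fin (d + 1)) (MvPolynomial J k) :=
    (hank Tw.tau z d).updateRow (Fin.last d) (fun j => (z ^ (j : ℕ)) g)
  have h1 : (Qel Tw.tau z d) g = B.det := by
    rw [Matrix.det_eq_sum_mul_adjugate_row B (Fin.last d)]
    unfold Qel
    rw [Tw.sum_apply]
    refine Finset.sum_congr rfl fun j _ => ?_
    rw [Tw.smul_apply, mul_comm]
    have h2 : B (Fin.last d) j = (z ^ (j : ℕ)) g := by
      simp [B, Matrix.updateRow_self]
    rw [h2]
    congr 1
    unfold Nco
    rw [Matrix.adjugate_apply, Matrix.adjugate_apply]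
    congr 1
    simp [B]
  rw [h1]
  have h2 : ∀ i j, Wt w (B i j) (if i = Fin.last d then vl g else 0)
      ((if i = Fin.last d then 0 else (i : ℕ)) • D + (j : ℕ) • D) := by
    intro i j
    by_cases hi : i = Fin.last d
    · subst hi
      rw [if_pos rfl, if_pos rfl, zero_smul, zero_add]
      have : B (Fin.last d) j = (z ^ (j : ℕ)) g := by
        simp [B, Matrix.updateRow_self]
      rw [this]
      exact hz.pow hs j g
    · rw [if_neg hi, if_neg hi, ← add_smul]
      have : B i j = Tw.tau (z ^ ((i : ℕ) + (j : ℕ))) := by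
        simp [B, Matrix.updateRow_ne hi, hank]
      rw [this]
      exact (hz.pow hs _).tau
  have h3 := Wt.det h2
  refine h3.congr ?_ ?_
  · rw [Finset.sum_ite_eq' Finset.univ (Fin.last d)]
    simp
  · rw [← Finset.sum_smul, ← Finset.sum_smul, ← add_smul]
    congr 2
    rw [Fin.sum_univ_castSucc]
    rw [if_pos rfl, add_zero]
    refine Finset.sum_congr rfl fun i _ => ?_
    rw [if_neg (Fin.castSucc_lt_last i).ne]
    rfl

end Tw

end P199H
end
end

section

section

/-!
# P199, blueprint H, module L6 (B2): the field lemma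

`A` is a domain, an algebra over the field `κ` with a basis `b γ` (`γ ∈ Γ`, a finite commutative
group of exponent two), `b γ * b δ = nonzero scalar * b (γ + δ)` and
`b γ * b δ = ε γ δ • (b δ * b γ)`.
`Λ` is an isotropic subgroup, `g = ∑_{δ ∈ Λ} a δ • b δ` with `a δ ≠ 0` for `δ ≠ 0`.
-/

namespace Vale.Agent.P199.H.KL

open Polynomial

/-- the data of a graded twisted basis -/
structure TwData (κ A Γ : Type*) [Field κ] [Ring A] [Algebra κ A] [AddCommGroup Γ] where
  b : Module.Basis Γ κ A
  one : b 0 = 1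
  ε : Γ → Γ → κ
  mul : ∀ γ δ, ∃ c : κ, c ≠ 0 ∧ b γ * b δ = c • b (γ + δ)
  comm : ∀ γ δ, b γ * b δ = ε γ δ • (b δ * b γ)
  two : ∀ γ : Γ, γ + γ = 0

section

variable {κ A Γ : Type*} [Field κ] [Ring A] [Algebra κ A] [AddCommGroup Γ]
  (D : TwData κ A Γ)

theorem TwData.exists_inv (γ : Γ) : ∃ x : A, x * D.b γ = 1 ∧ D.b γ * x = 1 := by
  obtain ⟨c, hc, h⟩ := D.mul γ γ
  rw [D.two, D.one] at h
  refine ⟨c⁻¹ • D.b γ, ?_, ?_⟩
  · rw [smul_mul_assoc, h, smul_smul, inv_mul_cancel₀ hc, one_smul]
  · rw [mul_smul_comm, h, smul_smul, inv_mul_cancel₀ hc, one_smul]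

/-- an inverse of `b γ` -/
noncomputable def TwData.bi (γ : Γ) : A := (D.exists_inv γ).choose

theorem TwData.bi_mul (γ : Γ) : D.bi γ * D.b γ = 1 := (D.exists_inv γ).choose_spec.1

theorem TwData.mul_bi (γ : Γ) : D.b γ * D.bi γ = 1 := (D.exists_inv γ).choose_spec.2

/-- the span of the `b δ`, `δ ∈ Λ` -/
def TwData.L (Λ : AddSubgroup Γ) : Submodule κ A :=
  Submodule.span κ (Set.range fun δ : Λ => D.b δ)

theorem TwData.b_mem_L {Λ : AddSubgroup Γ} {δ : Γ} (hδ : δ ∈ Λ) : D.b δ ∈ D.L Λ :=
  Submodule.subset_span ⟨⟨δ, hδ⟩, rfl⟩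

theorem TwData.L_mul {Λ : AddSubgroup Γ} {x y : A} (hx : x ∈ D.L Λ) (hy : y ∈ D.L Λ) :
    x * y ∈ D.L Λ := by
  unfold TwData.L at hx
  induction hx using Submodule.span_induction with
  | mem x hx =>
    obtain ⟨γ, rfl⟩ := hx
    unfold TwData.L at hy
    induction hy using Submodule.span_induction with
    | mem y hy =>
      obtain ⟨δ, rfl⟩ := hy
      obtain ⟨c, _, h⟩ := D.mul γ δ
      simp only
      rw [h]
      exact Submodule.smul_mem _ _ (D.b_mem_L (Λ.add_mem γ.2 δ.2))
    | zero => rw [mul_zero]; exact Submodule.zero_mem _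
    | add y z _ _ hy hz => rw [mul_add]; exact Submodule.add_mem _ hy hz
    | smul a y _ hy => rw [mul_smul_comm]; exact Submodule.smul_mem _ _ hy
  | zero => rw [zero_mul]; exact Submodule.zero_mem _
  | add x z _ _ hx hz => rw [add_mul]; exact Submodule.add_mem _ hx hz
  | smul a x _ hx => rw [smul_mul_assoc]; exact Submodule.smul_mem _ _ hx

theorem TwData.L_comm {Λ : AddSubgroup Γ} (iso : ∀ γ ∈ Λ, ∀ δ ∈ Λ, D.ε γ δ = 1)
    {x y : A} (hx : x ∈ D.L Λ) (hy : y ∈ D.L Λ) : x * y = y * x := by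
  unfold TwData.L at hx
  induction hx using Submodule.span_induction with
  | mem x hx =>
    obtain ⟨γ, rfl⟩ := hx
    unfold TwData.L at hy
    induction hy using Submodule.span_induction with
    | mem y hy =>
      obtain ⟨δ, rfl⟩ := hy
      simp only
      rw [D.comm, iso γ γ.2 δ δ.2, one_smul]
    | zero => rw [mul_zero, zero_mul]
    | add y z _ _ hy hz => rw [mul_add, add_mul, hy, hz]
    | smul a y _ hy => rw [mul_smul_comm, smul_mul_assoc, hy]
  | zero => rw [mul_zero, zero_mul]
  | add x z _ _ hx hz => rw [mul_add, add_mul, hx, hz]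
  | smul a x _ hx => rw [mul_smul_comm, smul_mul_assoc, hx]

/-- `L` as a subalgebra -/
def TwData.LA (Λ : AddSubgroup Γ) : Subalgebra κ A :=
  (D.L Λ).toSubalgebra (by rw [← D.one]; exact D.b_mem_L Λ.zero_mem)
    (fun _ _ hx hy => D.L_mul hx hy)

/-- conjugation by `b c` -/
noncomputable def TwData.cj (c : Γ) : A →ₐ[κ] A where
  toFun x := D.b c * x * D.bi c
  map_one' := by rw [mul_one, D.mul_bi]
  map_mul' x y := by
    calc D.b c * (x * y) * D.bi c = D.b c * x * 1 * y * D.bi c := by noncomm_ring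
      _ = D.b c * x * (D.bi c * D.b c) * y * D.bi c := by rw [D.bi_mul]
      _ = _ := by noncomm_ring
  map_zero' := by rw [mul_zero, zero_mul]
  map_add' x y := by rw [mul_add, add_mul]
  commutes' r := by
    rw [Algebra.algebraMap_eq_smul_one, mul_smul_comm, mul_one, smul_mul_assoc, D.mul_bi]

theorem TwData.cj_b (c δ : Γ) : D.cj c (D.b δ) = D.ε c δ • D.b δ := by
  show D.b c * D.b δ * D.bi c = _
  rw [D.comm, smul_mul_assoc, mul_assoc, D.mul_bi, mul_one]

theorem TwData.repr_cj (c : Γ) (x : A) (δ : Γ) :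
    D.b.repr (D.cj c x) δ = D.ε c δ * D.b.repr x δ := by
  classical
  have h : (Finsupp.lapply δ ∘ₗ D.b.repr.toLinearMap ∘ₗ (D.cj c).toLinearMap : A →ₗ[κ] κ) =
      D.ε c δ • (Finsupp.lapply δ ∘ₗ D.b.repr.toLinearMap) := by
    refine D.b.ext fun γ => ?_
    simp only [LinearMap.comp_apply, AlgHom.toLinearMap_apply, LinearEquiv.coe_coe,
      Finsupp.lapply_apply, LinearMap.smul_apply, smul_eq_mul]
    rw [D.cj_b, map_smul, Finsupp.smul_apply, Module.Basis.repr_self, smul_eq_mul]
    by_cases hγ : γ = δ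
    · rw [hγ]
    · rw [Finsupp.single_apply, if_neg hγ, mul_zero, mul_zero]
  exact LinearMap.congr_fun h x

theorem TwData.cj_mem {Λ : AddSubgroup Γ} (c : Γ) {x : A} (hx : x ∈ D.L Λ) :
    D.cj c x ∈ D.L Λ := by
  unfold TwData.L at hx
  induction hx using Submodule.span_induction with
  | mem x hx =>
    obtain ⟨γ, rfl⟩ := hx
    simp only
    rw [D.cj_b]
    exact Submodule.smul_mem _ _ (D.b_mem_L γ.2)
  | zero => rw [map_zero]; exact Submodule.zero_mem _
  | add x z _ _ hx hz => rw [map_add]; exact Submodule.add_mem _ hx hz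
  | smul a x _ hx => rw [map_smul]; exact Submodule.smul_mem _ _ hx

end

section

variable {κ A Γ : Type*} [Field κ] [Ring A] [Algebra κ A] [AddCommGroup Γ]
  [Finite Γ] (D : TwData κ A Γ)

include D in
theorem TwData.finite : Module.Finite κ A := Module.Finite.of_basis D.b

variable [IsDomain A]

omit [IsDomain A] in
theorem TwData.finrank_L [Nontrivial A] (Λ : AddSubgroup Γ) :
    Module.finrank κ (D.L Λ) = Nat.card Λ := by
  classical
  have : Fintype Λ := Fintype.ofFinite _
  rw [Nat.card_eq_fintype_card]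
  exact finrank_span_eq_card (D.b.linearIndependent.comp _ Subtype.val_injective)

/-- the degree of `g` is at least the number of its distinct conjugates -/
theorem TwData.le_natDegree (Λ : AddSubgroup Γ) (iso : ∀ γ ∈ Λ, ∀ δ ∈ Λ, D.ε γ δ = 1)
    (g : A) (hg : g ∈ D.L Λ) (hg0 : ∀ δ ∈ Λ, δ ≠ 0 → D.b.repr g δ ≠ 0)
    {d : ℕ} (f : Fin d → Γ)
    (hf : ∀ i j, i ≠ j → ∃ δ ∈ Λ, δ ≠ 0 ∧ D.ε (f i) δ ≠ D.ε (f j) δ) :
    d ≤ (minpoly κ g).natDegree := by
  classical
  have := D.finite
  by_contra hlt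
  push Not at hlt
  let _ : CommRing (D.LA Λ) :=
    { (inferInstance : Ring (D.LA Λ)) with
      mul_comm := fun x y => Subtype.ext (D.L_comm iso x.2 y.2) }
  let F : Fin d → D.LA Λ := fun i => ⟨D.cj (f i) g, D.cj_mem _ hg⟩
  have hF : Function.Injective F := by
    intro i j hij
    by_contra hne
    obtain ⟨δ, hδ, hδ0, h⟩ := hf i j hne
    have h1 : D.cj (f i) g = D.cj (f j) g := congrArg Subtype.val hij
    have h2 := congrArg (fun x => D.b.repr x δ) h1
    simp only [D.repr_cj] at h2
    exact h (mul_right_cancel₀ (hg0 δ hδ hδ0) h2)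
  let p : (D.LA Λ)[X] := (minpoly κ g).map (algebraMap κ (D.LA Λ))
  have hint : IsIntegral κ g := Algebra.IsIntegral.isIntegral g
  have hp : p ≠ 0 := by
    have := (minpoly.monic hint).map (algebraMap κ (D.LA Λ))
    exact this.ne_zero
  apply hp
  refine Polynomial.eq_zero_of_natDegree_lt_card_of_eval_eq_zero p hF (fun i => ?_) ?_
  · apply Subtype.ext
    have h1 : p.eval (F i) = (minpoly κ g).aeval (F i) := by
      rw [Polynomial.eval_map, Polynomial.aeval_def]
    rw [h1]
    have h2 : ((D.LA Λ).val ((minpoly κ g).aeval (F i)) : A) =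
        (minpoly κ g).aeval (D.cj (f i) g) := by
      rw [← Polynomial.aeval_algHom_apply]
      rfl
    have h3 : (minpoly κ g).aeval (D.cj (f i) g) = 0 := by
      rw [Polynomial.aeval_algHom_apply, minpoly.aeval, map_zero]
    exact h2.trans h3
  · rw [Fintype.card_fin]
    exact lt_of_le_of_lt (Polynomial.natDegree_map_le) hlt

end

end Vale.Agent.P199.H.KL
end
end

section

section

/-!
# P199, blueprint H, module L6 (B2): the field lemma, second part

Exports `TwData.K1`, `TwData.K2` and `twData` (the instance for `Tw K κ s`).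
-/

set_option linter.all false

namespace Vale.Agent.P199.H.KL

variable {κ A Γ : Type*} [Field κ] [Ring A] [IsDomain A] [Algebra κ A] [AddCommGroup Γ]
  [Finite Γ] (D : TwData κ A Γ)

theorem TwData.linInd (Λ : AddSubgroup Γ) (iso : ∀ γ ∈ Λ, ∀ δ ∈ Λ, D.ε γ δ = 1)
    (g : A) (hg : g ∈ D.L Λ) (hg0 : ∀ δ ∈ Λ, δ ≠ 0 → D.b.repr g δ ≠ 0)
    {d : ℕ} (f : Fin d → Γ)
    (hf : ∀ i j, i ≠ j → ∃ δ ∈ Λ, δ ≠ 0 ∧ D.ε (f i) δ ≠ D.ε (f j) δ) :
    LinearIndependent κ (fun i : Fin d => g ^ (i : ℕ)) := by
  have h := D.le_natDegree Λ iso g hg hg0 f hf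
  have h1 := linearIndependent_pow (K := κ) g
  have h2 := h1.comp (Fin.castLE h) (Fin.castLE_injective h)
  exact h2

theorem TwData.pow_mem (Λ : AddSubgroup Γ) {g : A} (hg : g ∈ D.L Λ) (n : ℕ) : g ^ n ∈ D.L Λ :=
  (D.LA Λ).pow_mem hg n

theorem TwData.span_pow (Λ : AddSubgroup Γ) (iso : ∀ γ ∈ Λ, ∀ δ ∈ Λ, D.ε γ δ = 1)
    (g : A) (hg : g ∈ D.L Λ) (hg0 : ∀ δ ∈ Λ, δ ≠ 0 → D.b.repr g δ ≠ 0)
    {d : ℕ} (f : Fin d → Γ)
    (hf : ∀ i j, i ≠ j → ∃ δ ∈ Λ, δ ≠ 0 ∧ D.ε (f i) δ ≠ D.ε (f j) δ)
    (hd : Nat.card Λ = d) :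
    Submodule.span κ (Set.range fun i : Fin d => g ^ (i : ℕ)) = D.L Λ := by
  have := D.finite
  apply Submodule.eq_of_le_of_finrank_eq
  · rw [Submodule.span_le]
    rintro _ ⟨i, rfl⟩
    exact D.pow_mem Λ hg i
  · rw [D.finrank_L, hd, finrank_span_eq_card (D.linInd Λ iso g hg hg0 f hf), Fintype.card_fin]

theorem TwData.repr_b_mul (γ : Γ) (q : A) : ∃ c : κ, c ≠ 0 ∧
    D.b.repr (D.b γ * q) 0 = c * D.b.repr q γ := by
  classical
  have := D.finite
  have : Fintype Γ := Fintype.ofFinite _
  obtain ⟨c, hc, h⟩ := D.mul γ γ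
  refine ⟨c, hc, ?_⟩
  conv_lhs => rw [← D.b.sum_repr q]
  rw [Finset.mul_sum, map_sum, Finsupp.finsetSum_apply, Finset.sum_eq_single γ]
  · rw [mul_smul_comm, h, map_smul, map_smul, D.two, Finsupp.smul_apply, Finsupp.smul_apply,
      Module.Basis.repr_self, Finsupp.single_eq_same, smul_eq_mul, smul_eq_mul, mul_one, mul_comm]
  · intro δ _ hδ
    obtain ⟨c', _, h'⟩ := D.mul γ δ
    rw [mul_smul_comm, h', map_smul, map_smul, Finsupp.smul_apply, Finsupp.smul_apply,
      Module.Basis.repr_self, Finsupp.single_apply, if_neg, smul_zero, smul_zero]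
    intro h0
    apply hδ
    have h1 : γ + (γ + δ) = γ := by rw [h0, add_zero]
    rw [← add_assoc, D.two, zero_add] at h1
    exact h1
  · intro h0
    exact absurd (Finset.mem_univ _) h0

/-- an element commuting with `b δ`, `δ ∈ Λ`, is supported on the orthogonal of `Λ` -/
theorem TwData.repr_eq_zero_of_comm {δ : Γ} {q : A} (h : D.b δ * q = q * D.b δ) {γ : Γ}
    (hγ : D.ε γ δ ≠ 1) : D.b.repr q γ = 0 := by
  classical
  have := D.finite
  have : Fintype Γ := Fintype.ofFinite _
  have h1 : q * D.b δ = D.b δ * ∑ γ, (D.ε γ δ * D.b.repr q γ) • D.b γ := by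
    conv_lhs => rw [← D.b.sum_repr q]
    rw [Finset.sum_mul, Finset.mul_sum]
    refine Finset.sum_congr rfl fun γ' _ => ?_
    rw [smul_mul_assoc, D.comm, mul_smul_comm, smul_smul, mul_comm]
  rw [h1] at h
  have hne : D.b δ ≠ 0 := D.b.ne_zero δ
  have h2 := mul_left_cancel₀ hne h
  have h3 := congrArg (fun x => D.b.repr x γ) h2
  simp only [map_sum, map_smul, Module.Basis.repr_self, Finsupp.finsetSum_apply,
    Finsupp.smul_apply, smul_eq_mul] at h3
  rw [Finset.sum_eq_single γ] at h3
  · rw [Finsupp.single_eq_same, mul_one] at h3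
    have h4 : (1 - D.ε γ δ) * D.b.repr q γ = 0 := by
      rw [sub_mul, one_mul, ← h3, sub_self]
    rcases mul_eq_zero.mp h4 with h5 | h5
    · exact absurd (sub_eq_zero.mp h5).symm hγ
    · exact h5
  · intro b _ hb
    rw [Finsupp.single_apply, if_neg hb, mul_zero]
  · intro h0
    exact absurd (Finset.mem_univ _) h0

theorem TwData.mem_L_iff (Λ : AddSubgroup Γ) {q : A} (h : ∀ γ, γ ∉ Λ → D.b.repr q γ = 0) :
    q ∈ D.L Λ := by
  classical
  have := D.finite
  have : Fintype Γ := Fintype.ofFinite _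
  rw [← D.b.sum_repr q]
  refine Submodule.sum_mem _ fun γ _ => ?_
  by_cases hγ : γ ∈ Λ
  · exact Submodule.smul_mem _ _ (D.b_mem_L hγ)
  · rw [h γ hγ, zero_smul]; exact Submodule.zero_mem _

theorem TwData.repr_of_mem_L (Λ : AddSubgroup Γ) {q : A} (hq : q ∈ D.L Λ) {γ : Γ} (hγ : γ ∉ Λ) :
    D.b.repr q γ = 0 := by
  classical
  unfold TwData.L at hq
  induction hq using Submodule.span_induction with
  | mem x hx =>
    obtain ⟨δ, rfl⟩ := hx
    simp only
    rw [Module.Basis.repr_self, Finsupp.single_apply, if_neg]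
    rintro rfl
    exact hγ δ.2
  | zero => simp
  | add x y _ _ hx hy => rw [map_add, Finsupp.add_apply, hx, hy, add_zero]
  | smul a x _ hx => rw [map_smul, Finsupp.smul_apply, hx, smul_zero]

/-- nondegeneracy of the trace form on `L` -/
theorem TwData.eq_zero_of_tau (Λ : AddSubgroup Γ) (iso : ∀ γ ∈ Λ, ∀ δ ∈ Λ, D.ε γ δ = 1)
    (g : A) (hg : g ∈ D.L Λ) (hg0 : ∀ δ ∈ Λ, δ ≠ 0 → D.b.repr g δ ≠ 0)
    {d : ℕ} (f : Fin d → Γ)
    (hf : ∀ i j, i ≠ j → ∃ δ ∈ Λ, δ ≠ 0 ∧ D.ε (f i) δ ≠ D.ε (f j) δ)
    (hd : Nat.card Λ = d) {q : A} (hq : ∀ γ, γ ∉ Λ → D.b.repr q γ = 0)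
    (htau : ∀ i : Fin d, D.b.repr (g ^ (i : ℕ) * q) 0 = 0) : q = 0 := by
  have h1 : ∀ x ∈ D.L Λ, D.b.repr (x * q) 0 = 0 := by
    intro x hx
    rw [← D.span_pow Λ iso g hg hg0 f hf hd] at hx
    induction hx using Submodule.span_induction with
    | mem x hx =>
      obtain ⟨i, rfl⟩ := hx
      exact htau i
    | zero => rw [zero_mul, LinearEquiv.map_zero, Finsupp.zero_apply]
    | add x y _ _ hx hy => rw [add_mul, map_add, Finsupp.add_apply, hx, hy, add_zero]
    | smul a x _ hx => rw [smul_mul_assoc, map_smul, Finsupp.smul_apply, hx, smul_zero]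
  apply D.b.repr.injective
  rw [map_zero]
  ext γ
  rw [Finsupp.zero_apply]
  by_cases hγ : γ ∈ Λ
  · obtain ⟨c, hc, h⟩ := D.repr_b_mul γ q
    rw [h1 _ (D.b_mem_L hγ)] at h
    exact (mul_eq_zero.mp h.symm).resolve_left hc
  · exact hq γ hγ

/-- **K1** -/
theorem TwData.K1 (Λ : AddSubgroup Γ) (iso : ∀ γ ∈ Λ, ∀ δ ∈ Λ, D.ε γ δ = 1)
    (g : A) (hg : g ∈ D.L Λ) (hg0 : ∀ δ ∈ Λ, δ ≠ 0 → D.b.repr g δ ≠ 0)
    {d : ℕ} (f : Fin d → Γ)
    (hf : ∀ i j, i ≠ j → ∃ δ ∈ Λ, δ ≠ 0 ∧ D.ε (f i) δ ≠ D.ε (f j) δ)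
    (hd : Nat.card Λ = d) {q : A} (hcomm : g * q = q * g)
    (hperp : ∀ γ, γ ∉ Λ → (∀ δ ∈ Λ, D.ε γ δ = 1) → D.b.repr q γ = 0)
    (htau : ∀ i : Fin d, D.b.repr (g ^ (i : ℕ) * q) 0 = 0) : q = 0 := by
  refine D.eq_zero_of_tau Λ iso g hg hg0 f hf hd (fun γ hγ => ?_) htau
  by_cases h : ∀ δ ∈ Λ, D.ε γ δ = 1
  · exact hperp γ hγ h
  · push Not at h
    obtain ⟨δ, hδ, hne⟩ := h
    refine D.repr_eq_zero_of_comm (δ := δ) ?_ hne
    have h1 : ∀ x ∈ D.L Λ, x * q = q * x := by
      intro x hx
      rw [← D.span_pow Λ iso g hg hg0 f hf hd] at hx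
      induction hx using Submodule.span_induction with
      | mem x hx =>
        obtain ⟨i, rfl⟩ := hx
        exact (Commute.pow_left (show Commute g q from hcomm) i).eq
      | zero => rw [zero_mul, mul_zero]
      | add x y _ _ hx hy => rw [add_mul, mul_add, hx, hy]
      | smul a x _ hx => rw [smul_mul_assoc, mul_smul_comm, hx]
    exact h1 _ (D.b_mem_L hδ)

/-- **K2**: the Hankel determinant is nonzero -/
theorem TwData.K2 (Λ : AddSubgroup Γ) (iso : ∀ γ ∈ Λ, ∀ δ ∈ Λ, D.ε γ δ = 1)
    (g : A) (hg : g ∈ D.L Λ) (hg0 : ∀ δ ∈ Λ, δ ≠ 0 → D.b.repr g δ ≠ 0)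
    {d : ℕ} (f : Fin d → Γ)
    (hf : ∀ i j, i ≠ j → ∃ δ ∈ Λ, δ ≠ 0 ∧ D.ε (f i) δ ≠ D.ε (f j) δ)
    (hd : Nat.card Λ = d) :
    (Matrix.of fun i j : Fin d => D.b.repr (g ^ ((i : ℕ) + (j : ℕ))) 0).det ≠ 0 := by
  intro h0
  obtain ⟨v, hv, hMv⟩ := Matrix.exists_mulVec_eq_zero_iff.mpr h0
  apply hv
  have h1 : ∑ j : Fin d, v j • g ^ (j : ℕ) = 0 := by
    refine D.eq_zero_of_tau Λ iso g hg hg0 f hf hd (fun γ hγ => ?_) (fun i => ?_)
    · have hmem : ∑ j : Fin d, v j • g ^ (j : ℕ) ∈ D.L Λ :=
        Submodule.sum_mem _ fun j _ => Submodule.smul_mem _ _ (D.pow_mem Λ hg j)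
      exact D.repr_of_mem_L Λ hmem hγ
    · have h2 := congrFun hMv i
      rw [Matrix.mulVec, dotProduct] at h2
      rw [Finset.mul_sum, map_sum, Finsupp.finsetSum_apply]
      rw [Pi.zero_apply] at h2
      rw [← h2]
      refine Finset.sum_congr rfl fun j _ => ?_
      rw [mul_smul_comm, map_smul, Finsupp.smul_apply, ← pow_add, smul_eq_mul, Matrix.of_apply,
        mul_comm]
  have h3 := D.linInd Λ iso g hg hg0 f hf
  rw [Fintype.linearIndependent_iff] at h3
  funext j
  exact h3 v h1 j

end Vale.Agent.P199.H.KL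

namespace P199H

open Vale.Agent.P199.H.KL

/-- the twisted basis of `Tw K κ s` -/
noncomputable def twData {K : ℕ} {κ : Type*} [Field κ] {s : Ix K → κ} (hs : ∀ i, s i ≠ 0) :
    TwData κ (Tw K κ s) (Gam K) where
  b := Tw.basis
  one := by rw [Tw.basis_apply]; rfl
  ε := sg κ
  mul γ δ := by
    refine ⟨coc s γ δ, ?_, ?_⟩
    · unfold coc
      refine mul_ne_zero ?_ ?_
      · exact left_ne_zero_of_mul_eq_one (sgn0_mul_self (R := κ) γ δ)
      · unfold sqq
        refine Finset.prod_ne_zero_iff.mpr fun j _ => ?_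
        unfold sqp
        split_ifs
        · exact hs j
        · exact one_ne_zero
    · rw [Tw.basis_apply, Tw.basis_apply, Tw.basis_apply, Tw.X_mul_X]
  comm γ δ := by
    rw [Tw.basis_apply, Tw.basis_apply, Tw.X_mul_X_comm]
  two := Gam.add_self

end P199H
end
end

section

section

set_option linter.all false

/-!
# P199, blueprint H, lemma L6 (B2), the global statement

`P199H.B2`: `R → B` a surjection of domains, `z ∈ Tw K R s` whose image in `Tw K B s'` is supported
on `Lam K a` with nonzero coefficients there (except possibly at `0`), `Tw K (Frac B)` without zero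
divisors, and `Q(z)_g = 0` for `g ∈ LamP K a \ Lam K a`. Then `Q(z) = 0` and its last coefficient
`N_d` is nonzero.
-/

namespace P199H

open Module Vale.Agent.P199.H.KL

section

variable {K a : ℕ}

/-- K1 for `Tw` over a field -/
theorem K1_field (haK : a ≤ K) {κ : Type*} [Field κ] (h2 : (1 : κ) ≠ -1) {s : Ix K → κ}
    (hs : ∀ i, s i ≠ 0) [NoZeroDivisors (Tw K κ s)] {g : Tw K κ s}
    (hg1 : ∀ γ, γ ∉ Lam K a → g γ = 0) (hg2 : ∀ γ ∈ Lam K a, γ ≠ 0 → g γ ≠ 0)
    {q : Tw K κ s} (hcomm : g * q = q * g)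
    (hq : ∀ γ, γ ∈ LamP K a → γ ∉ Lam K a → q γ = 0)
    (htau : ∀ i < 2 ^ a, Tw.tau (g ^ i * q) = 0) : q = 0 := by
  haveI : IsDomain (Tw K κ s) := NoZeroDivisors.to_isDomain _
  refine (twData hs).K1 (Lam K a) (fun γ hγ δ hδ => sg_Lam_Lam hγ hδ) g ?_ ?_ (ff K a)
    (fun i j hij => ff_sep haK h2 i j hij) (card_Lam haK) hcomm ?_ ?_
  · apply TwData.mem_L_iff
    intro γ hγ
    change Tw.basis.repr g γ = 0
    rw [Tw.basis_repr]
    exact hg1 γ hγ
  · intro δ hδ hδ0
    have := hg2 δ hδ hδ0
    change Tw.basis.repr g δ ≠ 0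
    rwa [Tw.basis_repr]
  · intro γ hγ h
    change Tw.basis.repr q γ = 0
    rw [Tw.basis_repr]
    refine hq γ ?_ hγ
    by_contra hcon
    obtain ⟨δ, hδ, _, hsg⟩ := exists_of_notMem_LamP (R := κ) hcon
    have h3 := h δ hδ
    change sg κ γ δ = 1 at h3
    rw [hsg] at h3
    exact h2 h3.symm
  · intro i
    change Tw.basis.repr _ _ = 0
    rw [Tw.basis_repr]
    exact htau i i.2

/-- K2 for `Tw` over a field -/
theorem K2_field (haK : a ≤ K) {κ : Type*} [Field κ] (h2 : (1 : κ) ≠ -1) {s : Ix K → κ}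
    (hs : ∀ i, s i ≠ 0) [NoZeroDivisors (Tw K κ s)] {g : Tw K κ s}
    (hg1 : ∀ γ, γ ∉ Lam K a → g γ = 0) (hg2 : ∀ γ ∈ Lam K a, γ ≠ 0 → g γ ≠ 0) :
    Nco Tw.tau g (2 ^ a) (Fin.last _) ≠ 0 := by
  haveI : IsDomain (Tw K κ s) := NoZeroDivisors.to_isDomain _
  rw [Nco_last]
  have h := (twData hs).K2 (Lam K a) (fun γ hγ δ hδ => sg_Lam_Lam hγ hδ) g (by
      apply TwData.mem_L_iff
      intro γ hγ
      change Tw.basis.repr g γ = 0
      rw [Tw.basis_repr]
      exact hg1 γ hγ) (by
      intro δ hδ hδ0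
      have := hg2 δ hδ hδ0
      change Tw.basis.repr g δ ≠ 0
      rwa [Tw.basis_repr]) (ff K a)
    (fun i j hij => ff_sep haK h2 i j hij) (card_Lam haK)
  intro h0
  exact h h0

theorem B2 (haK : a ≤ K) {R B : Type*} [CommRing R] [IsDomain R] [CommRing B] [IsDomain B]
    (h2 : (1 : B) ≠ -1) (f : R →+* B) (hf : Function.Surjective f) {s : Ix K → R}
    {s' : Ix K → B} (hs : ∀ i, f (s i) = s' i) (hs0 : ∀ i, s' i ≠ 0)
    (hdom : NoZeroDivisors (Tw K (FractionRing B) (fun i => algebraMap B (FractionRing B) (s' i))))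
    (z : Tw K R s) (hz1 : ∀ γ, γ ∉ Lam K a → f (z γ) = 0)
    (hz2 : ∀ γ ∈ Lam K a, γ ≠ 0 → f (z γ) ≠ 0)
    (hQ : ∀ γ, γ ∈ LamP K a → γ ∉ Lam K a → Qel Tw.tau z (2 ^ a) γ = 0) :
    Qel Tw.tau z (2 ^ a) = 0 ∧ Nco Tw.tau z (2 ^ a) (Fin.last _) ≠ 0 := by
  let κ := FractionRing B
  let i := algebraMap B κ
  have hi : Function.Injective i := IsFractionRing.injective B κ
  have h2' : (1 : κ) ≠ -1 := by
    intro h
    apply h2
    apply hi
    rw [map_one, map_neg, map_one]
    exact h
  let s'' : Ix K → κ := fun j => i (s' j)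
  have hs'' : ∀ j, s'' j ≠ 0 := by
    intro j h
    apply hs0 j
    apply hi
    rw [map_zero]
    exact h
  haveI : NoZeroDivisors (Tw K κ s'') := hdom
  let F : Tw K R s →+* Tw K B s' := Tw.map f hs
  let G : Tw K B s' →+* Tw K κ s'' := Tw.map i (fun _ => rfl)
  have hG : Function.Injective G := Tw.map_injective i (fun _ => rfl) hi
  have hg1 : ∀ γ, γ ∉ Lam K a → G (F z) γ = 0 := by
    intro γ hγ
    change i (f (z γ)) = 0
    rw [hz1 γ hγ, map_zero]
  have hg2 : ∀ γ ∈ Lam K a, γ ≠ 0 → G (F z) γ ≠ 0 := by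
    intro γ hγ hγ0 h
    apply hz2 γ hγ hγ0
    apply hi
    rw [map_zero]
    exact h
  constructor
  · refine Qel_eq_zero f hf Tw.basis Tw.basis F ?_ Tw.tau Tw.tau ?_ z (2 ^ a)
      {γ | γ ∈ LamP K a ∧ γ ∉ Lam K a} ?_ ?_
    · intro x γ
      rw [Tw.basis_repr, Tw.basis_repr]
      rfl
    · intro x
      rfl
    · intro q hcomm hT htau
      apply hG
      rw [map_zero]
      refine K1_field haK h2' hs'' hg1 hg2 (q := G q) ?_ ?_ ?_
      · rw [← map_mul G, hcomm, map_mul G]
      · intro γ hγ1 hγ2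
        change i (q γ) = 0
        have := hT γ ⟨hγ1, hγ2⟩
        rw [Tw.basis_repr] at this
        rw [this, map_zero]
      · intro j hj
        have := htau j hj
        rw [← map_pow G, ← map_mul G]
        change i (Tw.tau (F z ^ j * q)) = 0
        rw [this, map_zero]
    · intro γ hγ
      rw [Tw.basis_repr]
      exact hQ γ hγ.1 hγ.2
  · intro h0
    have h1 := K2_field haK h2' hs'' hg1 hg2
    apply h1
    rw [← map_Nco i G Tw.tau Tw.tau (fun _ => rfl), ← map_Nco f F Tw.tau Tw.tau (fun _ => rfl), h0,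
      map_zero, map_zero]

end

end P199H
end
end

section

section

/-!
# P199, blueprint H, lemma L6

`P199H.L6_of`: given `L5` for the ideal generated by the variables `z_g`, `g ∉ Lam K a`, there is a
good prime `P` of codimension at most `2 ^ (2 K - a) - 2 ^ a` modulo which the generic element `z`
satisfies a nonzero polynomial of degree `2 ^ a`.
-/

set_option linter.all false

namespace P199H

open MvPolynomial

/-- (B1) for weighted polynomial rings -/
theorem B1_poly {J ι : Type} [Fintype J] [Fintype ι] (w : J → ι →₀ ℕ) (hw : ∀ j, w j ≠ 0)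
    (I : Set ι) (s : Finset J) (heven : ∀ j ∉ s, ∀ i ∉ I, Even (w j i))
    (hodd : ∀ j ∈ s, rho I (dotTh (w j)) ≠ 0) {P : Ideal (MvPolynomial J ℚ)} (hP : P.IsPrime)
    (hH : HomI w P) (hLC : rho I ((polySys w hw).LC P) ≠ 0) : P ≤ vI s := by
  classical
  refine (polySys w hw).B1 w ?_ (fun j => isWeightedHomogeneous_X ℚ w j) I s ?_ (rho I)
    (rho_two I) (fun i hi => by rw [rho_X, if_pos hi]) hodd hP hH hLC
  · intro p hp m
    rw [Ideal.mem_bot] at hp ⊢
    rw [hp, map_zero]
  · intro P hP hH hX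
    have h1 := kp_vars (k := ℚ) (fun j => j ∉ s) w hw hH (fun j hj => hX j (not_not.mp hj))
    refine ⟨kp (fun j : {j // j ∉ s} => w j) (fun _ => hw _)
        (P.comap (rename (Subtype.val : {j // j ∉ s} → J) :
          MvPolynomial {j // j ∉ s} ℚ →ₐ[ℚ] MvPolynomial J ℚ)), ?_, h1.trans ?_⟩
    · refine kp_even _ _ (fun j i hi => heven j.1 j.2 i hi) ?_
      intro x hx m
      rw [Ideal.mem_comap] at hx ⊢
      have := rename_weightedHomogeneousComponent (k := ℚ)
        (Subtype.val : {j // j ∉ s} → J) w m x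
      change rename _ _ ∈ P
      rw [this]
      exact hH _ hx m
    · congr 1
      refine Fintype.prod_equiv (Equiv.subtypeEquivRight fun j => by simp) _ _ ?_
      intro j
      rfl

variable {K : ℕ}

theorem gval_eq_vl (g : Gam K) : gval g = vl g := by
  ext i
  rw [gval_apply, vl_apply]

theorem wt_sz (r : ℕ) (i : Ix K) :
    Wt (wz r) (sz i : MvPolynomial (Jz K) ℚ) 0 (Finsupp.single i 2) := Wt.X (Sum.inr i)

theorem homTw_zgen {r : ℕ} (hr : 1 ≤ r) :
    HomTw (wz r) (r • D0) (zgen : Tw K (MvPolynomial (Jz K) ℚ) sz) := by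
  intro g
  by_cases h : g = 0
  · subst h
    rw [zgen_zero]
    exact Wt.zero _ _
  · rw [zgen_apply h]
    refine Wt.of_isWH (isWeightedHomogeneous_X ℚ (wz r) (Sum.inl ⟨g, h⟩)) ?_
    rw [wz_inl, ← gval_eq_vl]
    exact tsub_add_cancel_of_le (gval_le_smul_D0 g hr)

/-- **L6**, given `L5` for one explicit good prime -/
theorem L6_of {a r : ℕ} (ha : 1 ≤ a) (haK : a ≤ K) (hr : 1 ≤ r)
    (hL5 : ∀ P : Ideal (MvPolynomial (Jz K) ℚ), P.IsPrime → HomI (wz r) P →
      ¬ 2 ∣ (polySys (wz r) (wz_ne_zero hr)).LC P → (∀ i, sz i ∉ P) →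
      NoZeroDivisors (Tw K (MvPolynomial (Jz K) ℚ ⧸ P) (fun i => Ideal.Quotient.mk P (sz i)))) :
    ∃ P : Ideal (MvPolynomial (Jz K) ℚ), P.IsPrime ∧ HomI (wz r) P ∧
      (polySys (wz r) (wz_ne_zero hr)).c P + 2 ^ a ≤ 2 ^ (2 * K - a) ∧
      ¬ 2 ∣ (polySys (wz r) (wz_ne_zero hr)).LC P ∧
      ∃ N : Fin (2 ^ a + 1) → (MvPolynomial (Jz K) ℚ ⧸ P), N ≠ 0 ∧
        ∑ i, N i • (Tw.map (Ideal.Quotient.mk P) (fun _ => rfl) zgen :
          Tw K (MvPolynomial (Jz K) ℚ ⧸ P) (fun i => Ideal.Quotient.mk P (sz i))) ^ (i : ℕ) = 0 := by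
  classical
  set H := polySys (wz (K := K) r) (wz_ne_zero hr) with hH
  have hbot : H.HI ⊥ := by
    intro p hp m
    rw [Ideal.mem_bot] at hp ⊢
    rw [hp, map_zero]
  have hX : ∀ j, H.Hom (X j) (wz r j) := fun j => isWeightedHomogeneous_X ℚ (wz r) j
  have hK : H.K ⊥ = 1 := kp_bot _ _
  have hd : 2 ≤ 2 ^ a := by
    calc 2 = 2 ^ 1 := (pow_one 2).symm
      _ ≤ 2 ^ a := Nat.pow_le_pow_right (by norm_num) ha
  -- the prime `P*`
  set z : Tw K (MvPolynomial (Jz K) ℚ) sz := zgen with hz
  set n : ℕ := ∑ i : Fin (2 ^ a), (i : ℕ) + ∑ j : Fin (2 ^ a + 1), (j : ℕ) with hn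
  have hn0 : n ≠ 0 := by
    have h1 : ((⟨1, by omega⟩ : Fin (2 ^ a)) : ℕ) ≤ ∑ i : Fin (2 ^ a), (i : ℕ) :=
      Finset.single_le_sum (f := fun i : Fin (2 ^ a) => (i : ℕ)) (fun _ _ => Nat.zero_le _)
        (Finset.mem_univ _)
    have h2 : 1 ≤ ∑ i : Fin (2 ^ a), (i : ℕ) := h1
    omega
  obtain ⟨P, hP, hHP, hc, hLC, hQ, hle⟩ := exists_Pstar_abs H haK hr hbot hK
    (polySys_c_bot _ _) (fun P hP hHP hLC => B1_poly (wz r) (wz_ne_zero hr) (IL K a) (sL K a)
      (fun j hj i hi => wz_even j hj i hi) (fun j hj => rho_wz hr j hj) hP hHP hLC)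
    (fun g => Qel Tw.tau z (2 ^ a) g) (n • (r • D0))
    (fun i => by
      rw [Finsupp.smul_apply, Finsupp.smul_apply, D0_apply, smul_eq_mul, smul_eq_mul]
      refine ⟨(even_two.mul_left r).mul_left n, ?_⟩
      have : r ≠ 0 := by omega
      positivity)
    (fun g _ => by
      have := (wt_Qel (wt_sz r) (homTw_zgen hr) (2 ^ a) g).isWH
      rw [gval_eq_vl]
      exact this)
  have hnP : (vI (sL K a) : Ideal (MvPolynomial (Jz K) ℚ)).IsPrime := vI_isPrime _
  have hsn : ∀ i : Ix K, (sz i : MvPolynomial (Jz K) ℚ) ∉ vI (sL K a) :=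
    fun i => X_notMem_vI inr_notMem_sL
  have hdom1 := hL5 (vI (sL K a)) hnP (H.HI_vI (wz r) hbot hX _)
    (not_dvd_of_rho (LC_nn H hr hbot hX hK)) hsn
  haveI := hP
  haveI := hnP
  set nn : Ideal (MvPolynomial (Jz K) ℚ) := vI (sL K a) with hnn
  have h2 : (1 : MvPolynomial (Jz K) ℚ ⧸ nn) ≠ -1 := by
    intro h
    have h3 : (2 : MvPolynomial (Jz K) ℚ ⧸ nn) = 0 := by
      have : (2 : MvPolynomial (Jz K) ℚ ⧸ nn) = 1 + 1 := by norm_num
      rw [this]
      nth_rewrite 1 [h]
      exact neg_add_cancel 1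
    haveI : CharZero (MvPolynomial (Jz K) ℚ ⧸ nn) :=
      charZero_of_injective_algebraMap (algebraMap ℚ (MvPolynomial (Jz K) ℚ ⧸ nn)).injective
    exact two_ne_zero h3
  have hF := B2 haK h2 (Ideal.Quotient.factor hle) (Ideal.Quotient.factor_surjective hle)
    (s := fun i => Ideal.Quotient.mk P (sz i)) (s' := fun i => Ideal.Quotient.mk nn (sz i))
    (fun i => Ideal.Quotient.factor_mk hle _)
    (fun i h => hsn i (Ideal.Quotient.eq_zero_iff_mem.mp h))
    (Tw.noZeroDivisors_frac (fun _ => rfl))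
    (Tw.map (Ideal.Quotient.mk P) (fun _ => rfl) z)
    (fun γ hγ => by
      rw [Tw.map_apply, Ideal.Quotient.factor_mk, Ideal.Quotient.eq_zero_iff_mem]
      have h0 : γ ≠ 0 := fun h => hγ (h ▸ (Lam K a).zero_mem)
      rw [hz, zgen_apply h0]
      exact X_mem_vI (inl_mem_sL.mpr hγ))
    (fun γ hγ h0 => by
      rw [Tw.map_apply, Ideal.Quotient.factor_mk, Ne, Ideal.Quotient.eq_zero_iff_mem, hz,
        zgen_apply h0]
      exact X_notMem_vI fun h => inl_mem_sL.mp h hγ)
    (fun γ h1 h3 => by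
      have h4 : (Tw.map (Ideal.Quotient.mk P) (fun _ => rfl) (Qel Tw.tau z (2 ^ a)) :
          Tw K (MvPolynomial (Jz K) ℚ ⧸ P) (fun i => Ideal.Quotient.mk P (sz i))) =
          Qel Tw.tau (Tw.map (Ideal.Quotient.mk P) (fun _ => rfl) z) (2 ^ a) := by
        unfold Qel
        rw [map_sum]
        refine Finset.sum_congr rfl fun j _ => ?_
        rw [Tw.map_smul, map_pow, map_Nco (Ideal.Quotient.mk P)
          (Tw.map (Ideal.Quotient.mk P) (fun _ => rfl)) Tw.tau Tw.tau (fun _ => rfl)]
      rw [← h4, Tw.map_apply]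
      exact Ideal.Quotient.eq_zero_iff_mem.mpr (hQ γ h1 h3))
  refine ⟨P, hP, hHP, hc, not_dvd_of_rho hLC, _, ?_, hF.1⟩
  intro h
  exact hF.2 (congrFun h (Fin.last _))

end P199H
end
end

section

section

/-!
# P199, blueprint H: L8 from L5

`L5Stmt K`: a good prime `P` of the ring `ℚ[z_g, s_i]` with `s_i ∉ P` gives a domain
`Tw K (S / P)`.  `L8_of_L5` is L8 with this input only.
-/

set_option linter.all false

namespace P199H

open MvPolynomial
open Vale.Agent.P199.H (TExp)

/-- The input from L5 needed for L6. -/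
def L5Stmt (K : ℕ) : Prop :=
  ∀ (r : ℕ) (hr : 1 ≤ r) (P : Ideal (MvPolynomial (Jz K) ℚ)), P.IsPrime → HomI (wz r) P →
    ¬ (2 : MvPolynomial (Ix K) ℤ) ∣ (polySys (wz r) (wz_ne_zero hr)).LC P → (∀ i, sz i ∉ P) →
    NoZeroDivisors (Tw K (MvPolynomial (Jz K) ℚ ⧸ P) (fun i => Ideal.Quotient.mk P (sz i)))

theorem L6Stmt_of {K : ℕ} (h5 : L5Stmt K) : L6Stmt K := by
  intro a r ha haK hr
  obtain ⟨P, h1, h2, h3, h4, N, hN, hrel⟩ := L6_of ha haK hr (h5 r hr)
  refine ⟨P, h1, h2, h4, (Nat.le_add_right _ _).trans h3, ?_⟩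
  intro f
  haveI := h1
  rw [← Ideal.Quotient.eq_zero_iff_mem]
  have h := minors_of_dep (B := MvPolynomial (Jz K) ℚ ⧸ P) (G := Gam K)
    (fun b g => ((Tw.map (Ideal.Quotient.mk P) (fun _ => rfl) zgen :
      Tw K (MvPolynomial (Jz K) ℚ ⧸ P) (fun i => Ideal.Quotient.mk P (sz i))) ^ (b : ℕ)) g)
    N hN (by
      intro g
      have := congrArg (fun w : Tw K (MvPolynomial (Jz K) ℚ ⧸ P)
        (fun i => Ideal.Quotient.mk P (sz i)) => w g) hrel
      simp only [Tw.sum_apply, Tw.smul_apply, Tw.zero_apply] at this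
      exact this) f
  rw [← h, RingHom.map_det]
  congr 1
  ext i j
  simp only [Matrix.of_apply, RingHom.mapMatrix_apply, Matrix.map_apply]
  rw [← map_pow]
  rfl

/-- **L8** (from L5). -/
theorem L8_of_L5 (h5 : ∀ K, L5Stmt K) (Φ : ℕ → TExp) (n K : ℕ) (hK0 : 0 < K) (hK : n + 3 ≤ K) :
    ∃ P : Ideal (MvPolynomial (J0 K) ℚ), P.IsPrime ∧ HomI w0 P ∧
      ¬ (2 : MvPolynomial (Ix K) ℤ) ∣ (polySys w0 (w0_ne_zero hK0)).LC P ∧
      4 * (polySys w0 (w0_ne_zero hK0)).c P ≤ 2 ^ (2 * K) ∧
      ∀ (L : Type) [Field L] (φ : MvPolynomial (J0 K) ℚ →+* L), (∀ p ∈ P, φ p = 0) →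
        ∀ [Algebra ℚ (Tw K L (fun i => φ (s0 i)))], ∀ j ≤ n,
          PolyRel L (2 ^ (j + 3))
            (TExp.eval (fun v => algebraMap L (Tw K L (fun i => φ (s0 i))) (Tw.tau v))
              ((φ sigma0)⁻¹ • Tw.map φ (fun _ => rfl) xgen)
              ((φ sigma0)⁻¹ • Tw.map φ (fun _ => rfl) ygen) (Φ j)) :=
  L8_of_L6 (fun K => L6Stmt_of (h5 K)) Φ n K hK0 hK

end P199H
end
end

section

section

/-!
# P199, blueprint H: L5 for the two rings used, and L8 without hypotheses

Exported: `l5Stmt : L5Stmt K`, `L5_J0` (the domain `Tw K L` for `L = Frac (ℚ[x, y, s] / P)`),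
`L8`.
-/

set_option linter.all false

namespace P199H

open MvPolynomial
open Vale.Agent.P199.H (TExp)

theorem l5Stmt (K : ℕ) : L5Stmt K := by
  intro r hr P hP hH hLC _
  exact L5 (wz r) (wz_ne_zero hr) (js := Sum.inr) Sum.inr_injective (fun i => rfl) hP hH hLC

end P199H
end
end

section

section

/-!
# P199, blueprint H: a good prime contains no variable of even weight
-/

set_option linter.all false

namespace P199H

open MvPolynomial

/-- A good prime does not contain a variable whose weight is even. -/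
theorem X_notMem_of_good {J ι : Type} [Fintype J] [Finite ι] (w : J → Dg ι) (hw : ∀ j, w j ≠ 0)
    {P : Ideal (MvPolynomial J ℚ)} (hP : P.IsPrime) (hH : HomI w P)
    (hLC : ¬ (2 : MvPolynomial ι ℤ) ∣ (polySys w hw).LC P) (j0 : J)
    (hj0 : (2 : MvPolynomial ι ℤ) ∣ dotTh (w j0)) : (X j0 : MvPolynomial J ℚ) ∉ P := by
  classical
  intro hX
  apply hLC
  let p : J → Prop := fun j => j ≠ j0
  let w' : {j // p j} → Dg ι := fun j => w j
  have hw' : ∀ j, w' j ≠ 0 := fun _ => hw _
  set ren : MvPolynomial {j // p j} ℚ →ₐ[ℚ] MvPolynomial J ℚ := rename Subtype.val with hren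
  have hkp := kp_vars (k := ℚ) p w hw hH (fun j hj => by
    have : j = j0 := not_not.mp hj
    rw [this]; exact hX)
  have hP' : (P.comap ren).IsPrime := Ideal.IsPrime.comap ren
  have hH' : HomI w' (P.comap ren) := by
    intro x hx m
    rw [Ideal.mem_comap] at hx ⊢
    have := rename_weightedHomogeneousComponent (k := ℚ) (Subtype.val : {j // p j} → J) w m x
    change rename _ _ ∈ P
    rw [this]
    exact hH _ hx m
  -- the projection
  let f : MvPolynomial J ℚ →ₐ[ℚ] MvPolynomial {j // p j} ℚ :=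
    aeval (fun j => if h : p j then X ⟨j, h⟩ else 0)
  have hfX : ∀ (j : J) (h : p j), f (X j) = X ⟨j, h⟩ := by
    intro j h
    simp only [f, aeval_X, dif_pos h]
  have hf0 : f (X j0) = 0 := by
    have : ¬ p j0 := fun h => h rfl
    simp only [f, aeval_X, dif_neg this]
  have hfr : ∀ x, f (ren x) = x := by
    intro x
    have : (f.comp ren) = AlgHom.id ℚ _ := by
      apply MvPolynomial.algHom_ext
      rintro ⟨j, h⟩
      simp only [AlgHom.comp_apply, hren, rename_X, hfX j h, AlgHom.id_apply]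
    exact DFunLike.congr_fun this x
  have hf : Function.Surjective f := fun x => ⟨ren x, hfr x⟩
  have hsub : ∀ x, x - ren (f x) ∈ P := by
    intro x
    induction x using MvPolynomial.induction_on with
    | C a => simp [hren]
    | add x y hx hy =>
      have : x + y - ren (f (x + y)) = (x - ren (f x)) + (y - ren (f y)) := by
        rw [map_add, map_add]; ring
      rw [this]
      exact P.add_mem hx hy
    | mul_X x j hx =>
      have : x * X j - ren (f (x * X j)) = (x - ren (f x)) * X j +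
          ren (f x) * (X j - ren (f (X j))) := by
        rw [map_mul, map_mul]; ring
      rw [this]
      refine P.add_mem (P.mul_mem_right _ hx) (P.mul_mem_left _ ?_)
      by_cases h : p j
      · rw [hfX j h, hren, rename_X, sub_self]
        exact P.zero_mem
      · have h' : j = j0 := not_not.mp h
        rw [h', hf0, map_zero, sub_zero]
        exact hX
  have hcomap : (P.comap ren).comap f = P := by
    ext x
    rw [Ideal.mem_comap, Ideal.mem_comap]
    constructor
    · intro h
      have := P.add_mem (hsub x) h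
      rwa [sub_add_cancel] at this
    · intro h
      have := P.sub_mem h (hsub x)
      rwa [sub_sub_cancel] at this
  have htd : td P = td (P.comap ren) := by
    have := td_eq_of_surjective f hf (P.comap ren)
    rw [hcomap] at this
    exact this
  have hcard : Fintype.card J = Fintype.card {j // p j} + 1 := by
    rw [Fintype.card_subtype_compl (fun j => j = j0)]
    simp only [Fintype.card_subtype_eq]
    have : 0 < Fintype.card J := Fintype.card_pos_iff.2 ⟨j0⟩
    omega
  have hle : td (P.comap ren) ≤ Fintype.card {j // p j} := td_le_card _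
  have hc : (polySys w hw).c P = (polySys w' hw').c (P.comap ren) + 1 := by
    rw [polySys_c, polySys_c]
    omega
  have hprod : ∏ j : {j // ¬ p j}, (1 - monomial (w j) (1 : ℤ)) = 1 - monomial (w j0) 1 := by
    have hu : ∀ j : {j // ¬ p j}, j = ⟨j0, fun h => h rfl⟩ := by
      rintro ⟨j, h⟩
      exact Subtype.ext (not_not.mp h)
    rw [Fintype.prod_eq_single (⟨j0, fun h => h rfl⟩ : {j // ¬ p j})]
    intro j hj
    exact absurd (hu j) hj
  have hd := (polySys w' hw').X_pow_dvd_prime hP' hH'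
  have hd2 : (Polynomial.X : Polynomial (MvPolynomial ι ℤ)) ^ 1 ∣
      phi (1 - monomial (w j0) (1 : ℤ)) := by
    rw [pow_one, Polynomial.X_dvd_iff]
    exact HSys.phi_one_sub_coeff_zero _
  have hmain : (polySys w hw).LC P = (phi (kp w' hw' (P.comap ren))).coeff
      ((polySys w' hw').c (P.comap ren)) * dotTh (w j0) := by
    have h1 : (polySys w hw).LC P = (phi (kp w hw P)).coeff ((polySys w hw).c P) := rfl
    rw [h1, hkp, hprod, map_mul, hc]
    refine (coeff_mul_of_dvd (m := (polySys w' hw').c (P.comap ren)) (n := 1) hd hd2).trans ?_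
    rw [HSys.phi_one_sub_coeff_one]
    rfl
  rw [hmain]
  exact Dvd.dvd.mul_left hj0 _

theorem two_dvd_dotTh_single {ι : Type} (i : ι) :
    (2 : MvPolynomial ι ℤ) ∣ dotTh (Finsupp.single i 2) := by
  unfold dotTh
  rw [Finsupp.sum_single_index (by simp)]
  exact ⟨X i, by push_cast; ring⟩

end P199H
end
end

section

section

/-!
Field theory for the Hilbert series construction (problem P199):
* derivations dual to an algebraically independent family (characteristic 0);
* the transcendence degree drops along strict inclusions of primes.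
-/

namespace P199H

open TensorProduct

/-- extension of a derivation `A → T` along a formally etale algebra `A → T`. -/
theorem exists_derivation_extend {R A T : Type} [CommRing R] [CommRing A] [CommRing T]
    [Algebra R A] [Algebra R T] [Algebra A T] [IsScalarTower R A T]
    [Algebra.FormallyEtale A T] (d : Derivation R A T) :
    ∃ D : Derivation R T T, ∀ a : A, D (algebraMap A T a) = d a := by
  let f : Ω[A⁄R] →ₗ[A] T := d.liftKaehlerDifferential
  let g : T ⊗[A] Ω[A⁄R] →ₗ[T] T :=
    LinearMap.liftBaseChange T f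
  let e := KaehlerDifferential.tensorKaehlerEquivOfFormallyEtale R A T
  refine ⟨(g ∘ₗ e.symm.toLinearMap).compDer (KaehlerDifferential.D R T), fun a => ?_⟩
  have h := KaehlerDifferential.tensorKaehlerEquivOfFormallyEtale_symm_D_algebraMap R A T a
  change g (e.symm (KaehlerDifferential.D R T (algebraMap A T a))) = d a
  rw [h]
  simp [g, f]


/-- a field of characteristic zero is formally etale over the polynomial ring of a
transcendence basis; consequently every assignment of values on the basis extends to a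
derivation. -/
theorem exists_derivation_of_basis (L : Type) [Field L] [CharZero L] {σ : Type} (x : σ → L)
    (hx : IsTranscendenceBasis ℚ x) (v : σ → L) :
    ∃ D : Derivation ℚ L L, ∀ i, D (x i) = v i := by
  classical
  let algAL : Algebra (MvPolynomial σ ℚ) L := (MvPolynomial.aeval (R := ℚ) x).toAlgebra
  have hmap : ∀ a : MvPolynomial σ ℚ, algebraMap (MvPolynomial σ ℚ) L a
      = MvPolynomial.aeval x a := fun a => rfl
  have tow : IsScalarTower ℚ (MvPolynomial σ ℚ) L := IsScalarTower.of_algebraMap_eq (fun q => by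
    rw [hmap, MvPolynomial.algebraMap_eq, MvPolynomial.aeval_C])
  have hinj : Function.Injective (algebraMap (MvPolynomial σ ℚ) L) := hx.1
  have hfs : FaithfulSMul (MvPolynomial σ ℚ) L :=
    (faithfulSMul_iff_algebraMap_injective (MvPolynomial σ ℚ) L).mpr hinj
  let algKL : Algebra (FractionRing (MvPolynomial σ ℚ)) L :=
    FractionRing.liftAlgebra (MvPolynomial σ ℚ) L
  have tow2 : IsScalarTower (MvPolynomial σ ℚ) (FractionRing (MvPolynomial σ ℚ)) L :=
    FractionRing.isScalarTower_liftAlgebra (MvPolynomial σ ℚ) L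
  have halg : Algebra.IsAlgebraic (MvPolynomial σ ℚ) L := by
    have h1 := hx.isAlgebraic
    refine ⟨fun a => ?_⟩
    have h2 : IsAlgebraic (Algebra.adjoin ℚ (Set.range x)) a := h1.isAlgebraic a
    refine IsAlgebraic.of_ringHom_of_comp_eq (S := Algebra.adjoin ℚ (Set.range x)) (B := L)
      (hx.1.aevalEquiv : MvPolynomial σ ℚ ≃+* Algebra.adjoin ℚ (Set.range x)) (RingHom.id L)
      (a := a) h2 (EquivLike.surjective _) Function.injective_id ?_
    ext z
    · simp
    · simp [hmap]
  have halgK : Algebra.IsAlgebraic (FractionRing (MvPolynomial σ ℚ)) L :=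
    ⟨fun a => (halg.isAlgebraic a).extendScalars
      (IsFractionRing.injective (MvPolynomial σ ℚ) (FractionRing (MvPolynomial σ ℚ)))⟩
  have hch : CharZero (FractionRing (MvPolynomial σ ℚ)) := by infer_instance
  have hsep : Algebra.IsSeparable (FractionRing (MvPolynomial σ ℚ)) L := inferInstance
  have e1 : Algebra.FormallyEtale (FractionRing (MvPolynomial σ ℚ)) L :=
    Algebra.FormallyEtale.of_isSeparable _ _
  have e2 : Algebra.FormallyEtale (MvPolynomial σ ℚ) (FractionRing (MvPolynomial σ ℚ)) :=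
    Algebra.FormallyEtale.of_isLocalization (nonZeroDivisors (MvPolynomial σ ℚ))
  have e3 : Algebra.FormallyEtale (MvPolynomial σ ℚ) L :=
    Algebra.FormallyEtale.comp (MvPolynomial σ ℚ) (FractionRing (MvPolynomial σ ℚ)) L
  obtain ⟨D, hD⟩ := exists_derivation_extend (R := ℚ) (A := MvPolynomial σ ℚ) (T := L)
    (MvPolynomial.mkDerivation ℚ v)
  refine ⟨D, fun i => ?_⟩
  have h1 : algebraMap (MvPolynomial σ ℚ) L (MvPolynomial.X i) = x i := by
    rw [hmap, MvPolynomial.aeval_X]
  have h2 := hD (MvPolynomial.X i)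
  rw [h1] at h2
  rw [h2, MvPolynomial.mkDerivation_X]

theorem exists_derivation_dual (L : Type) [Field L] [CharZero L] {r : ℕ} (b : Fin r → L)
    (hb : AlgebraicIndependent ℚ b) :
    ∃ D : Fin r → Derivation ℚ L L, ∀ i j, D i (b j) = if i = j then 1 else 0 := by
  classical
  obtain ⟨t, hst, ht⟩ := exists_isTranscendenceBasis_superset (R := ℚ) (s := Set.range b)
    hb.coe_range
  have hmem : ∀ j, b j ∈ t := fun j => hst ⟨j, rfl⟩
  have hbinj : Function.Injective b := hb.injective
  have key : ∀ i : Fin r, ∃ D : Derivation ℚ L L, ∀ j, D (b j) = if i = j then 1 else 0 := by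
    intro i
    obtain ⟨D, hD⟩ := exists_derivation_of_basis L (fun a : t => (a : L)) ht
      (fun a : t => if (a : L) = b i then (1 : L) else 0)
    refine ⟨D, fun j => ?_⟩
    have h3 := hD ⟨b j, hmem j⟩
    simp only at h3
    rw [h3]
    by_cases hij : i = j
    · subst hij; simp
    · have : b j ≠ b i := fun h => hij (hbinj h).symm
      simp [this, hij]
  choose D hD using key
  exact ⟨D, hD⟩

end P199H
end
end

section

section

/-!
# P199 H, L9: the transcendence degree bound

`L` a field of characteristic zero, `D` a finite-dimensional division algebra over `L` with a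
basis whose structure constants are killed by the derivations killing `s`, `x, y ∈ D` whose
coordinates (together with `s`) generate `L`. Then
`trdeg L ≤ N + dim D + 2 (dim L[x,y])^2`.
-/

set_option linter.unusedSectionVars false

namespace P199H

open Module

section ext

variable {L : Type} [Field L] [CharZero L] {D : Type} [Ring D] [Algebra L D]
  {G : Type} [Fintype G] (X : Basis G L D) (δ : Derivation ℚ L L)

/-- the coefficientwise extension of a derivation -/
noncomputable def ext (u : D) : D := ∑ g, δ (X.repr u g) • X g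

theorem ext_add (u v : D) : ext X δ (u + v) = ext X δ u + ext X δ v := by
  simp only [ext, map_add, Finsupp.add_apply, add_smul, Finset.sum_add_distrib]

theorem ext_zero : ext X δ 0 = 0 := by
  simp [ext]

theorem ext_sum {ι : Type} (s : Finset ι) (f : ι → D) :
    ext X δ (∑ i ∈ s, f i) = ∑ i ∈ s, ext X δ (f i) := by
  classical
  induction s using Finset.induction_on with
  | empty => simp [ext_zero]
  | insert a s ha ih => rw [Finset.sum_insert ha, Finset.sum_insert ha, ext_add, ih]

theorem ext_smul (l : L) (u : D) : ext X δ (l • u) = δ l • u + l • ext X δ u := by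
  have h : ext X δ (l • u) = ∑ g, (l • δ (X.repr u g) • X g + δ l • X.repr u g • X g) := by
    apply Finset.sum_congr rfl
    intro g _
    rw [map_smul, Finsupp.smul_apply, smul_eq_mul, Derivation.leibniz, add_smul, smul_smul,
      smul_smul, smul_eq_mul, smul_eq_mul, mul_comm (X.repr u g) (δ l)]
  rw [h, Finset.sum_add_distrib, ← Finset.smul_sum, ← Finset.smul_sum, X.sum_repr, add_comm]
  rfl

theorem repr_ext (u : D) (g : G) : X.repr (ext X δ u) g = δ (X.repr u g) := by
  classical
  rw [ext, Basis.repr_sum_self]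

theorem ext_eq_zero_iff (u : D) : ext X δ u = 0 ↔ ∀ g, δ (X.repr u g) = 0 := by
  constructor
  · intro h g
    rw [← repr_ext, h]
    simp
  · intro h
    simp [ext, h]

theorem ext_mul (hc : ∀ g h, ext X δ (X g * X h) = 0) (u v : D) :
    ext X δ (u * v) = ext X δ u * v + u * ext X δ v := by
  have key : ∀ (g : G) (w : D), ext X δ (X g * w) = X g * ext X δ w := by
    intro g w
    have h1 : X g * w = ∑ h, X.repr w h • (X g * X h) := by
      conv_lhs => rw [← X.sum_repr w, Finset.mul_sum]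
      apply Finset.sum_congr rfl
      intro h _
      rw [mul_smul_comm]
    rw [h1, ext_sum, ext, Finset.mul_sum]
    apply Finset.sum_congr rfl
    intro h _
    rw [ext_smul, hc, smul_zero, add_zero, mul_smul_comm]
  have h2 : u * v = ∑ g, X.repr u g • (X g * v) := by
    conv_lhs => rw [← X.sum_repr u, Finset.sum_mul]
    apply Finset.sum_congr rfl
    intro g _
    rw [smul_mul_assoc]
  have h3 : u * ext X δ v = ∑ g, X.repr u g • (X g * ext X δ v) := by
    conv_lhs => rw [← X.sum_repr u, Finset.sum_mul]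
    apply Finset.sum_congr rfl
    intro g _
    rw [smul_mul_assoc]
  have h4 : ext X δ u * v = ∑ g, δ (X.repr u g) • (X g * v) := by
    rw [ext, Finset.sum_mul]
    apply Finset.sum_congr rfl
    intro g _
    rw [smul_mul_assoc]
  rw [h2, ext_sum, h3, h4, ← Finset.sum_add_distrib]
  apply Finset.sum_congr rfl
  intro g _
  rw [ext_smul, key]

theorem ext_der_smul (c : L) (u : D) : ext X (c • δ) u = c • ext X δ u := by
  simp only [ext, Derivation.coe_smul, Pi.smul_apply, Finset.smul_sum, smul_smul, smul_eq_mul]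

theorem ext_der_add (δ' : Derivation ℚ L L) (u : D) :
    ext X (δ + δ') u = ext X δ u + ext X δ' u := by
  simp only [ext, Derivation.coe_add, Pi.add_apply, add_smul, Finset.sum_add_distrib]

end ext

section generate

variable {L : Type} [Field L] [CharZero L]

/-- a derivation killing a set kills the `ℚ`-algebra it generates -/
theorem der_adjoin (δ : Derivation ℚ L L) (S : Set L) (h : ∀ a ∈ S, δ a = 0) (a : L)
    (ha : a ∈ Algebra.adjoin ℚ S) : δ a = 0 := by
  induction ha using Algebra.adjoin_induction with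
  | mem x hx => exact h x hx
  | algebraMap r => exact δ.map_algebraMap r
  | add x y _ _ hx hy => rw [map_add, hx, hy, add_zero]
  | mul x y _ _ hx hy => rw [Derivation.leibniz, hx, hy, smul_zero, smul_zero, add_zero]

/-- a derivation killing a set `S` such that every element is a fraction of elements of the
`ℚ`-algebra generated by `S` is zero -/
theorem der_eq_zero_of_frac (δ : Derivation ℚ L L) (S : Set L) (h : ∀ a ∈ S, δ a = 0)
    (hS : ∀ l : L, ∃ a ∈ Algebra.adjoin ℚ S, ∃ b ∈ Algebra.adjoin ℚ S, b ≠ 0 ∧ l = a / b) :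
    δ = 0 := by
  ext l
  obtain ⟨a, ha, b, hb, hb0, rfl⟩ := hS l
  have h1 : δ (a / b * b) = 0 := by
    rw [div_mul_cancel₀ a hb0]
    exact der_adjoin δ S h a ha
  rw [Derivation.leibniz, der_adjoin δ S h b hb, smul_zero, zero_add, smul_eq_mul] at h1
  simpa [hb0] using h1

end generate

section casimir

variable {L : Type} [Field L] {D : Type} [Ring D] [IsDomain D] [Algebra L D]
  [FiniteDimensional L D]

/-- `L`-linear derivations from a subalgebra to the algebra are inner (Casimir element) -/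
theorem inner_of_derivation (hchar : CharZero L) (τ : D →ₗ[L] L) (hτ : ∀ u v, τ (u * v) = τ (v * u))
    (h1 : τ 1 = 1) (D1 : Subalgebra L D) (ψ : D1 →ₗ[L] D)
    (hψ : ∀ u v : D1, ψ (u * v) = ψ u * v + u * ψ v) :
    ∃ z : D, ∀ u : D1, ψ u = z * u - u * z := by
  classical
  -- the bilinear form on `D1`
  let B : LinearMap.BilinForm L D1 := LinearMap.mk₂ L (fun u v : D1 => τ ((u : D) * v))
    (fun u u' v => by simp [add_mul]) (fun c u v => by simp)
    (fun u v v' => by simp [mul_add]) (fun c u v => by simp)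
  have hB : ∀ u v : D1, B u v = τ ((u : D) * v) := fun _ _ => rfl
  have hinv : ∀ u : D1, u ≠ 0 → ∃ v : D1, (u : D) * v = 1 := by
    intro u hu
    have hunit : IsUnit u := FiniteDimensional.isUnit L hu
    obtain ⟨w, hw⟩ := hunit.exists_right_inv
    exact ⟨w, by
      have := congrArg (Subtype.val) hw
      simpa using this⟩
  have hnd : B.Nondegenerate := by
    constructor
    · intro u hu
      by_contra h0
      obtain ⟨v, hv⟩ := hinv u h0
      have := hu v
      rw [hB, hv, h1] at this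
      exact one_ne_zero this
    · intro u hu
      by_contra h0
      obtain ⟨v, hv⟩ := hinv u h0
      have := hu v
      rw [hB, hτ, hv, h1] at this
      exact one_ne_zero this
  let a := Module.finBasis L D1
  let b := B.dualBasis hnd a
  have hb : ∀ i j, τ ((b i : D) * a j) = if j = i then 1 else 0 := by
    intro i j
    have := LinearMap.BilinForm.apply_dualBasis_left (B := B) hnd a i j
    rw [hB] at this
    exact this
  -- expansions
  have hexpa : ∀ u : D1, u = ∑ j, τ ((b j : D) * u) • a j := by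
    intro u
    conv_lhs => rw [← a.sum_repr u]
    apply Finset.sum_congr rfl
    intro j _
    congr 1
    have : (u : D) = ∑ i, a.repr u i • (a i : D) := by
      have h0 := congrArg Subtype.val (a.sum_repr u)
      simp only [AddSubmonoidClass.coe_finsetSum, Subalgebra.coe_smul] at h0
      exact h0.symm
    rw [this, Finset.mul_sum, map_sum, Finset.sum_eq_single j]
    · rw [mul_smul_comm, map_smul, hb, if_pos rfl, smul_eq_mul, mul_one]
    · intro i _ hij
      rw [mul_smul_comm, map_smul, hb, if_neg hij, smul_zero]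
    · simp
  have hexpb : ∀ u : D1, u = ∑ j, τ ((u : D) * a j) • b j := by
    intro u
    conv_lhs => rw [← b.sum_repr u]
    apply Finset.sum_congr rfl
    intro j _
    congr 1
    have : (u : D) = ∑ i, b.repr u i • (b i : D) := by
      have h0 := congrArg Subtype.val (b.sum_repr u)
      simp only [AddSubmonoidClass.coe_finsetSum, Subalgebra.coe_smul] at h0
      exact h0.symm
    rw [this, Finset.sum_mul, map_sum, Finset.sum_eq_single j]
    · rw [smul_mul_assoc, map_smul, hb, if_pos rfl, smul_eq_mul, mul_one]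
    · intro i _ hij
      rw [smul_mul_assoc, map_smul, hb, if_neg (Ne.symm hij), smul_zero]
    · simp
  -- Casimir identity
  have hcas : ∀ (f : D1 →ₗ[L] D) (u : D1),
      ∑ i, f (u * a i) * (b i : D) = (∑ i, f (a i) * (b i : D)) * u := by
    intro f u
    have e1 : ∀ i, f (u * a i) * (b i : D) =
        ∑ j, τ ((b j : D) * (u * a i)) • (f (a j) * (b i : D)) := by
      intro i
      conv_lhs => rw [hexpa (u * a i), map_sum, Finset.sum_mul]
      apply Finset.sum_congr rfl
      intro j _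
      rw [map_smul, smul_mul_assoc]
      rfl
    have e2 : ∀ j, f (a j) * (b j : D) * u =
        ∑ i, τ ((b j : D) * (u * a i)) • (f (a j) * (b i : D)) := by
      intro j
      have e3 : (b j : D) * u = ∑ i, τ ((b j : D) * (u * a i)) • (b i : D) := by
        have := congrArg (Subtype.val) (hexpb (b j * u))
        simp only [Subalgebra.coe_mul, AddSubmonoidClass.coe_finsetSum, Subalgebra.coe_smul] at this
        rw [this]
        apply Finset.sum_congr rfl
        intro i _
        rw [mul_assoc]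
      rw [mul_assoc, e3, Finset.mul_sum]
      apply Finset.sum_congr rfl
      intro i _
      rw [mul_smul_comm]
    rw [Finset.sum_mul]
    simp only [e1, e2]
    rw [Finset.sum_comm]
  let c : D := ∑ i, (a i : D) * (b i : D)
  have hcc : ∀ u : D1, (u : D) * c = c * u := by
    intro u
    have := hcas D1.val.toLinearMap u
    simp only [AlgHom.toLinearMap_apply, Subalgebra.coe_val, Subalgebra.coe_mul] at this
    rw [← this, Finset.mul_sum]
    apply Finset.sum_congr rfl
    intro i _
    rw [mul_assoc]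
  have hc0 : c ≠ 0 := by
    intro h
    have h2 : τ c = (Module.finrank L D1 : L) := by
      rw [map_sum]
      have : ∀ i ∈ Finset.univ, τ ((a i : D) * (b i : D)) = 1 := by
        intro i _
        rw [hτ, hb, if_pos rfl]
      rw [Finset.sum_congr rfl this]
      simp
    rw [h, map_zero] at h2
    have h3 : 0 < Module.finrank L D1 := Module.finrank_pos
    exact (Nat.cast_ne_zero (R := L)).2 h3.ne' h2.symm
  obtain ⟨c', hc'⟩ := (FiniteDimensional.isUnit L hc0 : IsUnit c)
  let w : D := ∑ i, ψ (a i) * (b i : D)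
  have hw : ∀ u : D1, ψ u * c = w * u - u * w := by
    intro u
    have e1 := hcas ψ u
    have e2 : ∑ i, ψ (u * a i) * (b i : D) = ψ u * c + u * w := by
      simp only [c, w, Finset.mul_sum]
      rw [← Finset.sum_add_distrib]
      apply Finset.sum_congr rfl
      intro i _
      rw [hψ, add_mul, mul_assoc, mul_assoc]
    rw [e2] at e1
    rw [← e1]
    abel
  refine ⟨w * (c'⁻¹ : Dˣ), fun u => ?_⟩
  have hcu : (u : D) * (c'⁻¹ : Dˣ) = (c'⁻¹ : Dˣ) * u := by
    have h5 := hcc u
    rw [← hc'] at h5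
    have h6 : (↑c'⁻¹ : D) * ((u : D) * c') * (↑c'⁻¹ : D) = (↑c'⁻¹ : D) * (c' * u) * (↑c'⁻¹ : D) := by
      rw [h5]
    rw [← mul_assoc, mul_assoc _ (c' : D) _, Units.mul_inv, mul_one, ← mul_assoc (↑c'⁻¹ : D),
      Units.inv_mul, one_mul] at h6
    exact h6.symm
  have h7 := hw u
  rw [← hc'] at h7
  have h8 : ψ u = (w * u - u * w) * (↑c'⁻¹ : D) := by
    rw [← h7, mul_assoc, Units.mul_inv, mul_one]
  rw [h8, sub_mul, mul_assoc, hcu]
  simp only [mul_assoc]

end casimir

section main

variable {L : Type} [Field L] [CharZero L] {D : Type} [Ring D] [IsDomain D] [Algebra L D]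
  [FiniteDimensional L D] {G : Type} [Fintype G] (X : Basis G L D)

/-- if `δ` kills the matrices of the left multiplications by `x`, `y` on `L[x,y]`, then the
values of its coefficientwise extension on `x`, `y` come from an inner derivation -/
theorem ext_inner (τ : D →ₗ[L] L) (hτ : ∀ u v, τ (u * v) = τ (v * u)) (h1 : τ 1 = 1)
    (δ : Derivation ℚ L L) (hc : ∀ g h, ext X δ (X g * X h) = 0) (x y : D)
    {ι : Type} [Fintype ι] (u : Basis ι L (Algebra.adjoin L {x, y}))
    (x' y' : Algebra.adjoin L {x, y}) (hx' : (x' : D) = x) (hy' : (y' : D) = y)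
    (ha : ∀ i, ext u δ (x' * u i) = 0) (hb : ∀ i, ext u δ (y' * u i) = 0) :
    ∃ z : D, ext X δ x = z * x - x * z ∧ ext X δ y = z * y - y * z := by
  classical
  have hmul : ∀ w' : Algebra.adjoin L {x, y}, (∀ i, ext u δ (w' * u i) = 0) →
      ∀ v, ext u δ (w' * v) = w' * ext u δ v := by
    intro w' hw v
    have h2 : w' * v = ∑ i, u.repr v i • (w' * u i) := by
      conv_lhs => rw [← u.sum_repr v, Finset.mul_sum]
      apply Finset.sum_congr rfl
      intro h _
      rw [mul_smul_comm]
    rw [h2, ext_sum]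
    have h3 : w' * ext u δ v = ∑ i, δ (u.repr v i) • (w' * u i) := by
      rw [ext, Finset.mul_sum]
      apply Finset.sum_congr rfl
      intro h _
      rw [mul_smul_comm]
    rw [h3]
    apply Finset.sum_congr rfl
    intro i _
    rw [ext_smul, hw, smul_zero, add_zero]
  let der : Algebra.adjoin L {x, y} → Algebra.adjoin L {x, y} := fun v =>
    ext u δ v - v * ext u δ 1
  have der_def : ∀ v, der v = ext u δ v - v * ext u δ 1 := fun _ => rfl
  have der_add : ∀ v w, der (v + w) = der v + der w := by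
    intro v w
    rw [der_def, der_def, der_def, ext_add, add_mul]
    abel
  have der_smul : ∀ (l : L) v, der (l • v) = δ l • v + l • der v := by
    intro l v
    rw [der_def, der_def, ext_smul, smul_sub, smul_mul_assoc]
    abel
  have der_one : der 1 = 0 := by
    rw [der_def, one_mul, sub_self]
  have der_gen : ∀ w' : Algebra.adjoin L {x, y}, (∀ i, ext u δ (w' * u i) = 0) →
      der w' = 0 ∧ ∀ v, der (w' * v) = w' * der v := by
    intro w' hw
    refine ⟨?_, fun v => ?_⟩
    · have := hmul w' hw 1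
      rw [mul_one] at this
      rw [der_def, this, sub_self]
    · rw [der_def, der_def, hmul w' hw, mul_sub, mul_assoc]
  have der_mul : ∀ v w, der (v * w) = der v * w + v * der w := by
    have key : ∀ (v : D) (hv : v ∈ Algebra.adjoin L {x, y}), ∀ w,
        der (⟨v, hv⟩ * w) = der ⟨v, hv⟩ * w + ⟨v, hv⟩ * der w := by
      intro v hv
      refine Algebra.adjoin_induction
        (p := fun v hv => ∀ w, der (⟨v, hv⟩ * w) = der ⟨v, hv⟩ * w + ⟨v, hv⟩ * der w)
        ?_ ?_ ?_ ?_ hv
      · intro v hv w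
        rcases hv with hv | hv
        · have e : (⟨v, Algebra.subset_adjoin (Or.inl hv)⟩ : Algebra.adjoin L {x, y}) = x' := by
            apply Subtype.ext
            rw [hx']
            exact hv
          rw [e, (der_gen x' ha).1, (der_gen x' ha).2, zero_mul, zero_add]
        · have e : (⟨v, Algebra.subset_adjoin (Or.inr hv)⟩ : Algebra.adjoin L {x, y}) = y' := by
            apply Subtype.ext
            rw [hy']
            exact hv
          rw [e, (der_gen y' hb).1, (der_gen y' hb).2, zero_mul, zero_add]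
      · intro l w
        have e : (⟨algebraMap L D l, Subalgebra.algebraMap_mem _ l⟩ : Algebra.adjoin L {x, y})
            = l • 1 := by
          apply Subtype.ext
          simp [Algebra.algebraMap_eq_smul_one]
        rw [e, der_smul, der_one, smul_zero, add_zero, smul_mul_assoc, smul_mul_assoc, one_mul,
          der_smul, smul_mul_assoc, one_mul]
      · intro v w hv hw h1 h2 z
        have e : (⟨v + w, Subalgebra.add_mem _ hv hw⟩ : Algebra.adjoin L {x, y})
            = ⟨v, hv⟩ + ⟨w, hw⟩ := rfl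
        rw [e, add_mul, der_add, h1, h2, der_add, add_mul, add_mul]
        abel
      · intro v w hv hw h1 h2 z
        have e : (⟨v * w, Subalgebra.mul_mem _ hv hw⟩ : Algebra.adjoin L {x, y})
            = ⟨v, hv⟩ * ⟨w, hw⟩ := rfl
        rw [e, mul_assoc, h1, h2, h1, add_mul, mul_add, mul_assoc, mul_assoc, mul_assoc]
        abel
    exact fun v w => key v.1 v.2 w
  let ψ : Algebra.adjoin L {x, y} →ₗ[L] D :=
    { toFun := fun v => ext X δ (v : D) - (der v : D)
      map_add' := by
        intro v w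
        rw [Subalgebra.coe_add, ext_add, der_add, Subalgebra.coe_add]
        abel
      map_smul' := by
        intro l v
        rw [Subalgebra.coe_smul, ext_smul, der_smul, Subalgebra.coe_add, Subalgebra.coe_smul,
          Subalgebra.coe_smul, RingHom.id_apply, smul_sub]
        abel }
  have ψ_def : ∀ v, ψ v = ext X δ (v : D) - (der v : D) := fun _ => rfl
  obtain ⟨z, hz⟩ := inner_of_derivation inferInstance τ hτ h1 _ ψ (by
    intro v w
    rw [ψ_def, ψ_def, ψ_def, Subalgebra.coe_mul, ext_mul X δ hc, der_mul, Subalgebra.coe_add,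
      Subalgebra.coe_mul, Subalgebra.coe_mul, sub_mul, mul_sub]
    abel)
  refine ⟨z, ?_, ?_⟩
  · have := hz x'
    rw [ψ_def, (der_gen x' ha).1, hx'] at this
    simpa using this
  · have := hz y'
    rw [ψ_def, (der_gen y' hb).1, hy'] at this
    simpa using this

/-- L9: the transcendence degree bound -/
theorem trdeg_bound {N : ℕ} (s : Fin N → L)
    (hc : ∀ δ : Derivation ℚ L L, (∀ i, δ (s i) = 0) → ∀ g h, ext X δ (X g * X h) = 0)
    (τ : D →ₗ[L] L) (hτ : ∀ u v, τ (u * v) = τ (v * u)) (h1 : τ 1 = 1) (x y : D)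
    (hgen : ∀ δ : Derivation ℚ L L, (∀ i, δ (s i) = 0) → (∀ g, δ (X.repr x g) = 0) →
      (∀ g, δ (X.repr y g) = 0) → δ = 0)
    {r : ℕ} (b : Fin r → L) (hb : AlgebraicIndependent ℚ b) :
    r ≤ N + finrank L D + 2 * (finrank L (Algebra.adjoin L {x, y})) ^ 2 := by
  classical
  obtain ⟨δ, hδ⟩ := exists_derivation_dual L b hb
  let Δ : (Fin r → L) →ₗ[L] Derivation ℚ L L :=
    { toFun := fun c => ∑ i, c i • δ i
      map_add' := fun c c' => by
        simp only [Pi.add_apply, add_smul, Finset.sum_add_distrib]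
      map_smul' := fun l c => by
        simp only [Pi.smul_apply, smul_eq_mul, RingHom.id_apply, Finset.smul_sum, mul_smul] }
  have hΔb : ∀ c j, Δ c (b j) = c j := by
    intro c j
    have : Δ c (b j) = ∑ i, c i • δ i (b j) := by
      change (∑ i, c i • δ i) (b j) = _
      have h0 : ((∑ i, c i • δ i : Derivation ℚ L L) : L → L) = ∑ i, ⇑(c i • δ i) :=
        map_sum (Derivation.coeFnAddMonoidHom (R := ℚ) (A := L) (M := L)) _ _
      rw [h0, Finset.sum_apply]
      rfl
    rw [this, Finset.sum_eq_single j]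
    · rw [hδ, if_pos rfl, smul_eq_mul, mul_one]
    · intro i _ hij
      rw [hδ, if_neg hij, smul_zero]
    · simp
  let x' : Algebra.adjoin L {x, y} := ⟨x, Algebra.subset_adjoin (Or.inl rfl)⟩
  let y' : Algebra.adjoin L {x, y} := ⟨y, Algebra.subset_adjoin (Or.inr rfl)⟩
  let u := Module.finBasis L (Algebra.adjoin L {x, y})
  let E := (Fin (finrank L (Algebra.adjoin L {x, y})) → Algebra.adjoin L {x, y})
  let f : (Fin r → L) →ₗ[L] (Fin N → L) × (E × E) :=
    { toFun := fun c => (fun i => Δ c (s i), (fun i => ext u (Δ c) (x' * u i),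
        fun i => ext u (Δ c) (y' * u i)))
      map_add' := fun c c' => by
        rw [map_add]
        refine Prod.ext ?_ (Prod.ext ?_ ?_)
        · rfl
        · funext i
          exact ext_der_add u _ _ _
        · funext i
          exact ext_der_add u _ _ _
      map_smul' := fun l c => by
        rw [map_smul]
        refine Prod.ext ?_ (Prod.ext ?_ ?_)
        · rfl
        · funext i
          exact ext_der_smul u _ _ _
        · funext i
          exact ext_der_smul u _ _ _ }
  let K := LinearMap.ker f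
  let Ψ : (Fin r → L) →ₗ[L] D × D :=
    { toFun := fun c => (ext X (Δ c) x, ext X (Δ c) y)
      map_add' := fun c c' => by
        rw [map_add]
        exact Prod.ext (ext_der_add X _ _ _) (ext_der_add X _ _ _)
      map_smul' := fun l c => by
        rw [map_smul]
        exact Prod.ext (ext_der_smul X _ _ _) (ext_der_smul X _ _ _) }
  let R : D →ₗ[L] D × D :=
    { toFun := fun z => (z * x - x * z, z * y - y * z)
      map_add' := fun z z' => by
        refine Prod.ext ?_ ?_ <;> simp only [add_mul, mul_add, Prod.fst_add, Prod.snd_add] <;> abel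
      map_smul' := fun l z => by
        refine Prod.ext ?_ ?_ <;> simp [smul_sub] }
  have hK : ∀ c ∈ K, (∀ i, Δ c (s i) = 0) ∧ (∀ i, ext u (Δ c) (x' * u i) = 0) ∧
      (∀ i, ext u (Δ c) (y' * u i) = 0) := by
    intro c hc
    have h : f c = 0 := hc
    refine ⟨fun i => congrFun (congrArg Prod.fst h) i,
      fun i => congrFun (congrArg (fun p => p.2.1) h) i,
      fun i => congrFun (congrArg (fun p => p.2.2) h) i⟩
  have hinj : Function.Injective (Ψ.domRestrict K) := by
    rw [injective_iff_map_eq_zero]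
    rintro ⟨c, hcK⟩ h
    have h2 : Ψ c = 0 := h
    have h3 : ext X (Δ c) x = 0 := congrArg Prod.fst h2
    have h4 : ext X (Δ c) y = 0 := congrArg Prod.snd h2
    have h5 : Δ c = 0 := hgen _ (hK c hcK).1 ((ext_eq_zero_iff X _ _).1 h3)
      ((ext_eq_zero_iff X _ _).1 h4)
    apply Subtype.ext
    funext j
    have := hΔb c j
    rw [h5] at this
    exact this.symm
  have hrange : LinearMap.range (Ψ.domRestrict K) ≤ LinearMap.range R := by
    rintro _ ⟨⟨c, hcK⟩, rfl⟩
    obtain ⟨z, hz1, hz2⟩ := ext_inner X τ hτ h1 (Δ c) (hc _ (hK c hcK).1) x y u x' y' rfl rfl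
      (hK c hcK).2.1 (hK c hcK).2.2
    exact ⟨z, Prod.ext hz1.symm hz2.symm⟩
  have d1 : finrank L K ≤ finrank L D := by
    rw [← LinearMap.finrank_range_of_inj hinj]
    exact (Submodule.finrank_mono hrange).trans (LinearMap.finrank_range_le R)
  have d2 := LinearMap.finrank_range_add_finrank_ker f
  have d3 : finrank L (LinearMap.range f) ≤
      N + 2 * (finrank L (Algebra.adjoin L {x, y})) ^ 2 := by
    refine (Submodule.finrank_le _).trans ?_
    rw [Module.finrank_prod, Module.finrank_prod, Module.finrank_fin_fun]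
    have e : finrank L E = (finrank L (Algebra.adjoin L {x, y})) ^ 2 := by
      rw [Module.finrank_pi_fintype]
      simp [sq]
    rw [e]
    omega
  rw [Module.finrank_fin_fun] at d2
  change finrank L (LinearMap.range f) + finrank L K = r at d2
  omega

end main

end P199H
end
end

section

section

/-!
# P199, blueprint H: Hankel descent of minimal polynomials
-/

open Polynomial

namespace Vale.Agent.P199.H

section hankel

variable {L D : Type*} [Field L] [DivisionRing D] [Algebra L D]

theorem exists_poly_of_mem {w : D} (hw : IsIntegral L w) {a : D}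
    (ha : a ∈ Algebra.adjoin L {w}) :
    ∃ c : Fin (minpoly L w).natDegree → L, a = ∑ i, c i • w ^ (i : ℕ) := by
  rw [Algebra.adjoin_singleton_eq_range_aeval] at ha
  obtain ⟨q, rfl⟩ := ha
  have hm := minpoly.monic hw
  have h1 : (minpoly L w) ≠ 1 := by
    intro h
    have h2 := minpoly.aeval L w
    rw [h, map_one] at h2
    exact one_ne_zero h2
  have h3 := natDegree_modByMonic_lt q hm h1
  refine ⟨fun i => (q %ₘ minpoly L w).coeff i, ?_⟩
  have h4 : aeval w (q %ₘ minpoly L w) = aeval w q :=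
    aeval_modByMonic_eq_self_of_root (minpoly.aeval L w)
  change aeval w q = _
  rw [← h4, aeval_eq_sum_range' h3, Finset.sum_range]

theorem eq_zero_of_sum_eq_zero {w : D}
    (v : Fin (minpoly L w).natDegree → L) (hv : ∑ i, v i • w ^ (i : ℕ) = 0) : v = 0 := by
  by_contra hne
  let q : L[X] := ∑ i, C (v i) * X ^ (i : ℕ)
  have hcoeff : ∀ j : Fin (minpoly L w).natDegree, q.coeff j = v j := by
    intro j
    simp only [q, finsetSum_coeff, coeff_C_mul, coeff_X_pow]
    rw [Finset.sum_eq_single j]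
    · simp
    · intro b _ hb
      have : (j : ℕ) ≠ b := fun h => hb (Fin.ext h.symm)
      simp [this]
    · intro h
      exact absurd (Finset.mem_univ _) h
  have hq : q ≠ 0 := by
    intro h
    apply hne
    funext j
    rw [← hcoeff j, h, coeff_zero, Pi.zero_apply]
  have hr : aeval w q = 0 := by
    simp only [q, map_sum, map_mul, aeval_C, map_pow, aeval_X]
    rw [← hv]
    apply Finset.sum_congr rfl
    intro i _
    rw [Algebra.smul_def]
  have h1 := minpoly.degree_le_of_ne_zero L w hq hr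
  have h2 : q.degree < (minpoly L w).natDegree := by
    rw [← mem_degreeLT]
    apply sum_mem
    intro i _
    rw [mem_degreeLT]
    refine (degree_C_mul_X_pow_le _ _).trans_lt ?_
    exact_mod_cast i.2
  have h3 : (minpoly L w).degree ≤ (minpoly L w).natDegree := degree_le_natDegree
  have hmp : minpoly L w ≠ 0 := by
    intro h
    apply hne
    funext i
    have h5 : (minpoly L w).natDegree = 0 := by rw [h, natDegree_zero]
    exact absurd (h5 ▸ i.2 : (i : ℕ) < 0) (Nat.not_lt_zero _)
  rw [degree_eq_natDegree hmp] at h1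
  exact absurd (h1.trans_lt h2) (lt_irrefl _)

/-- **Hankel descent.** If `τ (w ^ k)` lies in the subfield `F` for all `k` and `w` is algebraic
over `L`, then `w` is algebraic over `F`. -/
theorem isAlgebraic_of_trace (τ : D →ₗ[L] L) (h1 : τ 1 = 1) (F : Subfield L) {w : D}
    (hw : IsAlgebraic L w) (hτ : ∀ k : ℕ, τ (w ^ k) ∈ F) : IsAlgebraic F w := by
  have hwi : IsIntegral L w := hw.isIntegral
  set r := (minpoly L w).natDegree with hr
  let M : Matrix (Fin r) (Fin r) L := Matrix.of fun i j => τ (w ^ ((i : ℕ) + (j : ℕ)))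
  have hM : M.det ≠ 0 := by
    intro hdet
    obtain ⟨v, hv, hMv⟩ := Matrix.exists_mulVec_eq_zero_iff.2 hdet
    let u : D := ∑ j, v j • w ^ (j : ℕ)
    have hu0 : u ≠ 0 := fun h => hv (eq_zero_of_sum_eq_zero v h)
    have hτu : ∀ i : Fin r, τ (w ^ (i : ℕ) * u) = 0 := by
      intro i
      have h2 := congrFun hMv i
      rw [Matrix.mulVec, dotProduct] at h2
      simp only [u, Finset.mul_sum, map_sum, mul_smul_comm, map_smul, smul_eq_mul, ← pow_add]
      rw [Pi.zero_apply] at h2
      rw [← h2]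
      apply Finset.sum_congr rfl
      intro j _
      rw [mul_comm]
      rfl
    have humem : u ∈ Algebra.adjoin L {w} := by
      apply sum_mem
      intro j _
      exact Subalgebra.smul_mem _ (pow_mem (Algebra.self_mem_adjoin_singleton L w) _) _
    have hui : IsIntegral L u :=
      IsIntegral.of_mem_of_fg _ hwi.fg_adjoin_singleton u humem
    have huinv : u⁻¹ ∈ Algebra.adjoin L {w} :=
      (Algebra.adjoin_le (Set.singleton_subset_iff.2 humem)) hui.inv_mem_adjoin
    obtain ⟨c, hc⟩ := exists_poly_of_mem hwi huinv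
    have h3 : τ 1 = 0 := by
      rw [← inv_mul_cancel₀ hu0, hc, Finset.sum_mul, map_sum]
      apply Finset.sum_eq_zero
      intro i _
      rw [smul_mul_assoc, map_smul, hτu, smul_zero]
    rw [h1] at h3
    exact one_ne_zero h3
  -- the relation
  have hrel : ∑ j : Fin r, (minpoly L w).coeff j • w ^ (j : ℕ) + w ^ r = 0 := by
    have h2 := minpoly.aeval L w
    rw [aeval_eq_sum_range, Finset.sum_range_succ, Finset.sum_range] at h2
    rw [← hr] at h2
    have h3 : (minpoly L w).coeff r = 1 := (minpoly.monic hwi).coeff_natDegree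
    rwa [h3, one_smul] at h2
  let M' : Matrix (Fin r) (Fin r) F := Matrix.of fun i j => ⟨τ (w ^ ((i : ℕ) + (j : ℕ))), hτ _⟩
  let b' : Fin r → F := fun i => -⟨τ (w ^ ((i : ℕ) + r)), hτ _⟩
  have hMM' : M'.map (algebraMap F L) = M := rfl
  have hdet' : M'.det ≠ 0 := by
    intro h
    apply hM
    rw [← hMM']
    have h2 := RingHom.map_det (algebraMap F L) M'
    rw [h, map_zero] at h2
    exact h2.symm
  have hunit : IsUnit M'.det := isUnit_iff_ne_zero.2 hdet'
  let c' : Fin r → F := M'⁻¹.mulVec b'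
  have hc' : M'.mulVec c' = b' := by
    simp only [c', Matrix.mulVec_mulVec]
    rw [Matrix.mul_nonsing_inv _ hunit, Matrix.one_mulVec]
  have hcoef : ∀ j : Fin r, (minpoly L w).coeff j = (c' j : L) := by
    have h4 : M.mulVec (fun j : Fin r => (minpoly L w).coeff j - (c' j : L)) = 0 := by
      funext i
      have h5 := congrFun hc' i
      have h6 : ∑ j : Fin r, (τ (w ^ ((i : ℕ) + (j : ℕ)))) * (c' j : L) =
          -τ (w ^ ((i : ℕ) + r)) := by
        have h7 := congrArg (algebraMap F L) h5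
        rw [Matrix.mulVec, dotProduct, map_sum] at h7
        exact h7
      have h8 : ∑ j : Fin r, τ (w ^ ((i : ℕ) + (j : ℕ))) * (minpoly L w).coeff j =
          -τ (w ^ ((i : ℕ) + r)) := by
        have h9 := congrArg (fun z => τ (w ^ (i : ℕ) * z)) hrel
        simp only [mul_add, Finset.mul_sum, map_add, map_sum, mul_smul_comm, map_smul,
          smul_eq_mul, ← pow_add, mul_zero, map_zero] at h9
        rw [eq_neg_iff_add_eq_zero, ← h9]
        congr 1
        apply Finset.sum_congr rfl
        intro j _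
        rw [mul_comm]
      rw [Pi.zero_apply]
      change ∑ j : Fin r, M i j * ((minpoly L w).coeff j - (c' j : L)) = 0
      have h10 : ∑ j : Fin r, M i j * ((minpoly L w).coeff j - (c' j : L)) =
          ∑ j : Fin r, τ (w ^ ((i : ℕ) + (j : ℕ))) * (minpoly L w).coeff j -
            ∑ j : Fin r, (τ (w ^ ((i : ℕ) + (j : ℕ)))) * (c' j : L) := by
        rw [← Finset.sum_sub_distrib]
        apply Finset.sum_congr rfl
        intro j _
        rw [mul_sub]
        rfl
      rw [h10, h8, h6, sub_self]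
    have h5 := Matrix.eq_zero_of_mulVec_eq_zero hM h4
    intro j
    exact sub_eq_zero.1 (congrFun h5 j)
  let p : F[X] := X ^ r + ∑ j : Fin r, C (c' j) * X ^ (j : ℕ)
  have hp : (∑ j : Fin r, C (c' j) * X ^ (j : ℕ) : F[X]).degree < r := by
    rw [← mem_degreeLT]
    apply sum_mem
    intro i _
    rw [mem_degreeLT]
    refine (degree_C_mul_X_pow_le _ _).trans_lt ?_
    exact_mod_cast i.2
  refine ⟨p, (monic_X_pow_add hp).ne_zero, ?_⟩
  simp only [p, map_add, map_pow, aeval_X, map_sum, map_mul, aeval_C]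
  rw [add_comm, ← hrel]
  congr 1
  apply Finset.sum_congr rfl
  intro j _
  rw [hcoef j, ← Algebra.smul_def]
  rfl

end hankel

end Vale.Agent.P199.H
end
end

section

section

/-!
# P199, blueprint H: the limit argument (L10)
-/

set_option autoImplicit false

open Finset

namespace Vale.Agent.P199.H

/-! ### The core: from all trace polynomials algebraic to a counterexample -/

section core

variable {L D : Type} [Field L] [DivisionRing D] [Algebra L D] [Algebra ℚ D]
  (τ : D →ₗ[L] L) (x y : D)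

/-- the trace as a map `D → D` -/
def trD (τ : D →ₗ[L] L) : D → D := fun a => algebraMap L D (τ a)

/-- the scalars which are values of trace polynomials -/
noncomputable def R0 : Subring L := (TExp.values (trD τ) x y).comap (algebraMap L D)

/-- the field generated by the traces -/
noncomputable def F0 : Subfield L := Subfield.closure (R0 τ x y : Set L)

theorem mem_F0 {c : L} : c ∈ F0 τ x y ↔ ∃ a ∈ R0 τ x y, ∃ b ∈ R0 τ x y, a / b = c := by
  unfold F0
  rw [Subfield.mem_closure_iff, Subring.closure_eq]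

theorem R0_le_F0 {c : L} (hc : c ∈ R0 τ x y) : c ∈ F0 τ x y :=
  (mem_F0 τ x y).2 ⟨c, hc, 1, one_mem _, by simp⟩

theorem smul_mem_values {c : L} (hc : c ∈ R0 τ x y) {v : D}
    (hv : v ∈ TExp.values (trD τ) x y) : c • v ∈ TExp.values (trD τ) x y := by
  rw [Algebra.smul_def]
  exact mul_mem hc hv

/-- the algebra over `F0` generated by `x` and `y` -/
noncomputable def A0 : Subalgebra (F0 τ x y) D := Algebra.adjoin (F0 τ x y) {x, y}

theorem exists_smul_mem {w : D} (hw : w ∈ A0 τ x y) :
    ∃ s ∈ R0 τ x y, s ≠ 0 ∧ s • w ∈ TExp.values (trD τ) x y := by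
  unfold A0 at hw
  induction hw using Algebra.adjoin_induction with
  | mem w hw =>
    refine ⟨1, one_mem _, one_ne_zero, ?_⟩
    rw [one_smul]
    rcases hw with rfl | hw
    · exact TExp.x_mem_values _ _ _
    · rw [Set.mem_singleton_iff] at hw
      subst hw
      exact TExp.y_mem_values _ _ _
  | algebraMap r =>
    obtain ⟨a, ha, b, hb, hab⟩ := (mem_F0 τ x y).1 r.2
    by_cases h0 : b = 0
    · refine ⟨1, one_mem _, one_ne_zero, ?_⟩
      rw [h0, div_zero] at hab
      have : r = 0 := Subtype.ext hab.symm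
      rw [this, map_zero, smul_zero]
      exact zero_mem _
    · refine ⟨b, hb, h0, ?_⟩
      have h1 : b • algebraMap (F0 τ x y) D r = algebraMap L D a := by
        have h2 : algebraMap (F0 τ x y) D r = algebraMap L D (r : L) := rfl
        rw [h2, Algebra.smul_def, ← map_mul, ← hab, mul_div_cancel₀ _ h0]
      rw [h1]
      exact ha
  | add a b _ _ ha hb =>
    obtain ⟨s, hs, hs0, hs1⟩ := ha
    obtain ⟨t, ht, ht0, ht1⟩ := hb
    refine ⟨s * t, mul_mem hs ht, mul_ne_zero hs0 ht0, ?_⟩
    rw [smul_add]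
    refine add_mem ?_ ?_
    · rw [mul_comm, mul_smul]
      exact smul_mem_values τ x y ht hs1
    · rw [mul_smul]
      exact smul_mem_values τ x y hs ht1
  | mul a b _ _ ha hb =>
    obtain ⟨s, hs, hs0, hs1⟩ := ha
    obtain ⟨t, ht, ht0, ht1⟩ := hb
    refine ⟨s * t, mul_mem hs ht, mul_ne_zero hs0 ht0, ?_⟩
    have : (s * t) • (a * b) = (s • a) * (t • b) := by
      rw [smul_mul_smul_comm]
    rw [this]
    exact mul_mem hs1 ht1

theorem tau_mem {w : D} (hw : w ∈ A0 τ x y) : τ w ∈ F0 τ x y := by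
  obtain ⟨s, hs, hs0, hs1⟩ := exists_smul_mem τ x y hw
  have h1 : s * τ w ∈ R0 τ x y := by
    have := TExp.tr_mem_values (trD τ) x y hs1
    unfold trD at this
    rw [map_smul, smul_eq_mul] at this
    exact this
  have h2 := (F0 τ x y).div_mem (R0_le_F0 τ x y h1) (R0_le_F0 τ x y hs)
  rwa [mul_div_cancel_left₀ _ hs0] at h2

variable {τ x y}

theorem isAlgebraic_A0 (hτ : τ 1 = 1)
    (halg : ∀ Φ : TExp, IsAlgebraic L (TExp.eval (trD τ) x y Φ)) {w : D}
    (hw : w ∈ A0 τ x y) : IsAlgebraic (F0 τ x y) w := by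
  refine isAlgebraic_of_trace τ hτ (F0 τ x y) ?_ fun k => tau_mem τ x y (pow_mem hw k)
  obtain ⟨s, hs, hs0, Φ, hΦ⟩ := exists_smul_mem τ x y hw
  have h1 : w = s⁻¹ • TExp.eval (trD τ) x y Φ := by
    rw [hΦ, smul_smul, inv_mul_cancel₀ hs0, one_smul]
  rw [h1]
  exact ((halg Φ).isIntegral.smul s⁻¹).isAlgebraic

theorem countable_values : Countable (TExp.values (trD τ) x y) := by
  have h : ((TExp.values (trD τ) x y : Subring D) : Set D) =
      Set.range (TExp.eval (trD τ) x y) := rfl
  have h1 : (Set.range (TExp.eval (trD τ) x y)).Countable := Set.countable_range _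
  rw [← h] at h1
  exact h1.to_subtype

theorem countable_F0 : Countable (F0 τ x y) := by
  have h1 := countable_values (τ := τ) (x := x) (y := y)
  have h2 : Countable (R0 τ x y) := by
    let f : R0 τ x y → TExp.values (trD τ) x y := fun a => ⟨algebraMap L D a, a.2⟩
    have hf : Function.Injective f := by
      intro a b hab
      exact Subtype.ext ((algebraMap L D).injective (congrArg Subtype.val hab))
    exact hf.countable
  let g : R0 τ x y × R0 τ x y → F0 τ x y := fun ab =>
    ⟨(ab.1 : L) / (ab.2 : L), (F0 τ x y).div_mem (R0_le_F0 τ x y ab.1.2) (R0_le_F0 τ x y ab.2.2)⟩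
  have hg : Function.Surjective g := by
    intro c
    obtain ⟨a, ha, b, hb, hab⟩ := (mem_F0 τ x y).1 c.2
    exact ⟨(⟨a, ha⟩, ⟨b, hb⟩), Subtype.ext hab⟩
  exact hg.countable

/-- the core of the limit argument -/
theorem core (hτ : τ 1 = 1)
    (halg : ∀ Φ : TExp, IsAlgebraic L (TExp.eval (trD τ) x y Φ))
    (hinf : ¬ Module.Finite L (Algebra.adjoin L ({x, y} : Set D))) :
    ∃ (F A : Type) (_ : Field F) (_ : CharZero F) (_ : Countable F) (_ : DivisionRing A)
      (_ : Algebra F A) (x y : A),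
      (∀ a : A, IsAlgebraic F a) ∧ Algebra.adjoin F ({x, y} : Set A) = ⊤ ∧
        ¬ Module.Finite F A := by
  classical
  have hal : ∀ a : A0 τ x y, IsAlgebraic (F0 τ x y) a := fun a =>
    (isAlgebraic_algHom_iff (A0 τ x y).val Subtype.val_injective).1
      (isAlgebraic_A0 hτ halg a.2)
  have hunit : ∀ a : A0 τ x y, IsUnit a ∨ a = 0 := by
    intro a
    by_cases h0 : a = 0
    · exact Or.inr h0
    · left
      have hne : (a : D) ≠ 0 := fun h => h0 (Subtype.ext h)
      have hint : IsIntegral (F0 τ x y) (a : D) := (isAlgebraic_A0 hτ halg a.2).isIntegral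
      have hinv : (a : D)⁻¹ ∈ A0 τ x y :=
        (Algebra.adjoin_le (Set.singleton_subset_iff.2 a.2)) hint.inv_mem_adjoin
      exact ⟨⟨a, ⟨_, hinv⟩, Subtype.ext (mul_inv_cancel₀ hne),
        Subtype.ext (inv_mul_cancel₀ hne)⟩, rfl⟩
  let inst : DivisionRing (A0 τ x y) := DivisionRing.ofIsUnitOrEqZero hunit
  have hD : CharZero D := algebraRat.charZero D
  have hL : CharZero L := ⟨fun m n h => by
    have h1 := congrArg (algebraMap L D) h
    rw [map_natCast, map_natCast] at h1
    exact_mod_cast h1⟩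
  have hF : CharZero (F0 τ x y) := ⟨fun m n h => by
    have h1 := congrArg (algebraMap (F0 τ x y) L) h
    rw [map_natCast, map_natCast] at h1
    exact_mod_cast h1⟩
  have hx : x ∈ A0 τ x y := Algebra.subset_adjoin (by simp)
  have hy : y ∈ A0 τ x y := Algebra.subset_adjoin (by simp)
  refine ⟨F0 τ x y, A0 τ x y, inferInstance, hF, countable_F0, inst, inferInstance,
    ⟨x, hx⟩, ⟨y, hy⟩, hal, ?_, ?_⟩
  · have h1 : (({⟨x, hx⟩, ⟨y, hy⟩} : Set (A0 τ x y))) =
        ((↑) : A0 τ x y → D) ⁻¹' {x, y} := by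
      ext a
      simp [Subtype.ext_iff]
    rw [h1]
    exact Algebra.adjoin_adjoin_coe_preimage
  · intro hfin
    apply hinf
    have hfg : (Subalgebra.toSubmodule (A0 τ x y)).FG := Module.Finite.iff_fg.1 hfin
    obtain ⟨G, hG⟩ := hfg
    have h1 : Subalgebra.toSubmodule (Algebra.adjoin L ({x, y} : Set D)) ≤
        Submodule.span L (G : Set D) := by
      rw [Algebra.adjoin_eq_span, Submodule.span_le]
      intro w hw
      have hw' : w ∈ A0 τ x y := by
        have h2 : (Submonoid.closure ({x, y} : Set D)) ≤ (A0 τ x y).toSubmonoid :=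
          Submonoid.closure_le.2 Algebra.subset_adjoin
        exact h2 hw
      have h3 : w ∈ Submodule.span (F0 τ x y) (G : Set D) := by
        rw [hG]
        exact hw'
      exact Submodule.span_le_restrictScalars (F0 τ x y) L _ h3
    have h2 : Module.Finite L (Submodule.span L (G : Set D)) :=
      FiniteDimensional.span_finset L G
    exact Submodule.finiteDimensional_of_le h1

end core

/-! ### Words -/

section words

/-- value of a word in two letters -/
def wd {D : Type*} [Monoid D] (x y : D) (u : List Bool) : D :=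
  (u.map (fun b => if b then x else y)).prod

theorem wd_nil {D : Type*} [Monoid D] (x y : D) : wd x y [] = 1 := by simp [wd]

theorem wd_cons {D : Type*} [Monoid D] (x y : D) (b : Bool) (u : List Bool) :
    wd x y (b :: u) = (if b then x else y) * wd x y u := by simp [wd]

theorem wd_append {D : Type*} [Monoid D] (x y : D) (u v : List Bool) :
    wd x y (u ++ v) = wd x y u * wd x y v := by simp [wd]

theorem exists_wd {D : Type*} [Monoid D] (x y : D) {w : D}
    (hw : w ∈ Submonoid.closure ({x, y} : Set D)) : ∃ u, wd x y u = w := by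
  induction hw using Submonoid.closure_induction with
  | mem w hw =>
    rcases hw with rfl | hw
    · exact ⟨[true], by simp [wd]⟩
    · rw [Set.mem_singleton_iff] at hw
      subst hw
      exact ⟨[false], by simp [wd]⟩
  | one => exact ⟨[], wd_nil x y⟩
  | mul a b _ _ ha hb =>
    obtain ⟨u, rfl⟩ := ha
    obtain ⟨v, rfl⟩ := hb
    exact ⟨u ++ v, wd_append x y u v⟩

theorem wd_mem {D : Type*} [Monoid D] (x y : D) (u : List Bool) :
    wd x y u ∈ Submonoid.closure ({x, y} : Set D) := by
  induction u with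
  | nil => rw [wd_nil]; exact one_mem _
  | cons b u ih =>
    rw [wd_cons]
    refine mul_mem (Submonoid.subset_closure ?_) ih
    cases b <;> simp

theorem finrank_le_of_words {L D : Type*} [Field L] [Ring D] [Algebra L D] (x y : D)
    (T : Finset (List Bool))
    (h : ∀ u : List Bool, (u = [] ∨ ∃ b, ∃ t ∈ T, u = b :: t) →
      wd x y u ∈ Submodule.span L (wd x y '' (T : Set (List Bool)))) :
    Module.finrank L (Algebra.adjoin L ({x, y} : Set D)) ≤ T.card := by
  classical
  have hmul : ∀ b : Bool, ∀ w ∈ Submodule.span L (wd x y '' (T : Set (List Bool))),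
      (if b then x else y) * w ∈ Submodule.span L (wd x y '' (T : Set (List Bool))) := by
    intro b w hw
    induction hw using Submodule.span_induction with
    | mem w hw =>
      obtain ⟨t, ht, rfl⟩ := hw
      rw [← wd_cons]
      exact h _ (Or.inr ⟨b, t, ht, rfl⟩)
    | zero => rw [mul_zero]; exact zero_mem _
    | add a b _ _ ha hb => rw [mul_add]; exact add_mem ha hb
    | smul c a _ ha => rw [mul_smul_comm]; exact Submodule.smul_mem _ _ ha
  have hall : ∀ u, wd x y u ∈ Submodule.span L (wd x y '' (T : Set (List Bool))) := by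
    intro u
    induction u with
    | nil => exact h _ (Or.inl rfl)
    | cons b u ih =>
      rw [wd_cons]
      exact hmul b _ ih
  have h1 : Subalgebra.toSubmodule (Algebra.adjoin L ({x, y} : Set D)) ≤
      Submodule.span L (wd x y '' (T : Set (List Bool))) := by
    rw [Algebra.adjoin_eq_span, Submodule.span_le]
    intro w hw
    obtain ⟨u, rfl⟩ := exists_wd x y hw
    exact hall u
  have h2 : (wd x y '' (T : Set (List Bool))) = ((T.image (wd x y) : Finset D) : Set D) := by
    rw [Finset.coe_image]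
  rw [h2] at h1
  have h3 : Module.Finite L (Submodule.span L ((T.image (wd x y) : Finset D) : Set D)) :=
    FiniteDimensional.span_finset L _
  have h4 := Submodule.finrank_mono h1
  have h5 := finrank_span_finset_le_card (R := L) (T.image (wd x y))
  exact h4.trans (h5.trans Finset.card_image_le)

end words

/-! ### The ultraproduct -/

section ultra

/-- an ultrafilter on `ℕ` finer than the cofinite filter -/
noncomputable abbrev UU : Filter ℕ := (Filter.hyperfilter ℕ : Filter ℕ)

/-- equality almost everywhere -/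
def con (R : ℕ → Type) [∀ n, Ring (R n)] : RingCon (∀ n, R n) where
  r s t := ∀ᶠ n in UU, s n = t n
  iseqv := ⟨fun _ => Filter.Eventually.of_forall fun _ => rfl,
    fun h => h.mono fun _ h => h.symm,
    fun h h' => (h.and h').mono fun _ h => h.1.trans h.2⟩
  mul' h h' := (h.and h').mono fun _ h => by simp [h.1, h.2]
  add' h h' := (h.and h').mono fun _ h => by simp [h.1, h.2]

/-- the ultraproduct -/
abbrev UP (R : ℕ → Type) [∀ n, Ring (R n)] : Type := (con R).Quotient

/-- the projection to the ultraproduct -/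
def pr (R : ℕ → Type) [∀ n, Ring (R n)] : (∀ n, R n) →+* UP R := (con R).mk'

theorem pr_surjective (R : ℕ → Type) [∀ n, Ring (R n)] : Function.Surjective (pr R) :=
  (con R).mk'_surjective

theorem pr_eq_iff {R : ℕ → Type} [∀ n, Ring (R n)] {a b : ∀ n, R n} :
    pr R a = pr R b ↔ ∀ᶠ n in UU, a n = b n := by
  change ((a : (con R).Quotient) = b) ↔ _
  rw [RingCon.eq]
  rfl

theorem pr_eq_zero {R : ℕ → Type} [∀ n, Ring (R n)] {a : ∀ n, R n} :
    pr R a = 0 ↔ ∀ᶠ n in UU, a n = 0 := by
  rw [← map_zero (pr R), pr_eq_iff]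
  rfl

theorem isUnit_or_zero (R : ℕ → Type) [∀ n, DivisionRing (R n)] (a : UP R) :
    IsUnit a ∨ a = 0 := by
  obtain ⟨f, rfl⟩ := pr_surjective R a
  by_cases h : ∀ᶠ n in UU, f n = 0
  · exact Or.inr (pr_eq_zero.2 h)
  · left
    have h' : ∀ᶠ n in UU, ¬ f n = 0 := Ultrafilter.eventually_not.2 h
    have h1 : pr R f * pr R (fun n => (f n)⁻¹) = 1 := by
      rw [← map_mul, ← map_one (pr R), pr_eq_iff]
      exact h'.mono fun n hn => mul_inv_cancel₀ hn
    have h2 : pr R (fun n => (f n)⁻¹) * pr R f = 1 := by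
      rw [← map_mul, ← map_one (pr R), pr_eq_iff]
      exact h'.mono fun n hn => inv_mul_cancel₀ hn
    exact ⟨⟨_, _, h1, h2⟩, rfl⟩

instance nontrivial_UP (R : ℕ → Type) [∀ n, DivisionRing (R n)] : Nontrivial (UP R) :=
  ⟨⟨1, 0, fun h => by
    rw [← map_one (pr R), pr_eq_zero] at h
    obtain ⟨n, hn⟩ := h.exists
    exact one_ne_zero hn⟩⟩

noncomputable instance divUP (R : ℕ → Type) [∀ n, DivisionRing (R n)] :
    DivisionRing (UP R) := DivisionRing.ofIsUnitOrEqZero (isUnit_or_zero R)

noncomputable instance fieldUP (R : ℕ → Type) [∀ n, Field (R n)] : Field (UP R) :=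
  Field.ofIsUnitOrEqZero (isUnit_or_zero R)

variable (L D : ℕ → Type) [∀ n, Field (L n)] [∀ n, DivisionRing (D n)]
  [∀ n, Algebra (L n) (D n)]

/-- the structure map of the ultraproduct -/
def strMap : UP L →+* UP D :=
  (con L).lift ((pr D).comp
    { toFun := fun s n => algebraMap (L n) (D n) (s n)
      map_one' := by funext n; simp
      map_mul' := fun a b => by funext n; simp
      map_zero' := by funext n; simp
      map_add' := fun a b => by funext n; simp }) (by
    intro a b h
    change pr D _ = pr D _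
    rw [pr_eq_iff]
    exact Filter.Eventually.mono h fun n hn => by
      change algebraMap (L n) (D n) (a n) = algebraMap (L n) (D n) (b n)
      rw [hn])

theorem strMap_pr (s : ∀ n, L n) :
    strMap L D (pr L s) = pr D (fun n => algebraMap (L n) (D n) (s n)) := rfl

noncomputable instance algUP : Algebra (UP L) (UP D) :=
  (strMap L D).toAlgebra' (by
    intro c a
    obtain ⟨c, rfl⟩ := pr_surjective L c
    obtain ⟨a, rfl⟩ := pr_surjective D a
    rw [strMap_pr, ← map_mul, ← map_mul]
    congr 1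
    funext n
    exact Algebra.commutes _ _)

theorem algebraMap_pr (s : ∀ n, L n) :
    algebraMap (UP L) (UP D) (pr L s) = pr D (fun n => algebraMap (L n) (D n) (s n)) := rfl

theorem smul_pr (s : ∀ n, L n) (a : ∀ n, D n) :
    pr L s • pr D a = pr D (fun n => s n • a n) := by
  rw [Algebra.smul_def, algebraMap_pr, ← map_mul]
  congr 1
  funext n
  exact (Algebra.smul_def _ _).symm

variable {L D}
variable (τ : ∀ n, D n →ₗ[L n] L n)

/-- the trace on the ultraproduct -/
noncomputable def tauUP : UP D →ₗ[UP L] UP L where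
  toFun a := Quotient.liftOn' a (fun s => pr L (fun n => τ n (s n))) (by
    intro a b h
    rw [pr_eq_iff]
    exact Filter.Eventually.mono h fun n hn => by rw [hn])
  map_add' a b := by
    obtain ⟨a, rfl⟩ := pr_surjective D a
    obtain ⟨b, rfl⟩ := pr_surjective D b
    rw [← map_add]
    change pr L (fun n => τ n ((a + b) n)) = pr L (fun n => τ n (a n)) + pr L (fun n => τ n (b n))
    rw [← map_add]
    congr 1
    funext n
    exact map_add (τ n) _ _
  map_smul' c a := by
    obtain ⟨c, rfl⟩ := pr_surjective L c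
    obtain ⟨a, rfl⟩ := pr_surjective D a
    rw [smul_pr, RingHom.id_apply, smul_eq_mul]
    change pr L (fun n => τ n (c n • a n)) = pr L c * pr L (fun n => τ n (a n))
    rw [← map_mul]
    congr 1
    funext n
    exact map_smul (τ n) _ _

theorem tauUP_pr (s : ∀ n, D n) : tauUP τ (pr D s) = pr L (fun n => τ n (s n)) := rfl

theorem eval_pr [∀ n, Algebra ℚ (D n)] (x y : ∀ n, D n) (Φ : TExp) :
    TExp.eval (trD (tauUP τ)) (pr D x) (pr D y) Φ =
      pr D (fun n => TExp.eval (trD (τ n)) (x n) (y n) Φ) := by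
  rw [← TExp.map_eval (fun s n => trD (τ n) (s n)) x y (trD (tauUP τ)) (pr D) (fun a => rfl) Φ]
  congr 1
  funext n
  exact TExp.map_eval (fun s n => trD (τ n) (s n)) x y (trD (τ n))
    (Pi.evalRingHom D n) (fun a => rfl) Φ

theorem wd_pr (x y : ∀ n, D n) (u : List Bool) :
    wd (pr D x) (pr D y) u = pr D (fun n => wd (x n) (y n) u) := by
  induction u with
  | nil =>
    rw [wd_nil, ← map_one (pr D)]
    congr 1
  | cons b u ih =>
    rw [wd_cons, ih]
    have : (if b then pr D x else pr D y) = pr D (if b then x else y) := by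
      cases b <;> rfl
    rw [this, ← map_mul]
    congr 1
    funext n
    rw [wd_cons]
    cases b <;> rfl

theorem sum_pr {ι : Type*} (s : Finset ι) (c : ι → ∀ n, L n) (a : ι → ∀ n, D n) :
    ∑ i ∈ s, pr L (c i) • pr D (a i) = pr D (fun n => ∑ i ∈ s, c i n • a i n) := by
  simp only [smul_pr]
  rw [← map_sum]
  congr 1
  funext n
  simp

theorem isAlgebraic_pr (w : ∀ n, D n) (d N : ℕ)
    (h : ∀ n ≥ N, ∃ c : Fin (d + 1) → L n, c ≠ 0 ∧ ∑ i, c i • w n ^ (i : ℕ) = 0) :
    IsAlgebraic (UP L) (pr D w) := by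
  classical
  choose! c hc0 hc using h
  have hev : ∀ᶠ n in UU, N ≤ n :=
    (Filter.eventually_ge_atTop N).filter_mono Nat.hyperfilter_le_atTop
  let C : Fin (d + 1) → UP L := fun i => pr L (fun n => c n i)
  have hsum : ∑ i, C i • pr D w ^ (i : ℕ) = 0 := by
    have h1 : ∀ i : Fin (d + 1), pr D w ^ (i : ℕ) = pr D (fun n => w n ^ (i : ℕ)) := by
      intro i
      rw [← map_pow]
      rfl
    simp only [C, h1]
    rw [sum_pr, pr_eq_zero]
    exact hev.mono fun n hn => hc n hn
  have hne : ∃ i, C i ≠ 0 := by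
    by_contra hcon
    push Not at hcon
    have h1 : ∀ᶠ n in UU, ∀ i, c n i = 0 := by
      rw [Filter.eventually_all]
      intro i
      exact pr_eq_zero.1 (hcon i)
    obtain ⟨n, hn, hn'⟩ := (h1.and hev).exists
    exact hc0 n hn' (funext hn)
  obtain ⟨i, hi⟩ := hne
  refine ⟨∑ j : Fin (d + 1), Polynomial.C (C j) * Polynomial.X ^ (j : ℕ), ?_, ?_⟩
  · intro h0
    apply hi
    have h1 := congrArg (fun p => Polynomial.coeff p (i : ℕ)) h0
    simp only [Polynomial.finsetSum_coeff, Polynomial.coeff_C_mul, Polynomial.coeff_X_pow,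
      Polynomial.coeff_zero] at h1
    rw [Finset.sum_eq_single i] at h1
    · simpa using h1
    · intro j _ hj
      have : (i : ℕ) ≠ j := fun h => hj (Fin.ext h.symm)
      simp [this]
    · intro h
      exact absurd (Finset.mem_univ _) h
  · rw [← hsum]
    simp only [map_sum, map_mul, Polynomial.aeval_C, map_pow, Polynomial.aeval_X]
    exact Finset.sum_congr rfl fun j _ => (Algebra.smul_def _ _).symm

theorem not_finite_pr (x y : ∀ n, D n)
    (h : ∀ n, n ≤ Module.finrank (L n) (Algebra.adjoin (L n) ({x n, y n} : Set (D n)))) :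
    ¬ Module.Finite (UP L) (Algebra.adjoin (UP L) ({pr D x, pr D y} : Set (UP D))) := by
  classical
  intro hfin
  have hfg : (Subalgebra.toSubmodule
      (Algebra.adjoin (UP L) ({pr D x, pr D y} : Set (UP D)))).FG := Module.Finite.iff_fg.1 hfin
  rw [Algebra.adjoin_eq_span, Submodule.fg_span_iff_fg_span_finset_subset] at hfg
  obtain ⟨S, hS, hspan⟩ := hfg
  choose! g hg using fun w (hw : w ∈ S) => exists_wd (pr D x) (pr D y) (hS hw)
  let T : Finset (List Bool) := S.image g
  have hT : (S : Set (UP D)) ⊆ wd (pr D x) (pr D y) '' (T : Set (List Bool)) := by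
    intro w hw
    exact ⟨g w, Finset.mem_coe.2 (Finset.mem_image_of_mem g hw), hg w hw⟩
  have hall : ∀ u, wd (pr D x) (pr D y) u ∈
      Submodule.span (UP L) (wd (pr D x) (pr D y) '' (T : Set (List Bool))) := by
    intro u
    apply Submodule.span_mono hT
    rw [← hspan]
    exact Submodule.subset_span (wd_mem _ _ u)
  have hcoef : ∀ u, ∃ c : List Bool → ∀ n, L n,
      ∀ᶠ n in UU, ∑ t ∈ T, c t n • wd (x n) (y n) t = wd (x n) (y n) u := by
    intro u
    obtain ⟨c, hc⟩ := (Submodule.mem_span_image_finset_iff_exists_fun' (UP L)).1 (hall u)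
    choose c' hc' using fun t => pr_surjective L (c t)
    refine ⟨c', ?_⟩
    rw [wd_pr] at hc
    have h1 : ∑ t ∈ T, c t • wd (pr D x) (pr D y) t =
        ∑ t ∈ T, pr L (c' t) • pr D (fun n => wd (x n) (y n) t) := by
      refine Finset.sum_congr rfl fun t _ => ?_
      rw [hc' t, wd_pr]
    rw [h1, sum_pr, pr_eq_iff] at hc
    exact hc
  choose c hc using hcoef
  let V : Finset (List Bool) :=
    insert [] ((Finset.univ ×ˢ T).image (fun bt : Bool × List Bool => bt.1 :: bt.2))
  have hev : ∀ᶠ n in UU, T.card + 1 ≤ n :=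
    (Filter.eventually_ge_atTop _).filter_mono Nat.hyperfilter_le_atTop
  have hV : ∀ᶠ n in UU, ∀ u ∈ V, ∑ t ∈ T, c u t n • wd (x n) (y n) t = wd (x n) (y n) u := by
    rw [Filter.eventually_all_finset]
    intro u _
    exact hc u
  obtain ⟨n, hn, hn'⟩ := (hV.and hev).exists
  have h1 := finrank_le_of_words (L := L n) (x n) (y n) T (by
    intro u hu
    have huV : u ∈ V := by
      rcases hu with rfl | ⟨b, t, ht, rfl⟩
      · exact Finset.mem_insert_self _ _
      · refine Finset.mem_insert_of_mem (Finset.mem_image.2 ⟨(b, t), ?_, rfl⟩)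
        simp [ht]
    exact (Submodule.mem_span_image_finset_iff_exists_fun' (L n)).2 ⟨fun t => c u t n, hn u huV⟩)
  have h2 := h n
  omega

end ultra

/-- **L10.** From finite levels to a counterexample over a central subfield (Kurosh's original
formulation): a division algebra over a countable field of characteristic zero, algebraic over
it, generated by two elements, and infinite-dimensional. -/
theorem kurosh_of_levels (d : ℕ → ℕ)
    (H : ∀ (Φ : ℕ → TExp) (n : ℕ), ∃ (L D : Type) (_ : Field L) (_ : DivisionRing D)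
      (_ : Algebra L D) (_ : Algebra ℚ D) (τ : D →ₗ[L] L) (x y : D), τ 1 = 1 ∧
      (∀ j ≤ n, ∃ c : Fin (d j + 1) → L, c ≠ 0 ∧
        ∑ i, c i • (TExp.eval (trD τ) x y (Φ j)) ^ (i : ℕ) = 0) ∧
      n ≤ Module.finrank L (Algebra.adjoin L ({x, y} : Set D))) :
    ∃ (F A : Type) (_ : Field F) (_ : CharZero F) (_ : Countable F) (_ : DivisionRing A)
      (_ : Algebra F A) (x y : A),
      (∀ a : A, IsAlgebraic F a) ∧ Algebra.adjoin F ({x, y} : Set A) = ⊤ ∧
        ¬ Module.Finite F A := by
  obtain ⟨Φ, hΦ⟩ := exists_surjective_nat TExp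
  choose L D iL iD iA iQ τ x y hτ hj hn using H Φ
  refine core (L := UP L) (D := UP D) (τ := tauUP τ) (x := pr D x) (y := pr D y) ?_ ?_ ?_
  · rw [← map_one (pr D), tauUP_pr, ← map_one (pr L)]
    congr 1
    funext n
    exact hτ n
  · intro Ψ
    obtain ⟨j, rfl⟩ := hΦ Ψ
    rw [eval_pr]
    exact isAlgebraic_pr _ (d j) j fun n hn => hj n j hn
  · exact not_finite_pr x y hn

end Vale.Agent.P199.H
end
end

section

section

/-!
# P199, blueprint H: the assembly

From L5, L8, L9 and L10: `kurosh_main`.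
-/

set_option linter.all false

namespace P199H

open MvPolynomial Module
open Vale.Agent.P199.H (TExp trD)

section L9Tw

variable {K : ℕ} {L : Type} [Field L] [CharZero L] {s : Ix K → L}

theorem der_coc (δ : Derivation ℚ L L) (hδ : ∀ i, δ (s i) = 0) (g h : Gam K) :
    δ (coc s g h) = 0 := by
  refine der_adjoin δ (Set.range s) (by rintro _ ⟨i, rfl⟩; exact hδ i) _ ?_
  unfold coc sgn0 sqq
  refine mul_mem (prod_mem fun i _ => ?_) (prod_mem fun i _ => ?_)
  · unfold sgp
    split_ifs
    · exact neg_mem (one_mem _)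
    · exact one_mem _
  · unfold sqp
    split_ifs
    · exact Algebra.subset_adjoin ⟨i, rfl⟩
    · exact one_mem _

theorem ext_basis_mul (δ : Derivation ℚ L L) (hδ : ∀ i, δ (s i) = 0) (g h : Gam K) :
    ext (Tw.basis : Module.Basis (Gam K) L (Tw K L s)) δ (Tw.basis g * Tw.basis h) = 0 := by
  have h1 : ext (Tw.basis : Module.Basis (Gam K) L (Tw K L s)) δ (Tw.X (g + h)) = 0 := by
    rw [ext_eq_zero_iff]
    intro a
    rw [Tw.basis_repr, Tw.X_apply]
    split_ifs
    · exact δ.map_one_eq_zero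
    · exact map_zero δ
  rw [Tw.basis_apply, Tw.basis_apply, Tw.X_mul_X, ext_smul, der_coc δ hδ, zero_smul, zero_add, h1,
    smul_zero]

end L9Tw

/-- The bound on the dimension of the algebra generated by `x` and `y`. -/
theorem dim_bound {K : ℕ} (P : Ideal (MvPolynomial (J0 K) ℚ)) [hP : P.IsPrime]
    (hs : ∀ i, s0 i ∉ P) (L : Type) [Field L] [CharZero L]
    [Algebra (MvPolynomial (J0 K) ℚ ⧸ P) L] [IsFractionRing (MvPolynomial (J0 K) ℚ ⧸ P) L]
    (φ : MvPolynomial (J0 K) ℚ →+* L)
    (hφ : ∀ p, φ p = algebraMap (MvPolynomial (J0 K) ℚ ⧸ P) L (Ideal.Quotient.mk P p))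
    [NoZeroDivisors (Tw K L (fun i => φ (s0 i)))] :
    td P ≤ (K + K) + 2 ^ (2 * K) + 2 * (finrank L (Algebra.adjoin L
      ({(φ sigma0)⁻¹ • Tw.map φ (fun _ => rfl) xgen, (φ sigma0)⁻¹ • Tw.map φ (fun _ => rfl) ygen} :
        Set (Tw K L (fun i => φ (s0 i)))))) ^ 2 := by
  classical
  haveI : IsDomain (Tw K L (fun i => φ (s0 i))) := NoZeroDivisors.to_isDomain _
  obtain ⟨b, hb⟩ := exists_algInd_fraction P L
  have hinj : Function.Injective (algebraMap (MvPolynomial (J0 K) ℚ ⧸ P) L) :=
    IsFractionRing.injective _ _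
  have hφ0 : ∀ p, φ p = 0 ↔ p ∈ P := by
    intro p
    rw [hφ, map_eq_zero_iff _ hinj, Ideal.Quotient.eq_zero_iff_mem]
  have hsig : φ sigma0 = ∏ i : Ix K, φ (s0 i) := by
    unfold sigma0
    rw [map_prod]
  have hsig0 : φ sigma0 ≠ 0 := by
    rw [hsig, Finset.prod_ne_zero_iff]
    intro i _ h
    exact hs i ((hφ0 _).1 h)
  have h1 := trdeg_bound (L := L) (D := Tw K L (fun i => φ (s0 i))) (G := Gam K) Tw.basis
    (N := K + K) (fun i => φ (s0 (finSumFinEquiv.symm i)))
    (by
      intro δ hδ g h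
      exact ext_basis_mul δ (fun i => by
        have := hδ (finSumFinEquiv i)
        rwa [Equiv.symm_apply_apply] at this) g h)
    Tw.tau Tw.tau_mul_comm Tw.tau_one
    ((φ sigma0)⁻¹ • Tw.map φ (fun _ => rfl) xgen) ((φ sigma0)⁻¹ • Tw.map φ (fun _ => rfl) ygen)
    (by
      intro δ hδ hx hy
      have hδs : ∀ i, δ (φ (s0 i)) = 0 := fun i => by
        have := hδ (finSumFinEquiv i)
        rwa [Equiv.symm_apply_apply] at this
      have hδsig : δ (φ sigma0) = 0 := by
        refine der_adjoin δ (Set.range fun i => φ (s0 i))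
          (by rintro _ ⟨i, rfl⟩; exact hδs i) _ ?_
        rw [hsig]
        exact prod_mem fun i _ => Algebra.subset_adjoin ⟨i, rfl⟩
      have key : ∀ l : L, δ ((φ sigma0)⁻¹ * l) = 0 → δ l = 0 := by
        intro l hl
        have h2 : l = φ sigma0 * ((φ sigma0)⁻¹ * l) := by
          rw [← mul_assoc, mul_inv_cancel₀ hsig0, one_mul]
        rw [h2, Derivation.leibniz, hl, hδsig, smul_zero, smul_zero, add_zero]
      have hδφ : ∀ p, δ (φ p) = 0 := by
        intro p
        induction p using MvPolynomial.induction_on with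
        | C a =>
          have h3 : φ (C a) = algebraMap ℚ L a := by
            have := eq_ratCast (φ.comp C) a
            rw [eq_ratCast (algebraMap ℚ L) a]
            exact this
          rw [h3]
          exact δ.map_algebraMap a
        | add p q hp hq => rw [map_add, map_add, hp, hq, add_zero]
        | mul_X p j hp =>
          have hj : δ (φ (X j)) = 0 := by
            rcases j with (g | g) | i
            · apply key
              have := hx g
              rw [Tw.basis_repr, Tw.smul_apply, Tw.map_apply] at this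
              exact this
            · apply key
              have := hy g
              rw [Tw.basis_repr, Tw.smul_apply, Tw.map_apply] at this
              exact this
            · exact hδs i
          rw [map_mul, Derivation.leibniz, hp, hj, smul_zero, smul_zero, add_zero]
      refine der_eq_zero_of_frac δ (Set.range φ) (by rintro _ ⟨p, rfl⟩; exact hδφ p) ?_
      intro l
      obtain ⟨a, b, hb, rfl⟩ := IsFractionRing.div_surjective (A := MvPolynomial (J0 K) ℚ ⧸ P) l
      obtain ⟨a, rfl⟩ := Ideal.Quotient.mk_surjective a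
      obtain ⟨b, rfl⟩ := Ideal.Quotient.mk_surjective b
      refine ⟨_, Algebra.subset_adjoin ⟨a, rfl⟩, _, Algebra.subset_adjoin ⟨b, rfl⟩, ?_, ?_⟩
      · rw [hφ]
        exact (map_ne_zero_iff _ hinj).2 (nonZeroDivisors.ne_zero hb)
      · rw [hφ, hφ])
    b hb
  rw [Tw.finrank_eq] at h1
  exact h1

/-- The input from L5 needed for the assembly. -/
def L5Stmt0 (K : ℕ) : Prop :=
  ∀ (hK : 0 < K) (P : Ideal (MvPolynomial (J0 K) ℚ)), P.IsPrime → HomI w0 P →
    ¬ (2 : MvPolynomial (Ix K) ℤ) ∣ (polySys w0 (w0_ne_zero hK)).LC P → (∀ i, s0 i ∉ P) →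
    NoZeroDivisors (Tw K (MvPolynomial (J0 K) ℚ ⧸ P) (fun i => Ideal.Quotient.mk P (s0 i)))

/-- The levels. -/
theorem level (h5 : ∀ K, L5Stmt K) (h5' : ∀ K, L5Stmt0 K) (Φ : ℕ → TExp) (n : ℕ) :
    ∃ (L D : Type) (_ : Field L) (_ : DivisionRing D)
      (_ : Algebra L D) (_ : Algebra ℚ D) (τ : D →ₗ[L] L) (x y : D), τ 1 = 1 ∧
      (∀ j ≤ n, ∃ c : Fin (2 ^ (j + 3) + 1) → L, c ≠ 0 ∧
        ∑ i, c i • (TExp.eval (trD τ) x y (Φ j)) ^ (i : ℕ) = 0) ∧
      n ≤ Module.finrank L (Algebra.adjoin L ({x, y} : Set D)) := by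
  obtain ⟨P, hP, hH, hLC, hc, hrel⟩ := L8_of_L5 h5 Φ n (n + 3) (by omega) le_rfl
  have hs : ∀ i, s0 i ∉ P := fun i =>
    X_notMem_of_good w0 _ hP hH hLC (Sum.inr i) (by rw [w0_s]; exact two_dvd_dotTh_single i)
  haveI := hP
  let L := FractionRing (MvPolynomial (J0 (n + 3)) ℚ ⧸ P)
  let φ : MvPolynomial (J0 (n + 3)) ℚ →+* L :=
    (algebraMap (MvPolynomial (J0 (n + 3)) ℚ ⧸ P) L).comp (Ideal.Quotient.mk P)
  haveI : CharZero L := charZero_of_injective_algebraMap (algebraMap ℚ L).injective
  haveI hNZ := h5' (n + 3) (by omega) P hP hH hLC hs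
  haveI hNZ' : NoZeroDivisors (Tw (n + 3) L (fun i => φ (s0 i))) :=
    Tw.noZeroDivisors_frac (s := fun i => Ideal.Quotient.mk P (s0 i)) (fun _ => rfl)
  letI iQ : Algebra ℚ (Tw (n + 3) L (fun i => φ (s0 i))) :=
    Algebra.compHom _ (algebraMap ℚ L)
  refine ⟨L, Tw (n + 3) L (fun i => φ (s0 i)), inferInstance, Tw.divisionRing, inferInstance, iQ,
    Tw.tau, (φ sigma0)⁻¹ • Tw.map φ (fun _ => rfl) xgen,
    (φ sigma0)⁻¹ • Tw.map φ (fun _ => rfl) ygen, Tw.tau_one, ?_, ?_⟩
  · intro j hj
    exact (polyRel_iff _ _).1 (hrel L φ (fun p hp => by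
      change algebraMap _ L (Ideal.Quotient.mk P p) = 0
      rw [Ideal.Quotient.eq_zero_iff_mem.2 hp, map_zero]) j hj)
  · have h1 := dim_bound P hs L φ (fun _ => rfl)
    have h2 := polySys_c_add_td w0 (w0_ne_zero (K := n + 3) (by omega)) P
    rw [card_J0] at h2
    change n ≤ Module.finrank L (Algebra.adjoin L
      ({(φ sigma0)⁻¹ • Tw.map φ (fun _ => rfl) xgen, (φ sigma0)⁻¹ • Tw.map φ (fun _ => rfl) ygen} :
        Set (Tw (n + 3) L (fun i => φ (s0 i)))))
    revert h1
    generalize Module.finrank L (Algebra.adjoin L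
      ({(φ sigma0)⁻¹ • Tw.map φ (fun _ => rfl) xgen, (φ sigma0)⁻¹ • Tw.map φ (fun _ => rfl) ygen} :
        Set (Tw (n + 3) L (fun i => φ (s0 i))))) = G
    intro h1
    by_contra hG
    push Not at hG
    have h3 : 2 ^ (2 * (n + 3)) = 64 * (2 ^ n) ^ 2 := by
      rw [← pow_mul, mul_add, pow_add, mul_comm n 2]
      norm_num
      ring
    have h4 : G ^ 2 ≤ (2 ^ n) ^ 2 :=
      Nat.pow_le_pow_left (hG.le.trans (Nat.lt_two_pow_self).le) 2
    have h5 : 0 < (2 ^ n) ^ 2 := by positivity
    omega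

/-- **Main theorem** (from L5): a counterexample to Kurosh's problem for division rings. -/
theorem kurosh_main_of (h5 : ∀ K, L5Stmt K) (h5' : ∀ K, L5Stmt0 K) :
    ∃ (F A : Type) (_ : Field F) (_ : CharZero F) (_ : Countable F) (_ : DivisionRing A)
      (_ : Algebra F A) (x y : A),
      (∀ a : A, IsAlgebraic F a) ∧ Algebra.adjoin F ({x, y} : Set A) = ⊤ ∧
        ¬ Module.Finite F A :=
  Vale.Agent.P199.H.kurosh_of_levels (fun j => 2 ^ (j + 3)) fun Φ n => level h5 h5' Φ n

theorem l5Stmt0 (K : ℕ) : L5Stmt0 K := by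
  intro hK P hP hH hLC _
  exact L5 w0 (w0_ne_zero hK) (js := Sum.inr) Sum.inr_injective (fun i => rfl) hP hH hLC

/-- **Main theorem**: a counterexample to Kurosh's problem for division rings, over a countable
central field of characteristic zero, generated by two elements. -/
theorem kurosh_main :
    ∃ (F A : Type) (_ : Field F) (_ : CharZero F) (_ : Countable F) (_ : DivisionRing A)
      (_ : Algebra F A) (x y : A),
      (∀ a : A, IsAlgebraic F a) ∧ Algebra.adjoin F ({x, y} : Set A) = ⊤ ∧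
        ¬ Module.Finite F A :=
  kurosh_main_of l5Stmt l5Stmt0

end P199H
end
end
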